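import Vale.Agent.P232.Pins

/-!
# P232: the statements closing the middle range of volumes

Everything is on the full period: a symmetrical function is even in each coordinate and decreases
on the half period, so a slice is of one of three kinds according to its values at the two edge
points `(1/2, 0)` and `(0, 1/2)`.
-/

noncomputable section

open MeasureTheory Filter Topology Set Function

namespace Vale.Agent.P232.Win

variable {n : ℕ}

/-- Even in each coordinate and decreasing on the half period. -/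
structure Sym (u : (Fin n → ℝ) → ℝ) : Prop where
  even : ∀ i x, u (update x i (-x i)) = u x
  antitone : ∀ i x, AntitoneOn (fun t => u (update x i t)) (Icc 0 (1 / 2))

/-- The value at height `t` on the axis `i` over the middle of the axis `j`. -/
def edge (u : (Fin 3 → ℝ) → ℝ) (i j : Fin 3) (t : ℝ) : ℝ :=
  u (update (update (0 : Fin 3 → ℝ) j (1 / 2)) i t)

/-- The far area along an axis. -/
def far (u : (Fin 3 → ℝ) → ℝ) (i : Fin 3) : ℝ := area u i (1 / 2)

/-- The function is nearly an indicator on the far faces and on the edges. -/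
structure Sharp (u : (Fin 3 → ℝ) → ℝ) (η : ℝ) : Prop where
  face : ∀ i, volume.real {y ∈ box 2 | slice u i (1 / 2) y ∈ Ioo (0 : ℝ) 1} ≤ η
  edge : ∀ i j, i ≠ j → volume.real {t ∈ Icc (0 : ℝ) (1 / 2) | edge u i j t ∈ Ioo (0 : ℝ) 1} ≤ η

/-- A narrow band of levels replaces the function. -/
def Sharpen : Prop :=
  ∀ η B : ℝ, 0 < η → ∃ δ > 0, ∀ u : (Fin 3 → ℝ) → ℝ, Adm u → Sym u → dfct u ≤ δ → energy u ≤ B →
    ∃ u', Adm u' ∧ Sym u' ∧ |mean u' - mean u| ≤ η ∧ dfct u' ≤ η ∧ energy u' ≤ energy u + η ∧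
      (∀ x, u x = 0 → u' x = 0) ∧ Sharp u' η

/-- Cutting a tail keeps the symmetry. -/
def SymCut : Prop :=
  ∀ u : (Fin 3 → ℝ) → ℝ, Adm u → Sym u → ∀ (i : Fin 3) (β η : ℝ), 0 ≤ β → 0 < η → η ≤ 1 / 4 →
    β * Real.sqrt η ≤ 2 * Real.sqrt Real.pi → η < mean u → CanCut (area u i) β η →
    ∀ δ : ℝ, 0 < δ → ∃ u', Adm u' ∧ Sym u' ∧ (∀ x, u' x ≤ u x) ∧ HasGap u' i ∧
      dfct u' ≤ dfct u + δ ∧ mean u - mean u' ≤ η ∧
      energy u' + β * (mean u - mean u') ≤ energy u + err (dfct u) + δ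

/-- The mean on the middle line of the axis `0`. -/
def contact (w : (Fin 2 → ℝ) → ℝ) : ℝ := ∫ t in (0 : ℝ)..1, w ![1 / 2, t]

/-- A slice which reaches neither edge. -/
def SliceNone : Prop :=
  ∀ w : (Fin 2 → ℝ) → ℝ, Adm w → Sym w → w ![1 / 2, 0] = 0 → w ![0, 1 / 2] = 0 →
    2 * Real.sqrt (Real.pi * mean w) - 2 * err (dfct w) ≤ energy w

/-- A slice which reaches both edges. -/
def SliceBoth : Prop :=
  ∀ w : (Fin 2 → ℝ) → ℝ, Adm w → Sym w → w ![1 / 2, 0] = 1 → w ![0, 1 / 2] = 1 →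
    2 * Real.sqrt (Real.pi * (1 - mean w)) - 2 * err (dfct w) ≤ energy w

/-- A slice which reaches only the edge of the axis `0`: calibrations by straight and circular
arcs. -/
def SliceOne : Prop :=
  ∀ w : (Fin 2 → ℝ) → ℝ, Adm w → Sym w → w ![1 / 2, 0] = 1 → w ![0, 1 / 2] = 0 →
    (∀ c s : ℝ, 0 ≤ c → 0 ≤ s → c ^ 2 + s ^ 2 ≤ 1 →
      2 * (c + s * (mean w - contact w)) ≤ energy w) ∧
    ∀ R : ℝ, 1 ≤ R →
      2 * ((mean w - contact w) / R + ∫ t in (0 : ℝ)..1, Real.sqrt (1 - (t / R) ^ 2)) ≤ energy w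

/-- A slice which reaches both edges, the middle line being full on the measure `1 - H` at least. -/
def SliceStrip : Prop :=
  ∀ w : (Fin 2 → ℝ) → ℝ, Adm w → Sym w → w ![1 / 2, 0] = 1 → w ![0, 1 / 2] = 1 →
    ∀ H : ℝ, 0 < H → 1 - H ≤ volume.real {t ∈ Ico (0 : ℝ) 1 | w ![1 / 2, t] = 1} →
      Real.pi * H ^ 2 / 4 ≤ 1 - mean w →
      2 * ((1 - mean w) / H + Real.pi * H / 4 -
        volume.real {t ∈ Ico (0 : ℝ) 1 | w ![1 / 2, t] ∈ Ioo (0 : ℝ) 1}) ≤ energy w

/-- The calibration of a slice inequality in the plane of the square root. -/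
def TubeScalar : Prop :=
  ∀ c v m : ℝ, 39 / 1000 ≤ c → c ≤ v → v ≤ m → m ≤ 1 → 259 / 1000 ≤ v → v ≤ 368 / 1000 →
    ∃ α β : ℝ, |α| ≤ 20 ∧ |β| ≤ 20 ∧
      (∀ a ∈ Icc c m, 0 ≤ α + β * a ∧ α + β * a ≤ Real.sqrt (Real.pi * a)) ∧
      Real.sqrt (Real.pi * v) ≤ α + β * v +
        ∫ a in c..m, Real.sqrt (max 0 (1 - (α + β * a) ^ 2 / (Real.pi * a)))

end Vale.Agent.P232.Win
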