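import Vale.Agent.P232.CutStep
import Vale.Agent.P232.Win.Pins

/-!
# P232: cutting the tail of a symmetrical function
-/

noncomputable section

open MeasureTheory Filter Topology Set Function

namespace Vale.Agent.P232.Win

open Vale.Agent.P232.Cut

variable {u : (Fin 3 → ℝ) → ℝ}

theorem area_anti (hu : Adm u) (hS : Sym u) (i : Fin 3) :
    AntitoneOn (area u i) (Icc 0 (1 / 2)) := fun s hs t ht hst => by
  refine setIntegral_box_mono (hu.slice i t).smooth.continuous (hu.slice i s).smooth.continuous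
    fun y _ => ?_
  have h := hS.antitone i (i.insertNth 0 y) hs ht hst
  simpa [Vale.Agent.P232.slice] using h

theorem area_even (hS : Sym u) (i : Fin 3) (z : ℝ) : area u i (-z) = area u i z := by
  unfold area
  congr 1
  funext y
  simpa [Vale.Agent.P232.slice] using hS.even i (i.insertNth z y)

theorem area_periodic (hu : Adm u) (i : Fin 3) : Function.Periodic (area u i) 1 := fun z => by
  exact setIntegral_congr_fun measurableSet_box fun y _ => hu.per.insertNth_add_one i z y

theorem area_mirror (hu : Adm u) (hS : Sym u) (i : Fin 3) (z : ℝ) :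
    area u i (1 - z) = area u i z := by
  rw [show (1 : ℝ) - z = -z + 1 by ring, area_periodic hu i, area_even hS i]

theorem mean_le_area_zero (hu : Adm u) (hS : Sym u) (i : Fin 3) : mean u ≤ area u i 0 := by
  have hc : Continuous (area u i) :=
    continuous_iff_continuousAt.2 fun z => (hasDerivAt_area hu i z).continuousAt
  have he : (∫ z in (0 : ℝ)..1, area u i z) = mean u :=
    (integral_box_succ hu.smooth.continuous i).symm
  rw [← he]
  refine (intervalIntegral.integral_mono_on zero_le_one (hc.intervalIntegrable _ _)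
    (intervalIntegrable_const (c := area u i 0)) fun z hz => ?_).trans_eq (by simp)
  have h0 : (0 : ℝ) ∈ Icc (0 : ℝ) (1 / 2) := ⟨le_rfl, by norm_num⟩
  rcases le_total z (1 / 2) with h | h
  · exact area_anti hu hS i h0 ⟨hz.1, h⟩ hz.1
  · rw [← area_mirror hu hS i z]
    exact area_anti hu hS i h0 ⟨by linarith [hz.2], by linarith⟩ (by linarith [hz.2])

/-- A cut of an even decreasing profile can be centred at the middle. -/
theorem centred_cut (hu : Adm u) (hS : Sym u) (i : Fin 3) {β η : ℝ} (hβ : 0 ≤ β)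
    (hβη : β * Real.sqrt η ≤ 2 * Real.sqrt Real.pi) (hηm : η < mean u)
    (hcut : CanCut (area u i) β η) :
    ∃ z : ℝ, 1 / 2 < z ∧ z < 1 ∧ (∀ y ∈ Icc (1 - z) z, area u i y ≤ η) ∧
      area u i z ≤ ∫ y in (1 / 2 : ℝ)..z, cutRate β (area u i y) := by
  obtain ⟨z₀, ⟨z₂, h02, h2b, haR, hR⟩, z₁, h1b, h10, haL, hL⟩ := hcut
  set a := area u i with ha
  have hac : Continuous a :=
    continuous_iff_continuousAt.2 fun z => (hasDerivAt_area hu i z).continuousAt
  have hmir : ∀ z, a (1 - z) = a z := area_mirror hu hS i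
  have hper : ∀ z (k : ℤ), a (z + k) = a z := fun z k => by
    simpa using (area_periodic hu i).int_mul k z
  have hbig : η < a 0 := hηm.trans_le (mean_le_area_zero hu hS i)
  set k := ⌊z₀⌋
  have k0 := Int.floor_le z₀
  have k1 := Int.lt_floor_add_one z₀
  have hlo : (k : ℝ) < z₁ := by
    by_contra h
    have := haL k ⟨by linarith, k0⟩
    rw [show (k : ℝ) = 0 + (k : ℤ) by simp, hper] at this
    linarith
  have hhi : z₂ < k + 1 := by
    by_contra h
    have := haR (k + 1) ⟨k1.le, by linarith⟩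
    rw [show (k : ℝ) + 1 = 0 + ((k + 1 : ℤ) : ℝ) by push_cast; ring, hper] at this
    linarith
  have hg : Continuous fun y => cutRate β (a y) := by unfold cutRate; fun_prop
  have hi := fun x y => hg.intervalIntegrable (μ := volume) x y
  have hrate : ∀ y, a y ≤ η → 0 ≤ cutRate β (a y) := fun y hy =>
    Cut.cutRate_nonneg hβ hβη (mean_mem (hu.slice i y)).1 hy
  have hanti : ∀ w y, 1 / 2 ≤ y → y ≤ w → w ≤ 1 → a y ≤ a w := fun w y h1 h2 h3 => by
    rw [← hmir y, ← hmir w]
    exact area_anti hu hS i ⟨by linarith, by linarith⟩ ⟨by linarith, by linarith⟩ (by linarith)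
  have fill : ∀ w, 1 / 2 < w → w < 1 → a w ≤ η → ∀ y ∈ Icc (1 - w) w, a y ≤ η := by
    intro w h1 h2 hw y hy
    rcases le_total (1 / 2) y with h | h
    · exact (hanti w y h hy.2 h2.le).trans hw
    · rw [← hmir y]; exact (hanti w _ (by linarith) (by linarith [hy.1]) h2.le).trans hw
  have widen : ∀ x w, 1 / 2 ≤ x → x ≤ w → (∀ y ∈ Icc (1 / 2) w, a y ≤ η) →
      ∫ y in x..w, cutRate β (a y) ≤ ∫ y in (1 / 2 : ℝ)..w, cutRate β (a y) := by
    intro x w h1 h2 h
    rw [← intervalIntegral.integral_add_adjacent_intervals (hi (1 / 2) x) (hi x w)]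
    exact le_add_of_nonneg_left (intervalIntegral.integral_nonneg h1 fun y hy =>
      hrate y (h y ⟨hy.1, hy.2.trans h2⟩))
  rcases le_total (1 / 2) (z₀ - k) with h | h
  · set w := z₂ - k with hw
    have haw : a w = a z₂ := by rw [← hper w k]; simp [hw]
    have hwη : a w ≤ η := haw ▸ haR z₂ ⟨h02.le, le_rfl⟩
    have hf := fill w (by linarith) (by linarith) hwη
    refine ⟨w, by linarith, by linarith, hf, ?_⟩
    have e : ∫ y in (z₀ - k)..w, cutRate β (a y) = ∫ y in z₀..z₂, cutRate β (a y) := by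
      rw [hw, ← intervalIntegral.integral_comp_sub_right (fun y => cutRate β (a y)) (k : ℝ)]
      refine intervalIntegral.integral_congr fun y _ => ?_
      show _ = cutRate β (a y)
      rw [← hper (y - k) k]; simp
    calc a w = a z₂ := haw
      _ ≤ _ := hR
      _ = _ := e.symm
      _ ≤ _ := widen _ w h (by linarith) fun y hy => hf y ⟨by linarith [hy.1], hy.2⟩
  · set w := 1 + k - z₁ with hw
    have haw : a w = a z₁ := by
      rw [show w = (1 - z₁) + k by rw [hw]; ring, hper, hmir]
    have hwη : a w ≤ η := haw ▸ haL z₁ ⟨le_rfl, h10.le⟩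
    have hf := fill w (by linarith) (by linarith) hwη
    refine ⟨w, by linarith, by linarith, hf, ?_⟩
    have e : ∫ y in (1 + k - z₀)..w, cutRate β (a y) = ∫ y in z₁..z₀, cutRate β (a y) := by
      rw [hw, ← intervalIntegral.integral_comp_sub_left (fun y => cutRate β (a y)) (1 + (k : ℝ))]
      refine intervalIntegral.integral_congr fun y _ => ?_
      show _ = cutRate β (a y)
      rw [show 1 + (k : ℝ) - y = (1 - y) + k by ring, hper, hmir]
    calc a w = a z₁ := haw
      _ ≤ _ := hL
      _ = _ := e.symm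
      _ ≤ _ := widen _ w (by linarith) (by linarith) fun y hy =>
          hf y ⟨by linarith [hy.1], hy.2⟩

theorem cutoff_zero_centred {κ L : ℝ} (z : ℝ) (hκ : 0 < κ) (hL1 : L < 1) :
    cutoff κ ((1 - L) / 2) L (-z) = cutoff κ ((1 - L) / 2) L z := by
  unfold cutoff
  set c := Int.fract (z - (1 - L) / 2) with hc
  rw [show -z - (1 - L) / 2 = -(z - (1 - L) / 2) + L + ((-1 : ℤ) : ℝ) by push_cast; ring,
    Int.fract_add_intCast]
  have hpr : ∀ r, profile κ L (L - r) = profile κ L r := fun r => by
    unfold profile; rw [sub_sub_cancel, mul_comm]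
  have e : Int.fract (-(z - (1 - L) / 2) + L) = Int.fract (L - c) := by
    rw [show -(z - (1 - L) / 2) + L = (L - c) + ((-⌊z - (1 - L) / 2⌋ : ℤ) : ℝ) by
      rw [hc, Int.fract]; push_cast; ring, Int.fract_add_intCast]
  rw [e]
  rcases lt_or_ge (L - c) 0 with h | h
  · have : Int.fract (L - c) = L - c + ⌈-(L - c)⌉ := by
      rw [Int.fract_eq_iff]
      refine ⟨?_, ?_, ⟨-⌈-(L - c)⌉, by push_cast; ring⟩⟩
      · linarith [Int.le_ceil (-(L - c))]
      · linarith [Int.ceil_lt_add_one (-(L - c))]
    have hL' : L ≤ c := by linarith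
    rcases le_or_gt L (Int.fract (L - c)) with h' | h'
    · rw [profile_right hκ h', profile_right hκ hL']
    · exfalso
      have h1 : (1 : ℝ) ≤ ⌈-(L - c)⌉ := by exact_mod_cast Int.ceil_pos.2 (by linarith)
      linarith [Int.fract_lt_one (z - (1 - L) / 2)]
  · rcases lt_or_ge (L - c) 1 with h1 | h1
    · rw [Int.fract_eq_self.2 ⟨h, h1⟩, hpr]
    · linarith [Int.fract_nonneg (z - (1 - L) / 2), hc]

theorem monotoneOn_cutoff {κ L : ℝ} (hκ : 0 < κ) (hκL : 2 * κ ≤ L) (hL : L < 1) :
    MonotoneOn (cutoff κ ((1 - L) / 2) L) (Icc 0 (1 / 2)) := by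
  have key : ∀ s ∈ Icc (0 : ℝ) (1 / 2),
      cutoff κ ((1 - L) / 2) L s = step κ (s - (1 - L) / 2) := by
    intro s hs
    unfold cutoff
    rcases lt_or_ge (s - (1 - L) / 2) 0 with h | h
    · have : Int.fract (s - (1 - L) / 2) = s - (1 - L) / 2 + 1 := by
        rw [Int.fract_eq_iff]
        exact ⟨by linarith [hs.1], by linarith, ⟨-1, by push_cast; ring⟩⟩
      rw [this, profile_right hκ (by linarith [hs.1]), step_zero hκ h.le]
    · rw [Int.fract_eq_self.2 ⟨h, by linarith [hs.2]⟩, profile,
        step_one hκ (show κ ≤ L - (s - (1 - L) / 2) by linarith [hs.2]), mul_one]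
  intro s hs t ht hst
  rw [key s hs, key t ht]
  exact Real.smoothTransition.monotone (div_le_div_of_nonneg_right (by linarith) hκ.le)

theorem symCut (hSl : Slicing) : SymCut := by
  intro u hu hS i β η hβ hη hη4 hβη hηm hcut δ hδ
  obtain ⟨z, hz1, hz2, haη, hz⟩ := centred_cut hu hS i hβ hβη hηm hcut
  have hmir : ∀ y, area u i (1 - y) = area u i y := area_mirror hu hS i
  have hLft : area u i (1 - z) ≤ ∫ y in (1 - z)..(1 / 2 : ℝ), cutRate β (area u i y) := by
    rw [hmir]
    refine hz.trans_eq ?_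
    have h := intervalIntegral.integral_comp_sub_left
      (fun y => cutRate β (area u i y)) (a := 1 / 2) (b := z) (1 : ℝ)
    rw [show (1 : ℝ) - 1 / 2 = 1 / 2 by norm_num] at h
    rw [← h]
    exact intervalIntegral.integral_congr fun y _ => by simp only [hmir]
  obtain ⟨κ, hκ, hκL, u', hu', hA, hle, hgap, h⟩ := cutAt hSl hu i hβ hη hη4 hβη hz1
    (by linarith) (fun y hy => haη y ⟨by linarith [hy.1], hy.2⟩) hz (by linarith) (by linarith)
    (fun y hy => haη y ⟨hy.1, by linarith [hy.2]⟩) hLft hδ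
  refine ⟨u', hA, ?_, hle, hgap, h⟩
  set L := z - (1 - z) with hL
  have hc : 1 - z = (1 - L) / 2 := by rw [hL]; ring
  subst hu'
  have hev : ∀ t, cutoff κ (1 - z) L (-t) = cutoff κ (1 - z) L t := fun t => by
    rw [hc]; exact cutoff_zero_centred t hκ (by rw [hL]; linarith)
  have hmo : MonotoneOn (cutoff κ (1 - z) L) (Icc 0 (1 / 2)) := by
    rw [hc]; exact monotoneOn_cutoff hκ hκL (by rw [hL]; linarith)
  have h01 : ∀ t, cutoff κ (1 - z) L t ∈ Icc (0 : ℝ) 1 := fun t => profile_mem
  refine ⟨fun j x => ?_, fun j x s hs t ht hst => ?_⟩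
  · simp only [hS.even j x]
    rcases eq_or_ne j i with rfl | hji
    · rw [update_self, hev]
    · rw [update_of_ne hji.symm]
  · rcases eq_or_ne j i with rfl | hji
    · simp only [update_self]
      exact mul_le_mul (hS.antitone j x hs ht hst) (by linarith [hmo hs ht hst])
        (by linarith [(h01 t).2]) (hu.mem _).1
    · simp only [update_of_ne hji.symm]
      exact mul_le_mul_of_nonneg_right (hS.antitone j x hs ht hst) (by linarith [(h01 (x i)).2])

end Vale.Agent.P232.Win
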