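import Vale.Agent.P232.Win.Slices
import Vale.Agent.P232.Win.SymCut

/-!
# P232: slices with the two other axes in a chosen order
-/

noncomputable section

open MeasureTheory Filter Topology Set Function

namespace Vale.Agent.P232.Win

open Planar

/-- Exchange of the two coordinates. -/
def flip2 (y : Fin 2 → ℝ) : Fin 2 → ℝ := ![y 1, y 0]

theorem continuous_flip2 : Continuous flip2 := by unfold flip2; fun_prop

theorem flip2_pair (a b : ℝ) : flip2 ![a, b] = ![b, a] := rfl

variable {w : (Fin 2 → ℝ) → ℝ}

theorem hasFDerivAt_flip2 (y : Fin 2 → ℝ) :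
    HasFDerivAt flip2
      (ContinuousLinearMap.pi fun j : Fin 2 =>
        ContinuousLinearMap.proj (R := ℝ) (φ := fun _ : Fin 2 => ℝ) (1 - j)) y :=
  hasFDerivAt_pi.2 fun j => by fin_cases j <;> exact hasFDerivAt_apply _ _

theorem adm_flip (hw : Adm w) : Adm fun y => w (flip2 y) where
  smooth := hw.smooth.comp (contDiff_pi.2 fun j => by
    fin_cases j <;> exact contDiff_apply ℝ ℝ _)
  periodic := fun y i => by
    fin_cases i
    · show w (flip2 _) = w (flip2 _)
      rw [← hw.periodic (flip2 y) 1]
      congr 1; funext j; fin_cases j <;> simp [flip2]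
    · show w (flip2 _) = w (flip2 _)
      rw [← hw.periodic (flip2 y) 0]
      congr 1; funext j; fin_cases j <;> simp [flip2]
  mem := fun y => hw.mem _

theorem sym_flip (hs : Sym w) : Sym fun y => w (flip2 y) where
  even := fun i y => by
    fin_cases i
    · show w (flip2 _) = w (flip2 _)
      have h := hs.even 1 (flip2 y)
      rw [← h]; congr 1; funext j; fin_cases j <;> simp [flip2]
    · show w (flip2 _) = w (flip2 _)
      have h := hs.even 0 (flip2 y)
      rw [← h]; congr 1; funext j; fin_cases j <;> simp [flip2]
  antitone := fun i y => by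
    fin_cases i
    · have h := hs.antitone 1 (flip2 y)
      convert h using 3 with t
      funext j; fin_cases j <;> simp [flip2]
    · have h := hs.antitone 0 (flip2 y)
      convert h using 3 with t
      funext j; fin_cases j <;> simp [flip2]

theorem integral_flip {f : (Fin 2 → ℝ) → ℝ} (hf : Continuous f) :
    ∫ y in box 2, f (flip2 y) = ∫ y in box 2, f y := by
  rw [integral_square (f := fun y => f (flip2 y)) (hf.comp continuous_flip2), integral_square_swap hf]
  rfl

theorem mean_flip (hw : Adm w) : mean (fun y => w (flip2 y)) = mean w :=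
  integral_flip hw.smooth.continuous

theorem dfct_flip (hw : Adm w) : dfct (fun y => w (flip2 y)) = dfct w :=
  integral_flip (f := fun y => w y * (1 - w y))
    (hw.smooth.continuous.mul (continuous_const.sub hw.smooth.continuous))

theorem grad_flip (hw : Adm w) (y : Fin 2 → ℝ) :
    grad (fun y => w (flip2 y)) y = grad w (flip2 y) := by
  have h := ((hw.smooth.differentiable one_ne_zero (flip2 y)).hasFDerivAt.comp y
    (hasFDerivAt_flip2 y)).fderiv
  rw [show (w ∘ flip2) = fun y => w (flip2 y) from rfl] at h
  have e : ∀ k : Fin 2, pd (fun y => w (flip2 y)) k y = pd w (1 - k) (flip2 y) := by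
    intro k
    rw [pd, h, pd, ContinuousLinearMap.comp_apply]
    congr 1
    funext j
    fin_cases j <;> fin_cases k <;> simp
  simp only [grad, Fin.sum_univ_two, e]
  rw [add_comm]
  rfl

theorem energy_flip (hw : Adm w) : energy (fun y => w (flip2 y)) = energy w := by
  unfold energy
  simp only [grad_flip hw]
  exact integral_flip (continuous_grad hw.smooth)

/-- The slice across `i` at height `z` with coordinates in the order `j`, `k`. -/
def frame (u : (Fin 3 → ℝ) → ℝ) (i j k : Fin 3) (z : ℝ) : (Fin 2 → ℝ) → ℝ :=
  fun y => u (update (update (update (0 : Fin 3 → ℝ) i z) j (y 0)) k (y 1))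

variable {u : (Fin 3 → ℝ) → ℝ} {i j k : Fin 3}

theorem frame_cases (hij : i ≠ j) (hik : i ≠ k) (hjk : j ≠ k) :
    (∀ z, frame u i j k z = slice u i z) ∨ ∀ z, frame u i j k z = fun y => slice u i z (flip2 y) := by
  have key : (∀ (z : ℝ) (y : Fin 2 → ℝ),
      update (update (update (0 : Fin 3 → ℝ) i z) j (y 0)) k (y 1) = i.insertNth z y) ∨
      ∀ (z : ℝ) (y : Fin 2 → ℝ),
      update (update (update (0 : Fin 3 → ℝ) i z) j (y 0)) k (y 1) = i.insertNth z (flip2 y) := by
    fin_cases i <;> fin_cases j <;> fin_cases k <;> first
      | exact absurd rfl hij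
      | exact absurd rfl hik
      | exact absurd rfl hjk
      | (left; intro z y; funext l; fin_cases l <;>
          simp [Fin.insertNth, Fin.succAboveCases, Function.update]; done)
      | (right; intro z y; funext l; fin_cases l <;>
          simp [Fin.insertNth, Fin.succAboveCases, Function.update, flip2]; done)
  rcases key with h | h
  · exact Or.inl fun z => by funext y; simp [frame, Vale.Agent.P232.slice, h]
  · exact Or.inr fun z => by funext y; simp [frame, Vale.Agent.P232.slice, h]

theorem update_insert (i : Fin 3) (z : ℝ) (y : Fin 2 → ℝ) (l : Fin 2) (t : ℝ) :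
    update (i.insertNth (α := fun _ => ℝ) z y) (i.succAbove l) t =
      i.insertNth z (update y l t) := by
  funext m
  rcases Fin.eq_self_or_eq_succAbove i m with rfl | ⟨r, rfl⟩
  · rw [update_of_ne (Fin.succAbove_ne _ l).symm]; simp
  · rcases eq_or_ne r l with rfl | hr
    · simp
    · rw [update_of_ne fun h => hr (Fin.succAbove_right_injective h)]
      simp [update_of_ne hr]

theorem sym_slice (hS : Sym u) (i : Fin 3) (z : ℝ) : Sym (slice u i z) where
  even := fun l y => by
    have h := hS.even (i.succAbove l) (i.insertNth z y)
    simp only [Fin.insertNth_apply_succAbove, update_insert] at h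
    exact h
  antitone := fun l y => by
    have h := hS.antitone (i.succAbove l) (i.insertNth z y)
    simp only [update_insert] at h
    exact h

/-- What a frame keeps. -/
theorem frame_spec (hu : Adm u) (hS : Sym u) (hij : i ≠ j) (hik : i ≠ k) (hjk : j ≠ k) (z : ℝ) :
    Adm (frame u i j k z) ∧ Sym (frame u i j k z) ∧ mean (frame u i j k z) = area u i z ∧
      dfct (frame u i j k z) = dfct (slice u i z) ∧
      energy (frame u i j k z) = energy (slice u i z) := by
  have hA := hu.slice i z
  rcases frame_cases (u := u) hij hik hjk with h | h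
  · rw [h z]
    exact ⟨hA, sym_slice hS i z, rfl, rfl, rfl⟩
  · rw [h z]
    exact ⟨adm_flip hA, sym_flip (sym_slice hS i z), mean_flip hA, dfct_flip hA, energy_flip hA⟩

theorem frame_left (hij : i ≠ j) (hjk : j ≠ k) (hik : i ≠ k) (z : ℝ) :
    frame u i j k z ![1 / 2, 0] = edge u i j z := by
  simp only [frame, edge, Matrix.cons_val_zero, Matrix.cons_val_one]
  congr 1
  funext l
  rcases eq_or_ne l k with rfl | hl
  · simp [update_of_ne hjk.symm, update_of_ne hik.symm]
  · rw [update_of_ne hl]
    rcases eq_or_ne l i with rfl | hli
    · simp [update_of_ne hij]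
    · rcases eq_or_ne l j with rfl | hlj
      · simp [update_of_ne hli]
      · simp [update_of_ne hlj, update_of_ne hli]

theorem frame_right (hij : i ≠ j) (hik : i ≠ k) (z : ℝ) :
    frame u i j k z ![0, 1 / 2] = edge u i k z := by
  simp only [frame, edge, Matrix.cons_val_zero, Matrix.cons_val_one]
  congr 1
  funext l
  rcases eq_or_ne l k with rfl | hl
  · simp [update_of_ne hik.symm]
  · rw [update_of_ne hl]
    rcases eq_or_ne l j with rfl | hlj
    · simp [update_of_ne hl, update_of_ne hij.symm]
    · rw [update_of_ne hlj]
      rcases eq_or_ne l i with rfl | hli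
      · simp
      · simp [update_of_ne hli, update_of_ne hl]

/-- The middle line of a frame lies in the far face of its first axis. -/
theorem frame_line (hij : i ≠ j) (z t : ℝ) :
    frame u i j k z ![1 / 2, t] = frame u j i k (1 / 2) ![z, t] := by
  simp only [frame, Matrix.cons_val_zero, Matrix.cons_val_one]
  rw [update_comm hij]

end Vale.Agent.P232.Win
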