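import Vale.Agent.P232.Win.Core
import Vale.Agent.P232.Win.Frame
import Vale.Agent.P232.Slicing

/-!
# P232: from the kinds of slices along an axis to the energy
-/

noncomputable section

open MeasureTheory Filter Topology Set Function

namespace Vale.Agent.P232.Win

open Planar

variable {u : (Fin 3 → ℝ) → ℝ}

/-- Reflected heights have the same slice. -/
theorem slice_mirror (hu : Adm u) (hS : Sym u) (i : Fin 3) (z : ℝ) :
    slice u i (1 - z) = slice u i z := by
  funext y
  show u (i.insertNth (1 - z) y) = u (i.insertNth z y)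
  rw [show (1 : ℝ) - z = -z + 1 by ring, hu.per.insertNth_add_one]
  simpa using hS.even i (i.insertNth z y)

theorem slope_mirror (hu : Adm u) (hS : Sym u) (i : Fin 3) (z : ℝ) :
    slope u i (1 - z) = -slope u i z := by
  have h := (hasDerivAt_area hu i (1 - z)).scomp z ((hasDerivAt_id z).const_sub 1)
  replace h : HasDerivAt (area u i) ((-1 : ℝ) • slope u i (1 - z)) z :=
    h.congr_of_eventuallyEq (Eventually.of_forall fun t => (area_mirror hu hS i t).symm)
  have := h.unique (hasDerivAt_area hu i z)
  simp only [smul_eq_mul, neg_one_mul] at this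
  linarith

/-- The total variation over one slice, all components counted. -/
def sliceGrad (u : (Fin 3 → ℝ) → ℝ) (i : Fin 3) (z : ℝ) : ℝ :=
  ∫ y in box 2, grad u (i.insertNth z y)

theorem continuous_sliceGrad (hu : Adm u) (i : Fin 3) : Continuous (sliceGrad u i) :=
  continuous_sliceInt (continuous_grad hu.smooth) i

theorem split_slice (hu : Adm u) (i : Fin 3) (z : ℝ) {s t : ℝ} (hs : 0 ≤ s) (ht : 0 ≤ t)
    (hst : s ^ 2 + t ^ 2 ≤ 1) :
    s * energy (slice u i z) + t * |slope u i z| ≤ sliceGrad u i z := by
  have hA := hu.slice i z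
  have hci := (continuous_pd hu.smooth i).comp (continuous_insert_fixed i z)
  calc s * energy (slice u i z) + t * |slope u i z|
      ≤ s * energy (slice u i z) + t * ∫ y in box 2, |pd u i (i.insertNth z y)| := by
        linarith [mul_le_mul_of_nonneg_left
          (show |slope u i z| ≤ ∫ y in box 2, |pd u i (i.insertNth z y)| from
            abs_integral_le_integral_abs) ht]
    _ = ∫ y in box 2, (s * grad (slice u i z) y + t * |pd u i (i.insertNth z y)|) := by
        have i1 : IntegrableOn (fun y => s * grad (slice u i z) y) (box 2) :=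
          integrableOn_box (continuous_const.mul (continuous_grad hA.smooth))
        have i2 : IntegrableOn (fun y => t * |pd u i (i.insertNth z y)|) (box 2) :=
          integrableOn_box (continuous_const.mul hci.abs)
        rw [integral_add i1 i2, integral_const_mul, integral_const_mul]
        rfl
    _ ≤ _ := setIntegral_box_mono
        ((continuous_const.mul (continuous_grad hA.smooth)).add (continuous_const.mul hci.abs))
        ((continuous_grad hu.smooth).comp (continuous_insert_fixed i z))
        fun y _ => split_le_grad hu i z y hs ht hst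

theorem integral_area_half (hu : Adm u) (hS : Sym u) (i : Fin 3) :
    ∫ z in (0 : ℝ)..1 / 2, area u i z = mean u / 2 := by
  have hc : Continuous (area u i) :=
    continuous_iff_continuousAt.2 fun z => (hasDerivAt_area hu i z).continuousAt
  have h : ∫ z in (0 : ℝ)..1, area u i z = mean u :=
    (integral_box_succ hu.smooth.continuous i).symm
  rw [half_integral (area_mirror hu hS i) hc] at h
  linarith

/-- A calibration valid slice by slice bounds the energy. -/
theorem axis_core (hu : Adm u) (hS : Sym u) (i : Fin 3) {ok : Fin 3 → ℝ → ℝ → Prop}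
    (K : Calib ok (area u i (1 / 2)) (area u i 0)) {p r : ℝ} (hp : 0 ≤ p) (hpr : p ≤ r)
    (hr : r ≤ 1 / 2) {B : Set ℝ} (hB : MeasurableSet B) {e₀ : ℝ} (he₀ : 0 ≤ e₀)
    (hgood : ∀ k : Fin 3, ∀ z ∈ Ioo (0 : ℝ) (1 / 2), z ∉ B →
      (k = 2 → z < p) → (k = 1 → p < z ∧ z < r) → (k = 0 → r < z) →
      ∀ L, ok k (area u i z) L → 2 * L - (2 * err (dfct (slice u i z)) + e₀) ≤
        energy (slice u i z)) :
    2 * K.value (mean u) (2 * r) (2 * p) (area u i r) (area u i p) ≤
      energy u + 4 * err (dfct u) + e₀ + 480 * volume.real (B ∩ Icc 0 (1 / 2)) := by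
  have hsl : Continuous (slope u i) := continuous_sliceInt (continuous_pd hu.smooth i) i
  set e : ℝ → ℝ := fun z => 2 * err (dfct (slice u i z)) + e₀ with he
  have hec : Continuous e :=
    (continuous_const.mul (continuous_const.mul ((continuous_dfct_slice hu i).rpow_const
      fun _ => Or.inr (by norm_num)))).add continuous_const
  have herr0 : ∀ z, 0 ≤ err (dfct (slice u i z)) := fun z =>
    mul_nonneg (by norm_num) (Real.rpow_nonneg (dfct_nonneg (hu.slice i z)) _)
  have he0 : ∀ z, 0 ≤ e z := fun z => by simp only [he]; linarith [herr0 z]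
  have hGc := continuous_sliceGrad hu i
  have hvar : ∀ z, |slope u i z| ≤ sliceGrad u i z := fun z => by
    simpa using split_slice hu i z (le_refl (0 : ℝ)) zero_le_one (by norm_num)
  have base : ∀ G : ℝ → ℝ, Continuous G →
      (∀ z s t : ℝ, 0 ≤ s → 0 ≤ t → s ^ 2 + t ^ 2 ≤ 1 →
        s * energy (slice u i z) + t * |slope u i z| ≤ G z) →
      K.value (mean u) (2 * r) (2 * p) (area u i r) (area u i p) ≤
        (∫ z in (0 : ℝ)..1 / 2, G z) + (∫ z in (0 : ℝ)..1 / 2, e z) +
          80 * (3 * volume.real (B ∩ Icc 0 (1 / 2))) := by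
    intro G hG hb
    refine core_half K (hasDerivAt_area hu i) hsl (area_anti hu hS i)
      (fun z => mean_mem (hu.slice i z)) (integral_area_half hu hS i) hp hpr hr hB hG hec he0
      (fun z _ => by simpa using hb z 0 1 le_rfl zero_le_one (by norm_num))
      fun k z hz hzB h2 h1 h0 L s t hs ht hst hL => ?_
    have h := mul_le_mul_of_nonneg_left (hgood k z hz hzB h2 h1 h0 L hL) hs
    have hs1 : s ≤ 1 := by nlinarith [sq_nonneg t]
    have := hb z s t hs ht hst
    have := mul_le_of_le_one_left (he0 z) hs1
    simp only [he] at *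
    linarith
  have h1 := base (sliceGrad u i) hGc fun z s t hs ht hst => split_slice hu i z hs ht hst
  have h2 := base (fun z => sliceGrad u i (1 - z)) (hGc.comp (continuous_const.sub continuous_id))
    fun z s t hs ht hst => by
      have h := split_slice hu i (1 - z) hs ht hst
      rwa [slice_mirror hu hS i z, slope_mirror hu hS i z, abs_neg] at h
  have hsum : (∫ z in (0 : ℝ)..1 / 2, sliceGrad u i z) +
      (∫ z in (0 : ℝ)..1 / 2, sliceGrad u i (1 - z)) = energy u := by
    rw [intervalIntegral.integral_comp_sub_left (sliceGrad u i) 1]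
    norm_num
    rw [intervalIntegral.integral_add_adjacent_intervals (hGc.intervalIntegrable _ _)
      (hGc.intervalIntegrable _ _)]
    exact (integral_box_succ (continuous_grad hu.smooth) i).symm
  have hee : 2 * ∫ z in (0 : ℝ)..1 / 2, e z ≤ 4 * err (dfct u) + e₀ := by
    have hde : Continuous fun z => err (dfct (slice u i z)) :=
      continuous_const.mul ((continuous_dfct_slice hu i).rpow_const fun _ => Or.inr (by norm_num))
    have hhalf : ∫ z in (0 : ℝ)..1 / 2, err (dfct (slice u i z)) ≤ err (dfct u) := by
      refine le_trans ?_ (integral_err_le hu i)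
      exact intervalIntegral.integral_mono_interval le_rfl (by norm_num) (by norm_num)
        (Eventually.of_forall herr0) (hde.intervalIntegrable _ _)
    simp only [he]
    rw [intervalIntegral.integral_add (f := fun z => 2 * err (dfct (slice u i z)))
      (g := fun _ => e₀) ((continuous_const.mul hde).intervalIntegrable _ _)
      intervalIntegrable_const, intervalIntegral.integral_const_mul, intervalIntegral.integral_const,
      smul_eq_mul]
    linarith
  linarith

/-- The end of the range where the edge is reached. -/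
def endPt (u : (Fin 3 → ℝ) → ℝ) (i j : Fin 3) : ℝ :=
  sSup (insert 0 {z ∈ Icc (0 : ℝ) (1 / 2) | edge u i j z = 1})

/-- The heights where the edge is between the two values. -/
def midSet (u : (Fin 3 → ℝ) → ℝ) (i j : Fin 3) : Set ℝ :=
  {t ∈ Icc (0 : ℝ) (1 / 2) | edge u i j t ∈ Ioo (0 : ℝ) 1}

theorem measurableSet_midSet (hu : Adm u) (i j : Fin 3) : MeasurableSet (midSet u i j) :=
  measurableSet_Icc.inter (((hu.smooth.continuous.comp
    (continuous_const.update i continuous_id)).measurable) measurableSet_Ioo)

theorem endPt_mem (i j : Fin 3) : endPt u i j ∈ Icc (0 : ℝ) (1 / 2) := by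
  have hbd : ∀ z ∈ insert (0 : ℝ) {z ∈ Icc (0 : ℝ) (1 / 2) | edge u i j z = 1}, z ≤ 1 / 2 := by
    rintro z (rfl | hz)
    · norm_num
    · exact hz.1.2
  exact ⟨le_csSup ⟨1 / 2, hbd⟩ (mem_insert _ _), csSup_le (insert_nonempty _ _) hbd⟩

theorem edge_before (hu : Adm u) (hS : Sym u) {i j : Fin 3} {z : ℝ} (hz0 : 0 ≤ z)
    (hz : z < endPt u i j) : edge u i j z = 1 := by
  obtain ⟨w, hw, hzw⟩ := exists_lt_of_lt_csSup (insert_nonempty _ _) hz
  rcases hw with rfl | ⟨hwI, hw1⟩
  · linarith
  refine le_antisymm (hu.mem _).2 ?_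
  rw [← hw1]
  exact hS.antitone i _ ⟨hz0, hzw.le.trans hwI.2⟩ hwI hzw.le

theorem edge_after (hu : Adm u) {i j : Fin 3} {z : ℝ} (hz : z ≤ 1 / 2)
    (hz' : endPt u i j < z) (hmid : z ∉ midSet u i j) : edge u i j z = 0 := by
  have hI : z ∈ Icc (0 : ℝ) (1 / 2) := ⟨le_trans (endPt_mem i j).1 hz'.le, hz⟩
  have hbd : BddAbove (insert (0 : ℝ) {z ∈ Icc (0 : ℝ) (1 / 2) | edge u i j z = 1}) :=
    ⟨1 / 2, by rintro w (rfl | hw); exacts [by norm_num, hw.1.2]⟩
  have hne : edge u i j z ≠ 1 := fun h =>
    hz'.not_ge (le_csSup hbd (mem_insert_of_mem _ ⟨hI, h⟩))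
  by_contra h0
  exact hmid ⟨hI, lt_of_le_of_ne (hu.mem _).1 (Ne.symm h0), lt_of_le_of_ne (hu.mem _).2 hne⟩

/-- The mean of the slice on the middle line of the axis `j`. -/
def line (u : (Fin 3 → ℝ) → ℝ) (i j k : Fin 3) (z : ℝ) : ℝ := contact (frame u i j k z)

theorem contact_le_mean {w : (Fin 2 → ℝ) → ℝ} (hw : Adm w) (hs : Sym w) :
    contact w ≤ mean w := by
  have hc := hw.smooth.continuous
  rw [mean, integral_square_swap hc]
  refine intervalIntegral.integral_mono_on zero_le_one
    ((hc.comp (by fun_prop : Continuous fun t : ℝ => ![1 / 2, t])).intervalIntegrable _ _)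
    ((continuous_line_int_swap hc).intervalIntegrable _ _) fun t _ => ?_
  refine le_trans (le_of_eq ?_) (intervalIntegral.integral_mono_on zero_le_one
    intervalIntegrable_const
    ((hc.comp (by fun_prop : Continuous fun s : ℝ => ![s, t])).intervalIntegrable _ _)
    fun s _ => ((line_left hw hs t).bounds s).1)
  simp

theorem contact_le_edge {w : (Fin 2 → ℝ) → ℝ} (hw : Adm w) (hs : Sym w) :
    contact w ≤ w ![1 / 2, 0] := by
  refine (intervalIntegral.integral_mono_on zero_le_one
    ((hw.smooth.continuous.comp (by fun_prop : Continuous fun t : ℝ => ![1 / 2, t])).intervalIntegrable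
      _ _) intervalIntegrable_const fun t _ => ((line_right hw hs (1 / 2)).bounds t).2).trans_eq ?_
  simp

theorem contact_nonneg {w : (Fin 2 → ℝ) → ℝ} (hw : Adm w) : 0 ≤ contact w :=
  intervalIntegral.integral_nonneg zero_le_one fun _ _ => (hw.mem _).1

variable {i j k : Fin 3}

theorem frame_mirror (hu : Adm u) (hS : Sym u) (hij : i ≠ j) (hik : i ≠ k) (hjk : j ≠ k)
    (z : ℝ) : frame u i j k (1 - z) = frame u i j k z := by
  rcases frame_cases (u := u) hij hik hjk with h | h <;>
    rw [h, h, slice_mirror hu hS i z]

theorem continuous_line (hu : Adm u) : Continuous (line u i j k) := by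
  have h : Continuous fun q : ℝ × ℝ =>
      u (update (update (update (0 : Fin 3 → ℝ) i q.1) j (1 / 2)) k q.2) :=
    hu.smooth.continuous.comp
      ((Continuous.update (A := fun _ : Fin 3 => ℝ) (Continuous.update (A := fun _ : Fin 3 => ℝ)
        (Continuous.update (A := fun _ : Fin 3 => ℝ) continuous_const i continuous_fst) j
        continuous_const) k continuous_snd : _))
  refine intervalIntegral.continuous_parametric_intervalIntegral_of_continuous'
    (f := fun z t => frame u i j k z ![1 / 2, t]) ?_ 0 1
  simpa [frame, uncurry_def] using h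

theorem line_facts (hu : Adm u) (hS : Sym u) (hij : i ≠ j) (hik : i ≠ k) (hjk : j ≠ k) (z : ℝ) :
    0 ≤ line u i j k z ∧ line u i j k z ≤ area u i z ∧ line u i j k z ≤ edge u i j z := by
  obtain ⟨hA, hs, hm, -, -⟩ := frame_spec hu hS hij hik hjk z
  refine ⟨contact_nonneg hA, ?_, ?_⟩
  · rw [← hm]; exact contact_le_mean hA hs
  · rw [← frame_left hij hjk hik z]; exact contact_le_edge hA hs

theorem line_anti (hu : Adm u) (hS : Sym u) :
    AntitoneOn (line u i j k) (Icc 0 (1 / 2)) := by
  intro a ha b hb hab
  have hc : ∀ z, Continuous fun t : ℝ => frame u i j k z ![1 / 2, t] := fun z => by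
    have h : Continuous fun t : ℝ =>
        u (update (update (update (0 : Fin 3 → ℝ) i z) j (1 / 2)) k t) :=
      hu.smooth.continuous.comp (Continuous.update continuous_const k continuous_id)
    simpa [frame] using h
  refine intervalIntegral.integral_mono_on zero_le_one ((hc b).intervalIntegrable _ _)
    ((hc a).intervalIntegrable _ _) fun t _ => ?_
  simp only [frame, Matrix.cons_val_zero, Matrix.cons_val_one]
  by_cases hji : j = i
  · subst hji; simp
  by_cases hki : k = i
  · subst hki
    rw [update_comm (Ne.symm hji), update_idem, update_comm (Ne.symm hji), update_idem]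
  rw [update_comm (Ne.symm hji), update_comm (Ne.symm hki), update_comm (Ne.symm hji),
    update_comm (Ne.symm hki)]
  exact hS.antitone i _ ha hb hab

theorem far_eq_line (hu : Adm u) (hS : Sym u) (hij : i ≠ j) (hik : i ≠ k) (hjk : j ≠ k) :
    far u j = 2 * ∫ z in (0 : ℝ)..1 / 2, line u i j k z := by
  obtain ⟨hA, -, hm, -, -⟩ := frame_spec hu hS hij.symm hjk hik (1 / 2)
  rw [← half_integral (fun z => by simp only [line, frame_mirror hu hS hij hik hjk])
    (continuous_line hu), far, ← hm, mean, integral_square hA.smooth.continuous]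
  simp only [line, contact, frame_line hij]

/-- The far area of a second axis is at most the greatest area times the length reaching it. -/
theorem far_le (hu : Adm u) (hS : Sym u) (hij : i ≠ j) (hik : i ≠ k) (hjk : j ≠ k) {η : ℝ}
    (hη : volume.real (midSet u i j) ≤ η) :
    far u j ≤ 2 * endPt u i j * area u i 0 + 2 * η := by
  have hlc := continuous_line (i := i) (j := j) (k := k) hu
  have hpt := endPt_mem (u := u) i j
  have hmid : midSet u i j ⊆ Icc (0 : ℝ) (1 / 2) := fun z hz => hz.1
  rw [far_eq_line hu hS hij hik hjk, ← intervalIntegral.integral_add_adjacent_intervals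
    (b := endPt u i j) (hlc.intervalIntegrable _ _) (hlc.intervalIntegrable _ _)]
  have h1 : ∫ z in (0 : ℝ)..endPt u i j, line u i j k z ≤ endPt u i j * area u i 0 := by
    refine (intervalIntegral.integral_mono_on hpt.1 (hlc.intervalIntegrable _ _)
      intervalIntegrable_const fun z hz => (line_facts hu hS hij hik hjk z).2.1.trans
        (area_anti hu hS i ⟨le_rfl, by norm_num⟩ ⟨hz.1, hz.2.trans hpt.2⟩ hz.1)).trans_eq ?_
    simp
  have h2 : ∫ z in endPt u i j..1 / 2, line u i j k z ≤ η := by
    rw [intervalIntegral.integral_of_le hpt.2]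
    have hm := measurableSet_midSet hu i j
    calc ∫ z in Ioc (endPt u i j) (1 / 2), line u i j k z
        ≤ ∫ z in Ioc (endPt u i j) (1 / 2), (midSet u i j).indicator (fun _ => (1 : ℝ)) z := by
          refine setIntegral_mono_on (hlc.integrableOn_Ioc) ((integrableOn_const (by simp)).indicator hm)
            measurableSet_Ioc fun z hz => ?_
          by_cases hzm : z ∈ midSet u i j
          · rw [indicator_of_mem hzm]
            exact (line_facts hu hS hij hik hjk z).2.2.trans (hu.mem _).2
          · rw [indicator_of_notMem hzm]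
            exact (line_facts hu hS hij hik hjk z).2.2.trans_eq (edge_after hu hz.2 hz.1 hzm)
      _ = volume.real (Ioc (endPt u i j) (1 / 2) ∩ midSet u i j) := by
          rw [setIntegral_indicator hm, setIntegral_const, smul_eq_mul, mul_one]
      _ ≤ η := (measureReal_mono inter_subset_right
          (ne_top_of_le_ne_top (by simp) (measure_mono hmid))).trans hη
  linarith

end Vale.Agent.P232.Win
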