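import Vale.Agent.P232.Win.Pins
import Vale.Agent.P232.Scalar.Base

/-!
# P232: the scalar inequality of a tube
-/

noncomputable section

namespace Vale.Agent.P232.Win

open Real Set MeasureTheory

theorem tube_poly_core {x y : ℝ} (h1 : 1974 / 10000 ≤ x) (h2 : x ≤ 5089 / 10000)
    (h3 : 5089 / 10000 ≤ y) (h4 : x + y ≤ 10178 / 10000) :
    8 * y * ((5089 / 10000 - x) * (y - 5089 / 10000)) ≤ 17724 / 10000 * (y ^ 2 - x ^ 2) ^ 2 := by
  nlinarith [mul_nonneg (sub_nonneg.2 h1) (sub_nonneg.2 h3),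
    mul_nonneg (sub_nonneg.2 h2) (sub_nonneg.2 h3), sq_nonneg (y - x - 53 / 100),
    sq_nonneg ((y - 5089 / 10000) - 7 / 10 * (5089 / 10000 - x)),
    mul_nonneg (sub_nonneg.2 h1) (sub_nonneg.2 h4), mul_nonneg (sub_nonneg.2 h3) (sub_nonneg.2 h4)]

theorem tube_poly {x y z : ℝ} (hx : 1974 / 10000 ≤ x) (hzy : z ≤ y) (hy : y ≤ 1)
    (hz : 5089 / 10000 ≤ z) :
    8 * y * ((z - x) * (y - z)) ≤ 17724 / 10000 * (y ^ 2 - x ^ 2) ^ 2 := by
  rcases le_or_gt (10178 / 10000) (x + y) with h | h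
  · have k2 : (z - x) * (y - z) ≤ (y - x) ^ 2 / 4 := by nlinarith [sq_nonneg (2 * z - x - y)]
    have k4 : 2 * y ≤ 17724 / 10000 * (x + y) ^ 2 := by
      have := mul_le_mul_of_nonneg_left h (show 0 ≤ x + y by linarith)
      nlinarith
    have q1 := mul_le_mul_of_nonneg_left k2 (show 0 ≤ 8 * y by linarith)
    have q2 := mul_le_mul_of_nonneg_right k4 (sq_nonneg (y - x))
    linear_combination q1 + q2
  · have k2 : (z - x) * (y - z) ≤ (5089 / 10000 - x) * (y - 5089 / 10000) := by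
      linarith [mul_le_mul_of_nonneg_left (show x + y - z - 5089 / 10000 ≤ 0 by linarith)
        (show 0 ≤ z - 5089 / 10000 by linarith)]
    exact (mul_le_mul_of_nonneg_left k2 (by linarith)).trans
      (tube_poly_core hx (by linarith) (by linarith) h.le)

theorem tube_coeff {s x y : ℝ} (hs : 0 ≤ s) (hs2 : s ≤ 2) (hx : 1974 / 10000 ≤ x) (hy : 0 ≤ y)
    (hy1 : y ≤ 1) : |s * (x * y) / (x + y)| ≤ 20 ∧ |s / (x + y)| ≤ 20 := by
  have hsum : 0 < x + y := by linarith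
  have hxy : x * y ≤ x + y := by
    linarith [mul_le_mul_of_nonneg_left hy1 (show 0 ≤ x by linarith)]
  have hprod : 0 ≤ s * (x * y) := mul_nonneg hs (mul_nonneg (by linarith) hy)
  rw [abs_of_nonneg (div_nonneg hprod hsum.le), abs_of_nonneg (div_nonneg hs hsum.le),
    div_le_iff₀ hsum, div_le_iff₀ hsum]
  constructor
  · linarith [mul_le_mul_of_nonneg_left hxy hs, mul_le_mul_of_nonneg_right hs2 hsum.le]
  · linarith

theorem tube_weight {s x y c m : ℝ} (hs0 : 0 < s) (hs2 : s ^ 2 = π) (hx2 : x ^ 2 = c) (hy2 : y ^ 2 = m)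
    (hc0 : 0 < c) (hcm : c ≤ m) (hy0 : 0 < y) (hsum : 0 < x + y) :
    π * (m - c) ^ 2 / (8 * (x + y) * y) ≤
      ∫ a in c..m, √(max 0 (1 - (s * (x * y + a) / (x + y)) ^ 2 / (π * a))) := by
  set f : ℝ → ℝ := fun a => √(max 0 (1 - (s * (x * y + a) / (x + y)) ^ 2 / (π * a))) with hf
  have node : ∀ u ∈ Icc (-1 : ℝ) 1, (m - c) * √(1 - u ^ 2) / (2 * (x + y) * y) ≤
      f ((m - c) / 2 * u + (c + m) / 2) := by
    intro u hu
    set a := (m - c) / 2 * u + (c + m) / 2 with ha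
    have hca : c ≤ a := by simp only [ha]; nlinarith [hu.1]
    have ham : a ≤ m := by simp only [ha]; nlinarith [hu.2]
    have ha0 : 0 < a := by linarith
    have hu2 : 0 ≤ 1 - u ^ 2 := by nlinarith [hu.1, hu.2]
    refine le_sqrt_of_sq_le (le_max_of_le_right ?_)
    have e : 1 - (s * (x * y + a) / (x + y)) ^ 2 / (π * a) =
        (a - x ^ 2) * (y ^ 2 - a) / ((x + y) ^ 2 * a) := by
      rw [← hs2]
      field_simp
      ring
    rw [e, hx2, hy2, show (a - c) * (m - a) = (m - c) ^ 2 * (1 - u ^ 2) / 4 by simp only [ha]; ring,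
      div_pow, mul_pow, sq_sqrt hu2, mul_pow, mul_pow, hy2]
    have hK : 0 ≤ (m - c) ^ 2 * (1 - u ^ 2) := mul_nonneg (sq_nonneg _) hu2
    have hm0 : 0 < m := by linarith
    rw [div_div, div_le_div_iff₀ (by positivity) (by positivity)]
    linear_combination 4 * mul_le_mul_of_nonneg_left ham (mul_nonneg hK (sq_nonneg (x + y)))
  have hmeas : Measurable f := by simp only [hf]; fun_prop
  have hle : ∀ a ∈ Icc c m, f a ≤ 1 := fun a ha => sqrt_le_one.2 <| max_le zero_le_one <|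
    sub_le_self _ (div_nonneg (sq_nonneg _) (mul_nonneg pi_pos.le (hc0.le.trans ha.1)))
  have e1 : ∫ a in c..m, f a = (m - c) / 2 *
      ∫ u in (-1 : ℝ)..1, f ((m - c) / 2 * u + (c + m) / 2) := by
    have := intervalIntegral.smul_integral_comp_mul_add f ((m - c) / 2) ((c + m) / 2) (a := -1) (b := 1)
    rw [smul_eq_mul] at this
    rw [this]
    congr 1 <;> ring
  rw [e1]
  have e2 : π * (m - c) ^ 2 / (8 * (x + y) * y) =
      (m - c) / 2 * ∫ u in (-1 : ℝ)..1, (m - c) * √(1 - u ^ 2) / (2 * (x + y) * y) := by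
    rw [intervalIntegral.integral_div, intervalIntegral.integral_const_mul, integral_sqrt_one_sub_sq]
    field_simp
    ring
  rw [e2]
  refine mul_le_mul_of_nonneg_left ?_ (by linarith)
  refine intervalIntegral.integral_mono_on (by norm_num)
    (Continuous.intervalIntegrable (by fun_prop) _ _) ?_ node
  refine (intervalIntegrable_const (c := (1 : ℝ))).mono_fun
    (hmeas.comp (by fun_prop)).aestronglyMeasurable ?_
  filter_upwards [ae_restrict_mem measurableSet_uIoc] with u hu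
  rw [uIoc_of_le (by norm_num)] at hu
  rw [norm_one, norm_of_nonneg (sqrt_nonneg _)]
  exact hle _ ⟨by nlinarith [hu.1], by nlinarith [hu.2]⟩

/-- The calibration with a margin for the range of the areas. -/
theorem tube_margin (c v m : ℝ) (hc : 39 / 1000 ≤ c) (hcv : c ≤ v) (hvm : v ≤ m) (hm1 : m ≤ 1)
    (hv0 : 259 / 1000 ≤ v) (_ : v ≤ 368 / 1000) :
    ∃ α β : ℝ, |α| ≤ 20 ∧ |β| ≤ 20 ∧
      (∀ a ∈ Icc c m, 0 ≤ α + β * a ∧ α + β * a ≤ Real.sqrt (Real.pi * a)) ∧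
      Real.sqrt (Real.pi * v) + (m - c) ^ 2 / 10 ^ 6 ≤ α + β * v +
        ∫ a in c..m, Real.sqrt (max 0 (1 - (α + β * a) ^ 2 / (Real.pi * a))) := by
  have hc0 : 0 < c := by linarith
  set x := √c with hx
  set y := √m with hy
  set z := √v with hz
  set s := √π with hs
  have hx2 : x ^ 2 = c := sq_sqrt hc0.le
  have hy2 : y ^ 2 = m := sq_sqrt (by linarith)
  have hz2 : z ^ 2 = v := sq_sqrt (by linarith)
  have hs2 : s ^ 2 = π := sq_sqrt pi_pos.le
  have hs0 : 0 < s := sqrt_pos.2 pi_pos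
  have hs1 : 177242 / 100000 ≤ s := le_sqrt_of_sq_le (by linarith [pi_gt_d4])
  have hx0 : 1974 / 10000 ≤ x := le_sqrt_of_sq_le (by linarith)
  have hz0 : 5089 / 10000 ≤ z := le_sqrt_of_sq_le (by linarith)
  have hy1 : y ≤ 1 := sqrt_le_one.2 hm1
  have hxz : x ≤ z := sqrt_le_sqrt hcv
  have hzy : z ≤ y := sqrt_le_sqrt hvm
  have hy0 : 0 < y := by linarith
  have hsum : 0 < x + y := by linarith
  have hs4 : s ≤ 2 := sqrt_le_iff.2 ⟨by norm_num, by linarith [pi_lt_d2]⟩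
  clear_value x y z s
  have hline : ∀ a, s * (x * y) / (x + y) + s / (x + y) * a = s * (x * y + a) / (x + y) := fun a => by
    ring
  obtain ⟨hb1, hb2⟩ := tube_coeff hs0.le hs4
    hx0 hy0.le hy1
  refine ⟨s * (x * y) / (x + y), s / (x + y), hb1, hb2, fun a ha => ?_, ?_⟩
  · have ha0 : 0 ≤ a := hc0.le.trans ha.1
    rw [hline, sqrt_mul pi_pos.le, ← hs]
    refine ⟨div_nonneg (mul_nonneg hs0.le (add_nonneg (mul_nonneg (by linarith) hy0.le) ha0))
      hsum.le, ?_⟩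
    rw [div_le_iff₀ hsum]
    have h1 : x ≤ √a := hx ▸ sqrt_le_sqrt ha.1
    have h2 : √a ≤ y := hy ▸ sqrt_le_sqrt ha.2
    rw [mul_assoc]
    refine mul_le_mul_of_nonneg_left ?_ hs0.le
    nlinarith [mul_nonneg (sub_nonneg.2 h1) (sub_nonneg.2 h2), sq_sqrt ha0]
  simp only [hline]
  have hG := tube_weight hs0 hs2 hx2 hy2 hc0 (hcv.trans hvm) hy0 hsum
  have k1 : √(π * v) - s * (x * y + v) / (x + y) = s * ((z - x) * (y - z)) / (x + y) := by
    rw [sqrt_mul pi_pos.le, ← hs, ← hz, ← hz2]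
    field_simp
    ring
  have k3 : s * ((z - x) * (y - z)) / (x + y) + (m - c) ^ 2 / 10 ^ 6 ≤
      π * (m - c) ^ 2 / (8 * (x + y) * y) := by
    have hP := tube_poly hx0 hzy hy1 hz0
    rw [hy2, hx2] at hP
    have q1 := mul_le_mul_of_nonneg_left hP hs0.le
    have q2 : 16 / 10 ^ 6 ≤ s * (s - 17724 / 10000) := by nlinarith
    have q3 : (x + y) * y ≤ 2 := by nlinarith
    have q4 := mul_le_mul_of_nonneg_right q2 (sq_nonneg (m - c))
    have q5 := mul_le_mul_of_nonneg_right q3 (sq_nonneg (m - c))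
    rw [← hs2, le_div_iff₀ (by positivity)]
    have e : (s * ((z - x) * (y - z)) / (x + y) + (m - c) ^ 2 / 10 ^ 6) * (8 * (x + y) * y) =
        s * (8 * y * ((z - x) * (y - z))) + 8 * ((x + y) * y * (m - c) ^ 2) / 10 ^ 6 := by
      field_simp
    rw [e]
    linarith
  linarith

theorem tubeScalar : TubeScalar := by
  intro c v m hc hcv hvm hm1 hv0 hv1
  obtain ⟨α, β, h1, h2, h3, h4⟩ := tube_margin c v m hc hcv hvm hm1 hv0 hv1
  exact ⟨α, β, h1, h2, h3, by linarith [div_nonneg (sq_nonneg (m - c)) (by norm_num : (0 : ℝ) ≤ 10 ^ 6)]⟩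

end Vale.Agent.P232.Win
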