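import Vale.Agent.P232.Pins

/-!
# P232: the statement on an axis with a thin slice and no cut, in the middle range
-/

noncomputable section

open MeasureTheory Set

namespace Vale.Agent.P232.Win

/-- An axis without a cut which has a thin slice gives the canonical value. -/
def WindowRow : Prop :=
  ∀ u : (Fin 3 → ℝ) → ℝ, Adm u → ∀ i : Fin 3, ¬ CanCut (area u i) 7 (1 / 100) →
    259 / 1000 ≤ mean u → mean u ≤ 368 / 1000 → (∃ z, area u i z ≤ 16 / 10000) →
      canonical (mean u) - err (dfct u) ≤ energy u

end Vale.Agent.P232.Win
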