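import Vale.Agent.P232.ProfileSquare
import Vale.Agent.P232.Slicing
import Vale.Agent.P232.Win.Pins

/-!
# P232: sharpening by a narrow band of levels
-/

noncomputable section

open MeasureTheory Filter Topology Set Function

namespace Vale.Agent.P232.Win

open Vale.Agent.P232.Square

variable {u : (Fin 3 → ℝ) → ℝ}

/-- Among disjoint bands one carries little mass. -/
theorem sum_band_le {α : Type*} [MeasurableSpace α] {μ : Measure α} {S : Set α}
    (hS : MeasurableSet S) (hS' : μ S ≠ ⊤) {f : α → ℝ} (hf : Measurable f) {N : ℕ}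
    {I : Fin N → Set ℝ} (hI : Pairwise (Disjoint on I)) (hIm : ∀ j, MeasurableSet (I j)) :
    ∑ j, μ.real (S ∩ f ⁻¹' I j) ≤ μ.real S := by
  rw [← measureReal_iUnion_fintype (μ := μ)
    (fun j k h => (((hI h).preimage f).mono inter_subset_right inter_subset_right))
    (fun j => hS.inter (hf (hIm j))) (fun j => measure_ne_top_of_subset inter_subset_left hS')]
  exact measureReal_mono (iUnion_subset fun j => inter_subset_left) hS'

/-- The mass of a band on the middle faces and edges. -/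
def bandMass (u : (Fin 3 → ℝ) → ℝ) (s : Set ℝ) : ℝ :=
  ∑ i, volume.real (box 2 ∩ slice u i (1 / 2) ⁻¹' s) +
    ∑ i, ∑ k, volume.real (Icc (0 : ℝ) (1 / 2) ∩ edge u i k ⁻¹' s)

theorem continuous_edge (hu : Adm u) (i k : Fin 3) : Continuous (edge u i k) :=
  hu.smooth.continuous.comp ((continuous_const).update i continuous_id)

theorem sum_bandMass_le (hu : Adm u) {N : ℕ} {I : Fin N → Set ℝ}
    (hI : Pairwise (Disjoint on I)) (hIm : ∀ j, MeasurableSet (I j)) :
    ∑ j, bandMass u (I j) ≤ 9 := by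
  have hb : volume.real (box 2) = 1 := volume_box
  have hb' : volume (box 2) ≠ ⊤ := fun h => by simp [measureReal_def, h] at hb
  have he : volume.real (Icc (0 : ℝ) (1 / 2)) = 1 / 2 := by simp [Real.volume_real_Icc]
  unfold bandMass
  rw [Finset.sum_add_distrib]
  calc _ ≤ ∑ _i : Fin 3, (1 : ℝ) + ∑ _i : Fin 3, ∑ _k : Fin 3, (1 / 2 : ℝ) := by
        refine add_le_add ?_ ?_
        · rw [Finset.sum_comm]
          refine Finset.sum_le_sum fun i _ => le_of_le_of_eq ?_ hb
          exact sum_band_le measurableSet_box hb'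
            (hu.slice i (1 / 2)).smooth.continuous.measurable hI hIm
        · rw [Finset.sum_comm]
          refine Finset.sum_le_sum fun i _ => ?_
          rw [Finset.sum_comm]
          refine Finset.sum_le_sum fun k _ => le_of_le_of_eq ?_ he
          exact sum_band_le measurableSet_Icc measure_Icc_lt_top.ne
            (continuous_edge hu i k).measurable hI hIm
    _ ≤ 9 := by norm_num

/-- The energy of all bands is at most the whole energy. -/
theorem sum_band_energy_le (hu : Adm u) {N : ℕ} {θ w ε : ℝ} (hw : 0 < w) (hε : 0 < ε) :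
    ∑ j : Fin N, ∫ x in box 3,
      bump (θ + j * w) (θ + (j + 1) * w) ε (u x) * grad u x ≤ energy u := by
  have hint : ∀ j : Fin N, IntegrableOn
      (fun x => bump (θ + j * w) (θ + (j + 1) * w) ε (u x) * grad u x) (box 3) := fun j =>
    integrableOn_box ((continuous_bump.comp hu.smooth.continuous).mul (continuous_grad hu.smooth))
  rw [← integral_finsetSum _ fun j _ => hint j]
  refine setIntegral_box_mono (continuous_finsetSum _ fun j _ =>
    (continuous_bump.comp hu.smooth.continuous).mul (continuous_grad hu.smooth))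
    (continuous_grad hu.smooth) fun x _ => ?_
  rw [← Finset.sum_mul]
  refine mul_le_of_le_one_left (grad_nonneg _ _) ?_
  by_cases h : ∃ j : Fin N, 0 < bump (θ + j * w) (θ + (j + 1) * w) ε (u x)
  · obtain ⟨j, hj⟩ := h
    rw [Finset.sum_eq_single j]
    · exact bump_le_one
    · intro k _ hk
      by_contra hne
      have hkp := bump_nonneg.lt_of_ne' hne
      have j1 : θ + j * w < u x := by
        by_contra hh; rw [bump_left hε (not_lt.1 hh)] at hj; exact lt_irrefl _ hj
      have j2 : u x < θ + (j + 1) * w := by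
        by_contra hh; rw [bump_right hε (not_lt.1 hh)] at hj; exact lt_irrefl _ hj
      have k1 : θ + k * w < u x := by
        by_contra hh; rw [bump_left hε (not_lt.1 hh)] at hkp; exact lt_irrefl _ hkp
      have k2 : u x < θ + (k + 1) * w := by
        by_contra hh; rw [bump_right hε (not_lt.1 hh)] at hkp; exact lt_irrefl _ hkp
      have q1 : (j : ℝ) < k + 1 := lt_of_mul_lt_mul_right (by linarith) hw.le
      have q2 : (k : ℝ) < j + 1 := lt_of_mul_lt_mul_right (by linarith) hw.le
      norm_cast at q1 q2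
      exact hk (Fin.ext (by omega))
    · simp
  · push Not at h
    exact (Finset.sum_nonpos fun j _ => h j).trans zero_le_one

/-- One band with little energy per width and little mass. -/
theorem exists_good_band (hu : Adm u) {θ r lam : ℝ} (hθ : θ < 1 / 2) (hr : 0 < r) (hr2 : r < 1 / 2)
    (hlam : 0 ≤ lam) (N : ℕ) (hN : 0 < N) :
    ∃ l g ε : ℝ, 0 < ε ∧ θ ≤ l ∧ g ≤ 1 - θ ∧ l < g ∧ 2 * ε < g - l ∧
      (∫ x in box 3, bump l g ε (u x) * grad u x) * (1 - 2 * r) / (g - l - 2 * ε) +
        lam * bandMass u (Ioo l g) ≤ energy u / (1 - 2 * θ) + 9 * lam / N := by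
  have hN' : (0 : ℝ) < N := Nat.cast_pos.2 hN
  set w := (1 - 2 * θ) / N with hwdef
  have hw : 0 < w := div_pos (by linarith) hN'
  set ε := r * w with hεdef
  have hε : 0 < ε := mul_pos hr hw
  set E := fun j : Fin N => ∫ x in box 3,
    bump (θ + j * w) (θ + (j + 1) * w) ε (u x) * grad u x with hE
  set I := fun j : Fin N => Ioo (θ + j * w) (θ + (j + 1) * w) with hI
  have hdis : Pairwise (Disjoint on I) := fun j k hjk => by
    rw [Function.onFun, Set.disjoint_left]
    rintro s ⟨j1, j2⟩ ⟨k1, k2⟩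
    have q1 : (j : ℝ) < k + 1 := lt_of_mul_lt_mul_right (by linarith) hw.le
    have q2 : (k : ℝ) < j + 1 := lt_of_mul_lt_mul_right (by linarith) hw.le
    norm_cast at q1 q2
    exact hjk (Fin.ext (by omega))
  have hsum : ∑ j, (E j / w + lam * bandMass u (I j)) ≤
      ∑ _j : Fin N, (energy u / (1 - 2 * θ) + 9 * lam / N) := by
    rw [Finset.sum_add_distrib, ← Finset.sum_div, ← Finset.mul_sum, Finset.sum_const,
      Finset.card_univ, Fintype.card_fin, nsmul_eq_mul,
      show (N : ℝ) * (energy u / (1 - 2 * θ) + 9 * lam / N) = energy u / w + lam * 9 by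
        rw [hwdef]; field_simp]
    exact add_le_add (div_le_div_of_nonneg_right (sum_band_energy_le hu hw hε) hw.le)
      (mul_le_mul_of_nonneg_left (sum_bandMass_le hu hdis fun _ => measurableSet_Ioo) hlam)
  have : Nonempty (Fin N) := ⟨⟨0, hN⟩⟩
  obtain ⟨j, -, hj⟩ := Finset.exists_le_of_sum_le Finset.univ_nonempty hsum
  have hwid : θ + (j + 1) * w - (θ + j * w) = w := by ring
  have htop : (j : ℝ) + 1 ≤ N := by exact_mod_cast j.isLt
  refine ⟨θ + j * w, θ + (j + 1) * w, ε, hε, le_add_of_nonneg_right (by positivity), ?_,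
    by linarith, by rw [hwid, hεdef]; nlinarith, ?_⟩
  · have : w * N = 1 - 2 * θ := div_mul_cancel₀ _ hN'.ne'
    nlinarith [mul_le_mul_of_nonneg_right htop hw.le]
  · refine le_of_eq_of_le ?_ hj
    rw [hwid, hεdef, show w - 2 * (r * w) = w * (1 - 2 * r) by ring,
      mul_div_mul_right _ _ (show 1 - 2 * r ≠ 0 by linarith)]

/-- The map which sends a band of levels to `[0, 1]`. -/
def bandMap (l g ε s : ℝ) : ℝ := cut l g ε s / cut l g ε g

section
variable {l g ε θ : ℝ}

theorem cut_pos (hε : 0 < ε) (h : 2 * ε < g - l) : 0 < cut l g ε g :=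
  lt_of_lt_of_le (by linarith) ((le_max_right _ _).trans (le_cut hε))

theorem bandMap_spec (hε : 0 < ε) (h : 2 * ε < g - l) :
    Monotone (bandMap l g ε) ∧ (∀ s, s ≤ l → bandMap l g ε s = 0) ∧
      (∀ s, g ≤ s → bandMap l g ε s = 1) ∧ ∀ s, bandMap l g ε s ∈ Icc (0 : ℝ) 1 := by
  have hW := cut_pos hε h
  have hm : Monotone (bandMap l g ε) := fun s t hst =>
    div_le_div_of_nonneg_right (monotone_cut hst) hW.le
  have h0 : ∀ s, s ≤ l → bandMap l g ε s = 0 := fun s hs => by
    rw [bandMap, cut_left hε hs, zero_div]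
  have h1 : ∀ s, g ≤ s → bandMap l g ε s = 1 := fun s hs => by
    rw [bandMap, cut_right hε hs, div_self hW.ne']
  refine ⟨hm, h0, h1, fun s => ⟨?_, ?_⟩⟩
  · rcases le_total s l with hs | hs
    · rw [h0 s hs]
    · rw [← h0 l le_rfl]; exact hm hs
  · rcases le_total s g with hs | hs
    · rw [← h1 g le_rfl]; exact hm hs
    · rw [h1 s hs]

theorem bandMap_mem_band (hε : 0 < ε) (h : 2 * ε < g - l) {s : ℝ}
    (hs : bandMap l g ε s ∈ Ioo (0 : ℝ) 1) : s ∈ Ioo l g := by
  obtain ⟨-, h0, h1, -⟩ := bandMap_spec hε h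
  refine ⟨lt_of_not_ge fun h' => ?_, lt_of_not_ge fun h' => ?_⟩
  · rw [h0 s h'] at hs; exact lt_irrefl _ hs.1
  · rw [h1 s h'] at hs; exact lt_irrefl _ hs.2

theorem bandMap_close (hε : 0 < ε) (h : 2 * ε < g - l) (hθ : 0 < θ) (hθ2 : θ ≤ 1 / 32)
    (hl : θ ≤ l) (hg : g ≤ 1 - θ) {s : ℝ} (hs : s ∈ Icc (0 : ℝ) 1) :
    |bandMap l g ε s - s| ≤ 2 / θ * (s * (1 - s)) ∧
      bandMap l g ε s * (1 - bandMap l g ε s) ≤ 2 / θ * (s * (1 - s)) := by
  obtain ⟨-, h0, h1, hm01⟩ := bandMap_spec hε h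
  obtain ⟨p0, p1⟩ := hm01 s
  rw [div_mul_eq_mul_div, le_div_iff₀ hθ, le_div_iff₀ hθ]
  rcases le_or_gt s θ with h' | h'
  · rw [h0 s (h'.trans hl), zero_sub, abs_neg, abs_of_nonneg hs.1]
    constructor <;> nlinarith [hs.1]
  rcases le_or_gt (1 - θ) s with h'' | h''
  · rw [h1 s (hg.trans h''), abs_of_nonneg (by linarith [hs.2])]
    constructor <;> nlinarith [hs.2]
  have hm : θ ≤ 2 * (s * (1 - s)) := by
    nlinarith [mul_nonneg (sub_nonneg.2 h'.le) (by linarith : (0 : ℝ) ≤ 1 - θ - s)]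
  have ha : |bandMap l g ε s - s| ≤ 1 := abs_le.2 ⟨by linarith [hs.2], by linarith [hs.1]⟩
  have hb : bandMap l g ε s * (1 - bandMap l g ε s) ≤ 1 :=
    mul_le_one₀ p1 (by linarith) (by linarith)
  exact ⟨(mul_le_of_le_one_left hθ.le ha).trans hm, (mul_le_of_le_one_left hθ.le hb).trans hm⟩

theorem contDiff_bandMap : ContDiff ℝ 1 (bandMap l g ε) := contDiff_cut.div_const _

theorem energy_bandMap (hu : Adm u) (hε : 0 < ε) (h : 2 * ε < g - l) :
    energy (fun x => bandMap l g ε (u x)) ≤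
      (∫ x in box 3, bump l g ε (u x) * grad u x) / (g - l - 2 * ε) := by
  have hW := cut_pos hε h
  have e : energy (fun x => bandMap l g ε (u x)) =
      (∫ x in box 3, bump l g ε (u x) * grad u x) / cut l g ε g := by
    rw [energy, ← integral_div]
    refine setIntegral_congr_fun measurableSet_box fun x _ => ?_
    rw [grad_comp (φ := bandMap l g ε) (hasDerivAt_cut.div_const _)
      (hu.smooth.differentiable one_ne_zero x), abs_of_nonneg (div_nonneg bump_nonneg hW.le)]
    ring
  rw [e]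
  exact div_le_div_of_nonneg_left (setIntegral_nonneg measurableSet_box fun x _ =>
    mul_nonneg bump_nonneg (grad_nonneg _ _)) (by linarith) ((le_max_right _ _).trans (le_cut hε))

end

theorem face_le_bandMass (s : Set ℝ) (i : Fin 3) :
    volume.real (box 2 ∩ slice u i (1 / 2) ⁻¹' s) ≤ bandMass u s :=
  (Finset.single_le_sum (f := fun i : Fin 3 => volume.real (box 2 ∩ slice u i (1 / 2) ⁻¹' s))
    (fun _ _ => measureReal_nonneg) (Finset.mem_univ i)).trans (le_add_of_nonneg_right
    (Finset.sum_nonneg fun _ _ => Finset.sum_nonneg fun _ _ => measureReal_nonneg))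

theorem edge_le_bandMass (s : Set ℝ) (i k : Fin 3) :
    volume.real (Icc (0 : ℝ) (1 / 2) ∩ edge u i k ⁻¹' s) ≤ bandMass u s :=
  ((Finset.single_le_sum (f := fun k : Fin 3 =>
      volume.real (Icc (0 : ℝ) (1 / 2) ∩ edge u i k ⁻¹' s)) (fun _ _ => measureReal_nonneg)
      (Finset.mem_univ k)).trans (Finset.single_le_sum
      (f := fun i : Fin 3 => ∑ k, volume.real (Icc (0 : ℝ) (1 / 2) ∩ edge u i k ⁻¹' s))
      (fun _ _ => Finset.sum_nonneg fun _ _ => measureReal_nonneg) (Finset.mem_univ i))).trans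
    (le_add_of_nonneg_left (Finset.sum_nonneg fun _ _ => measureReal_nonneg))

theorem box2_ne_top : volume (box 2) ≠ ⊤ := fun h => by
  have := volume_box (n := 2)
  simp [measureReal_def, h] at this

/-- The composition with the map of a band is sharp. -/
theorem band_spec (hu : Adm u) (hS : Sym u) {l g ε θ D : ℝ} (hε : 0 < ε) (h : 2 * ε < g - l)
    (hθ : 0 < θ) (hθ2 : θ ≤ 1 / 32) (hl : θ ≤ l) (hg : g ≤ 1 - θ)
    (hD : 2 / θ * dfct u ≤ D) (hM : bandMass u (Ioo l g) ≤ D) :
    ∃ v, v = (fun x => bandMap l g ε (u x)) ∧ Adm v ∧ Sym v ∧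
      ((∫ x in box 3, |v x - u x|) ≤ D ∧ |mean v - mean u| ≤ D) ∧ dfct v ≤ D ∧
      (∀ x, u x = 0 → v x = 0) ∧ Sharp v D := by
  obtain ⟨hm, h0, -, hm01⟩ := bandMap_spec hε h
  set v := fun x => bandMap l g ε (u x) with hv
  have hvC : ContDiff ℝ 1 v := contDiff_bandMap.comp hu.smooth
  have hvar : Continuous fun x => 2 / θ * (u x * (1 - u x)) := by
    have := hu.smooth.continuous; fun_prop
  refine ⟨v, rfl, ⟨hvC, fun x k => by simp only [hv, hu.periodic x k], fun x => hm01 _⟩,
    ⟨fun i x => by simp only [hv, hS.even i x],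
      fun i x s hs t ht hst => hm (hS.antitone i x hs ht hst)⟩, ?_, ?_,
    fun x hx => h0 _ (hx ▸ hθ.le.trans hl), ⟨fun i => ?_, fun i j _ => ?_⟩⟩
  · have hL : (∫ x in box 3, |v x - u x|) ≤ D := by
      refine le_trans ?_ hD
      rw [dfct, ← integral_const_mul]
      exact setIntegral_box_mono (hvC.continuous.sub hu.smooth.continuous).abs hvar
        fun x _ => (bandMap_close hε h hθ hθ2 hl hg (hu.mem x)).1
    refine ⟨hL, le_trans ?_ hL⟩
    rw [mean, mean, ← integral_sub (integrableOn_box hvC.continuous)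
      (integrableOn_box hu.smooth.continuous)]
    exact abs_integral_le_integral_abs
  · refine le_trans ?_ hD
    rw [dfct, dfct, ← integral_const_mul]
    exact setIntegral_box_mono (hvC.continuous.mul (continuous_const.sub hvC.continuous)) hvar
      fun x _ => (bandMap_close hε h hθ hθ2 hl hg (hu.mem x)).2
  · refine (le_trans ?_ (face_le_bandMass _ i)).trans hM
    refine measureReal_mono (fun y hy => ?_)
      (measure_ne_top_of_subset inter_subset_left box2_ne_top)
    exact ⟨hy.1, bandMap_mem_band hε h hy.2⟩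
  · refine (le_trans ?_ (edge_le_bandMass _ i j)).trans hM
    refine measureReal_mono (fun y hy => ?_)
      (measure_ne_top_of_subset inter_subset_left measure_Icc_lt_top.ne)
    exact ⟨hy.1, bandMap_mem_band hε h hy.2⟩

theorem Sharp.mono {v : (Fin 3 → ℝ) → ℝ} {a b : ℝ} (h : Sharp v a) (hab : a ≤ b) : Sharp v b :=
  ⟨fun i => (h.face i).trans hab, fun i j hij => (h.edge i j hij).trans hab⟩

/-- Sharpening, which also stays near in mean. -/
theorem sharpen_close (η B : ℝ) (hη : 0 < η) :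
    ∃ δ > 0, ∀ u : (Fin 3 → ℝ) → ℝ, Adm u → Sym u → dfct u ≤ δ → energy u ≤ B →
      ∃ u', Adm u' ∧ Sym u' ∧ ((∫ x in box 3, |u' x - u x|) ≤ η ∧ |mean u' - mean u| ≤ η) ∧
        dfct u' ≤ η ∧ energy u' ≤ energy u + η ∧ (∀ x, u x = 0 → u' x = 0) ∧ Sharp u' η := by
  set e := min η 1
  have he0 : 0 < e := lt_min hη zero_lt_one
  have he1 : e ≤ 1 := min_le_right _ _
  have heη : e ≤ η := min_le_left _ _
  set B₀ := max B 1
  have hB1 : 1 ≤ B₀ := le_max_right _ _
  set θ := e / (32 * B₀) with hθdef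
  have hθ : 0 < θ := by positivity
  have hθB : θ * (32 * B₀) = e := div_mul_cancel₀ _ (by positivity)
  have hθs : θ ≤ 1 / 32 := by nlinarith
  set lam := (B₀ + 1) / e with hlamdef
  have hlam : 0 < lam := by positivity
  obtain ⟨N, hN⟩ := exists_nat_gt (36 * lam / e)
  have hNr : (0 : ℝ) < N := lt_trans (by positivity) hN
  rw [div_lt_iff₀ he0] at hN
  refine ⟨e * θ / 2, by positivity, fun u hu hS hD hB' => ?_⟩
  have hE0 : 0 ≤ energy u := energy_nonneg u
  have hEB : energy u ≤ B₀ := hB'.trans (le_max_left _ _)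
  obtain ⟨l, g, ε, hε, hl, hg, -, hwid, hgood⟩ :=
    exists_good_band hu (θ := θ) (r := θ) (by linarith) hθ (by linarith) hlam.le N
      (by exact_mod_cast hNr)
  set Eb := ∫ x in box 3, bump l g ε (u x) * grad u x
  have hEb0 : 0 ≤ Eb := setIntegral_nonneg measurableSet_box fun x _ =>
    mul_nonneg bump_nonneg (grad_nonneg _ _)
  have hA : energy u / (1 - 2 * θ) + 9 * lam / N ≤ energy u + e / 2 := by
    have h1 : 9 * lam / (N : ℝ) ≤ e / 4 := by rw [div_le_iff₀ hNr]; linarith
    have h2 : energy u / (1 - 2 * θ) ≤ energy u + e / 4 := by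
      rw [div_le_iff₀ (by linarith)]
      nlinarith [mul_le_mul_of_nonneg_right hEB hθ.le]
    linarith
  have hmass0 : 0 ≤ bandMass u (Ioo l g) := (measureReal_nonneg).trans (face_le_bandMass _ 0)
  rw [mul_comm Eb, mul_div_assoc] at hgood
  set q := Eb / (g - l - 2 * ε)
  have hq0 : 0 ≤ q := div_nonneg hEb0 (by linarith)
  have hq1 : (1 - 2 * θ) * q ≤ energy u + e / 2 := by linarith [mul_nonneg hlam.le hmass0]
  have hmass : bandMass u (Ioo l g) ≤ e := by
    refine le_of_mul_le_mul_left ?_ hlam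
    have : lam * e = B₀ + 1 := by rw [hlamdef]; exact div_mul_cancel₀ _ he0.ne'
    linarith [mul_nonneg (show 0 ≤ 1 - 2 * θ by linarith) hq0]
  obtain ⟨v, hv, hvA, hvS, hvm, hvd, hv0, hvs⟩ := band_spec hu hS hε hwid hθ hθs hl hg
    (D := e) (by rw [div_mul_eq_mul_div, div_le_iff₀ hθ]; linarith) hmass
  refine ⟨v, hvA, hvS, ⟨hvm.1.trans heη, hvm.2.trans heη⟩, hvd.trans heη, ?_, hv0, hvs.mono heη⟩
  have h1 : energy v ≤ q := hv ▸ energy_bandMap hu hε hwid
  refine h1.trans ?_
  by_contra hlt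
  nlinarith [mul_lt_mul_of_pos_right (not_le.1 hlt) (show 0 < 1 - 2 * θ by linarith),
    mul_le_mul_of_nonneg_right hEB hθ.le]

theorem sharpen : Sharpen := fun η B hη => by
  obtain ⟨δ, hδ, h⟩ := sharpen_close η B hη
  refine ⟨δ, hδ, fun u hu hS hd hB => ?_⟩
  obtain ⟨u', h1, h2, ⟨-, h3⟩, h4⟩ := h u hu hS hd hB
  exact ⟨u', h1, h2, h3, h4⟩

end Vale.Agent.P232.Win
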