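import Vale.Agent.P232.Win.Cases
import Vale.Agent.P232.Win.Sharpen
import Vale.Agent.P232.Win.RowPin
import Vale.Agent.P232.Symm.Main
import Vale.Agent.P232.Profile

/-!
# P232: the middle range of volumes, by removing thin tails from a symmetrical competitor
-/

noncomputable section

open MeasureTheory Filter Topology Set Function

namespace Vale.Agent.P232.Win

theorem canonical_mono {a b : ℝ} (ha : 0 ≤ a) (hab : a ≤ b) : canonical a ≤ canonical b :=
  min_le_min (min_le_min (ballPer_mono ha hab)
    (mul_le_mul_of_nonneg_left (Real.sqrt_le_sqrt (mul_le_mul_of_nonneg_left hab Real.pi_pos.le))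
      zero_le_two)) le_rfl

/-- From `0.259` on the canonical value is at most seven times the volume. -/
theorem canonical_le_seven {b : ℝ} (hb : 259 / 1000 ≤ b) : canonical b ≤ 7 * b := by
  refine ((min_le_left _ _).trans (min_le_right _ _)).trans ?_
  have h := Real.sqrt_le_left (show (0 : ℝ) ≤ 7 * b / 2 by linarith) (x := Real.pi * b)
  have : Real.sqrt (Real.pi * b) ≤ 7 * b / 2 := h.2 (by nlinarith [Real.pi_lt_d4])
  unfold tubePer
  linarith

/-- Losing volume costs at most seven times as much. -/
theorem canonical_drop {a b : ℝ} (ha : 0 ≤ a) (hab : a ≤ b) (hb : 259 / 1000 ≤ b) :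
    canonical b ≤ canonical a + 7 * (b - a) := by
  refine le_of_mul_le_mul_right ?_ (show (0 : ℝ) < b by linarith)
  have h1 := canonical_star ha hab
  have h2 := mul_le_mul_of_nonneg_right (canonical_le_seven hb) (sub_nonneg.2 hab)
  linarith

/-- A small change of the volume costs little. -/
theorem canonical_near {a b η : ℝ} (ha : 0 ≤ a) (hb : 259 / 1000 ≤ b) (h : |a - b| ≤ η) :
    canonical b ≤ canonical a + 7 * η := by
  rw [abs_le] at h
  rcases le_total a b with hab | hab
  · linarith [canonical_drop ha hab hb]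
  · linarith [canonical_mono (by linarith : (0 : ℝ) ≤ b) hab]

/-- The bound for a symmetrical competitor with gaps outside `s`. -/
theorem window_node (hT : ThreeGaps) (hR : RowBound) (hTi : TinyBound) (hC : CutStep)
    (hSc : Scalar) (hW : WindowScalar) (hRow : WindowRow) (hSy : SymCut) (k : ℕ) :
    ∀ ε : ℝ, 0 < ε → ε ≤ 1 → ∀ B : ℝ, ∃ δ > 0, ∀ u : (Fin 3 → ℝ) → ℝ, Adm u → Sym u →
      ∀ s : Finset (Fin 3), s.card ≤ k → (∀ j ∉ s, HasGap u j) →
        mean u ≤ 366 / 1000 - k / 10000 → dfct u ≤ δ → energy u ≤ B →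
          canonical (mean u) ≤ energy u + ε := by
  induction k with
  | zero =>
    intro ε hε _ B
    obtain ⟨δ, hδ, hsmall⟩ := exists_small_slack ε hε
    refine ⟨δ, hδ, fun u hu _ s hs hg _ hd _ => ?_⟩
    have := bound_no_axis hT hu 3 (Finset.card_eq_zero.1 (Nat.le_zero.1 hs)) hg hδ.le
    linarith [hsmall _ (dfct_nonneg hu) hd, canonical_le_ball (mean u)]
  | succ k ih =>
    intro ε hε hε1 B
    obtain ⟨δk, hδk, hk⟩ := ih (ε / 8) (by positivity) (by linarith) (B + 2)
    obtain ⟨δs, hδs, hsmall⟩ := exists_small_slack (ε / 8) (by positivity)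
    set η := min (min (1 / 10 ^ 10) (min (δk / 4) δs))
      (min ((ε / 16000) ^ 2) ((ε / 800) ^ 3)) with hη
    have hη0 : 0 < η := by positivity
    have hη10 : η ≤ 1 / 10 ^ 10 := (min_le_left _ _).trans (min_le_left _ _)
    have hηk : η ≤ δk / 4 :=
      (min_le_left _ _).trans ((min_le_right _ _).trans (min_le_left _ _))
    have hηs : η ≤ δs := (min_le_left _ _).trans ((min_le_right _ _).trans (min_le_right _ _))
    have hη2 : Real.sqrt η ≤ ε / 16000 := (Real.sqrt_le_left (by positivity)).2
      ((min_le_right _ _).trans (min_le_left _ _))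
    have hη3 : err η ≤ ε / 80 := by
      unfold err
      have h : η ^ (1 / 3 : ℝ) ≤ ε / 800 := by
        refine (Real.rpow_le_rpow hη0.le ((min_le_right _ _).trans (min_le_right _ _))
          (by norm_num)).trans_eq ?_
        rw [← Real.rpow_natCast, ← Real.rpow_mul (by positivity)]
        norm_num
      linarith
    obtain ⟨δ₀, hδ₀, hsharp⟩ := sharpen η B hη0
    refine ⟨min δ₀ δs, lt_min hδ₀ hδs, fun u hu hS s hs hg hv hd hB => ?_⟩
    have hk0 : (0 : ℝ) ≤ k := Nat.cast_nonneg k
    push_cast at hv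
    have huniv : s.card ≤ 3 := s.card_le_univ
    rcases le_or_gt (mean u) (262 / 1000) with hlow | hhigh
    · have := low_bound hT hR hC hSc hTi 3 u hu s huniv hg hlow δs hδs
      linarith [hsmall _ (dfct_nonneg hu) (hd.trans (min_le_right _ _))]
    obtain ⟨u', hu', hS', hmean, hd', hE', hzero, hSh⟩ :=
      hsharp u hu hS (hd.trans (min_le_left _ _)) hB
    have hg' : ∀ j ∉ s, HasGap u' j := fun j hj => by
      obtain ⟨a, b, hab, hz⟩ := hg j hj
      exact ⟨a, b, hab, fun x hx => hzero x (hz x hx)⟩
    have hm1 := abs_le.1 hmean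
    have hv0 : 259 / 1000 ≤ mean u' := by linarith
    have hv1 : mean u' ≤ 368 / 1000 := by linarith
    have herr : err (dfct u') ≤ ε / 80 :=
      (err_mono (dfct_nonneg hu') hd').trans hη3
    have hcan : canonical (mean u) ≤ canonical (mean u') + 7 * η :=
      canonical_near (mean_mem hu').1 (by linarith) hmean
    have hηle : η ≤ Real.sqrt η := le_sqrt_self hη0.le (by linarith)
    suffices canonical (mean u') ≤ energy u' + ε / 2 by linarith
    have hloss : caseLoss η u' ≤ ε / 2 := by unfold caseLoss; linarith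
    by_cases hthin : ∃ i ∈ s, far u' i ≤ 16 / 10000
    · obtain ⟨i, hi, hfi⟩ := hthin
      by_cases hcut : CanCut (area u' i) 7 (1 / 100)
      · have hβη : (7 : ℝ) * Real.sqrt (1 / 100) ≤ 2 * Real.sqrt Real.pi := by
          rw [show Real.sqrt (1 / 100 : ℝ) = 1 / 10 by
            rw [show (1 / 100 : ℝ) = (1 / 10) ^ 2 by norm_num, Real.sqrt_sq (by norm_num)]]
          have : 1 ≤ Real.sqrt Real.pi := Real.one_le_sqrt.2 (by linarith [Real.pi_gt_three])
          linarith
        obtain ⟨w, hw, hSw, hle, hgap, hdw, -, hEw⟩ := hSy u' hu' hS' i 7 (1 / 100) (by norm_num)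
          (by norm_num) (by norm_num) hβη (by linarith) hcut η hη0
        have hmm := mean_mono hu' hw hle
        have h7 := mul_nonneg (show (0 : ℝ) ≤ 7 by norm_num) (sub_nonneg.2 hmm)
        have hrec := hk w hw hSw (s.erase i)
          (by rw [Finset.card_erase_of_mem hi]; omega) (gaps_erase hw hle hgap hg')
          (by linarith) (by linarith) (by linarith)
        have := canonical_drop (mean_mem hw).1 hmm hv0
        linarith
      · have := hRow u' hu' i hcut hv0 hv1 ⟨1 / 2, hfi⟩
        linarith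
    push Not at hthin
    by_cases huall : ∀ i, i ∈ s
    · have := contact_case hW hu' hS' hSh hη0.le (by linarith) (fun i => hthin i (huall i)) hv0 hv1
      linarith
    push Not at huall
    obtain ⟨i, hi⟩ := huall
    obtain ⟨j, l, hij, hil, hjl⟩ := others i
    by_cases hsmallfar : ∃ x ∈ s, far u' x ≤ 4 / 100
    · obtain ⟨x, hx, hfx⟩ := hsmallfar
      have := small_case hW hu' hS' hSh hη0.le (by linarith) (hthin x hx) hfx hv0 hv1
      linarith
    push Not at hsmallfar
    by_cases hj : j ∈ s <;> by_cases hl : l ∈ s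
    · have := gap_case hW hu' hS' hSh hη0 hη10 hij hil hjl (hg' i hi) (hsmallfar j hj)
        (hsmallfar l hl) hv0 hv1
      linarith
    · have := tube_case hu' hS' hij.symm hjl hil (hg' i hi) (hg' l hl)
        (by linarith [hsmallfar j hj]) η hv0 hv1
      linarith
    · have := tube_case hu' hS' hil.symm hjl.symm hij (hg' i hi) (hg' j hj)
        (by linarith [hsmallfar l hl]) η hv0 hv1
      linarith
    · have hall : ∀ x, HasGap u' x := by
        intro x
        rcases (show x = i ∨ x = j ∨ x = l by omega) with rfl | rfl | rfl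
        exacts [hg' _ hi, hg' _ hj, hg' _ hl]
      have := bound_no_axis hT hu' 3 (s := ∅) rfl (fun x _ => hall x) hδs.le
      linarith [hsmall _ (dfct_nonneg hu') (hd'.trans hηs), canonical_le_ball (mean u')]

/-- The lower bound at every volume. -/
theorem lower_bound_all (hA : Approx) (hT : ThreeGaps) (hR : RowBound) (hTi : TinyBound)
    (hC : CutStep) (hSc : Scalar) (hW : WindowScalar) (hRow : WindowRow) (hSy : SymCut)
    {V A : ℝ} (hV0 : 0 < V) (hV1 : V < 1) (hA' : A ∈ perimeters V) : J V ≤ A := by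
  by_cases hrange : min V (1 - V) ≤ 262 / 1000 ∨ 365 / 1000 ≤ min V (1 - V)
  · exact lower_bound hA hT hR hTi hC hSc hV0 hV1 hrange hA'
  push Not at hrange
  obtain ⟨E, hE, hvol, hP⟩ := hA'
  refine le_of_forall_pos_le_add fun ε hε => ?_
  set e := min (ε / 2) 1 with he
  have he0 : 0 < e := by positivity
  obtain ⟨δ, hδ, hnode⟩ :=
    window_node hT hR hTi hC hSc hW hRow hSy 3 e he0 (min_le_right _ _) (A + 1)
  set ρ := min (δ / 2) (min (ε / 2) 1) with hρ
  have hρ0 : 0 < ρ := by positivity
  obtain ⟨w, hw, hm, hd, hEw⟩ := exists_adm hA hE hP hvol hV0 hV1 hρ0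
  obtain ⟨u, hu, hmu, hdu, hEu, heven, hanti⟩ := Symm.exists_symmetric hw (δ := δ / 2) (by linarith)
  have h1 : ρ ≤ δ / 2 := min_le_left _ _
  have h2 : ρ ≤ ε / 2 := (min_le_right _ _).trans (min_le_left _ _)
  have h3 : ρ ≤ 1 := (min_le_right _ _).trans (min_le_right _ _)
  have h4 : e ≤ ε / 2 := min_le_left _ _
  have := hnode u hu ⟨heven, hanti⟩ Finset.univ le_rfl
    (fun j hj => absurd (Finset.mem_univ j) hj) (by rw [hmu, hm]; push_cast; linarith)
    (by linarith) (by linarith)
  unfold J
  rw [← hm, ← hmu]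
  linarith

end Vale.Agent.P232.Win
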