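import Vale.Agent.P232.Win.Cert

/-!
# P232: the certificate test, arranged for evaluation by the kernel

Every operation is on natural numbers or on the constructors of the integers, so that the kernel
spends little memory on a node.
-/

namespace Vale.Agent.P232.Win

namespace Fast

/-- `≤` on the integers, by cases on the constructors. -/
def zle : ℤ → ℤ → Bool
  | .ofNat a, .ofNat b => Nat.ble a b
  | .ofNat _, .negSucc _ => false
  | .negSucc _, .ofNat _ => true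
  | .negSucc a, .negSucc b => Nat.ble b a

/-- The smaller integer. -/
def zmin (a b : ℤ) : ℤ := bif zle a b then a else b
/-- The nonnegative part. -/
def zpos : ℤ → ℕ
  | .ofNat a => a
  | .negSucc _ => 0

/-- `Win.gOne`, with natural arithmetic. -/
def gOne (T1 : ℕ) : Option (ℕ × ℕ × ℕ) → ℕ → ℤ × ℕ
  | none, _ => (Int.ofNat 1000000000000, 1)
  | some (L0, P, Q), X =>
    (Int.subNatNat (Nat.mul (Nat.mul 2 L0) (Nat.add (Nat.mul P 1000000) (Nat.mul Q X)))
      (Nat.add (Nat.mul (Nat.mul 2 L0) (Nat.mul Q T1)) (Nat.mul (Nat.mul L0 L0) 1000000)), 1000000)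

/-- `Win.gBoth`, with natural arithmetic. -/
def gBoth (T0 : ℕ) : Option ℕ → ℕ → ℤ × ℕ
  | none, X => (Int.subNatNat 3141592000000 (Nat.mul 3141592 X), 1)
  | some L0, X =>
    let t := Nat.sub 1000000 T0
    (Int.subNatNat (Nat.add (Nat.mul (Nat.mul 2 L0) 4000000000000000000)
        (Nat.mul (Nat.mul 2 L0) (Nat.mul 3141592 (Nat.mul t t))))
      (Nat.add (Nat.mul (Nat.mul 2 L0) (Nat.mul 4000000000000 X))
        (Nat.mul (Nat.mul L0 L0) (Nat.mul 4000000 t))), Nat.mul 4000000 t)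

/-- `Win.fits`, with natural arithmetic. -/
def fits (x : ℤ) (W : ℕ) : ℤ × ℕ → Bool
  | (.negSucc _, _) => false
  | (.ofNat g, d) => Nat.ble W 1000000 &&
      (let p := zpos x
       Nat.ble (Nat.add (Nat.mul (Nat.mul p p) d) (Nat.mul (Nat.mul W W) g)) (Nat.mul 1000000000000 g))

/-- `Win.oneOK`. -/
def oneOK (theta : Bool) : Option (ℕ × ℕ × ℕ) → Bool
  | none => true
  | some (L0, P, Q) =>
    theta && Nat.blt 0 L0 && (Nat.ble (Nat.add (Nat.mul P P) (Nat.mul Q Q)) 1000000000000 ||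
      arcsN.any fun q => Nat.beq q.1 P && Nat.beq q.2 Q)

/-- `Win.bothOK`. -/
def bothOK (theta : Bool) (T0 Y : ℕ) : Option ℕ → Bool
  | none => true
  | some L0 =>
    theta && Nat.blt 0 L0 && Nat.blt T0 1000000 &&
      (let t := Nat.sub 1000000 T0
       Nat.ble (Nat.add (Nat.mul 3141593 (Nat.mul t t)) (Nat.mul 4000000000000 Y)) 4000000000000000000)

/-- `lineX`. -/
def line (B A : ℤ) (X : ℕ) : ℤ := Int.add (Int.mul A (Int.ofNat 1000000)) (Int.mul B (Int.ofNat X))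

/-- `Win.cellOK`, on the constructors. -/
def cellOK (th : Bool) (T0 T1 : ℕ) (B A0 A1 A2 : ℤ) (p q : Node) : Bool :=
  match p, q with
  | ⟨pX, pw0, pw1, pw2, po, pk⟩, ⟨qX, qw0, qw1, qw2, _, _⟩ =>
    Nat.blt pX qX && oneOK th po && bothOK th T0 qX pk &&
      fits (line B A0 pX) pw0 (Int.ofNat (Nat.mul 3141592 pX), 1) &&
      fits (line B A0 qX) qw0 (Int.ofNat (Nat.mul 3141592 qX), 1) &&
      fits (line B A1 pX) pw1 (gOne T1 po pX) &&
      fits (line B A1 qX) qw1 (gOne T1 po qX) &&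
      fits (line B A2 pX) pw2 (gBoth T0 pk pX) &&
      fits (line B A2 qX) qw2 (gBoth T0 pk qX)

/-- `Win.nodesFit`. -/
def nodesFit (th : Bool) (T0 T1 M1 : ℕ) (B A0 A1 A2 : ℤ) : List Node → Bool
  | [] => false
  | p :: r => match r with
    | [] => Nat.beq p.X M1
    | q :: _ => cellOK th T0 T1 B A0 A1 A2 p q && nodesFit th T0 T1 M1 B A0 A1 A2 r

/-- The smaller number. -/
def nmin (a b : ℕ) : ℕ := bif Nat.ble a b then a else b
/-- The greater number. -/
def nmax (a b : ℕ) : ℕ := bif Nat.ble a b then b else a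

/-- The last entry of `Win.runDP`. -/
def runDP (C1 M0 : ℕ) : List Node → ℕ → ℕ → ℕ → ℕ
  | [], _, _, s2 => s2
  | p :: r, s0, s1, s2 => match r with
    | [] => s2
    | q :: _ =>
      bif Nat.ble C1 p.X && Nat.ble q.X M0 then
        (let h := Nat.sub q.X p.X
         runDP C1 M0 r (Nat.add s0 (Nat.mul h (Nat.add p.w0 q.w0)))
          (nmin (Nat.add s1 (Nat.mul h (Nat.add p.w1 q.w1)))
            (Nat.add s0 (Nat.mul h (Nat.add (nmin p.w0 p.w1) (nmin q.w0 q.w1)))))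
          (nmin (nmin (Nat.add s2 (Nat.mul h (Nat.add p.w2 q.w2)))
              (Nat.add s1 (Nat.mul h (Nat.add (nmin p.w1 p.w2) (nmin q.w1 q.w2)))))
            (Nat.add s0 (Nat.mul h (Nat.add (nmin p.w0 (nmin p.w1 p.w2))
              (nmin q.w0 (nmin q.w1 q.w2)))))))
      else runDP C1 M0 r s0 s1 s2

/-- `Win.durMin`. -/
def durMin (Tn Td : ℕ) (A0 A1 A2 : ℤ) : ℤ :=
  let e := Int.mul A2 (Int.ofNat Tn)
  let f := Int.subNatNat Td Tn
  zmin (Int.mul A2 (Int.ofNat Td)) (zmin (Int.add e (Int.mul A0 f)) (Int.add e (Int.mul A1 f)))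

/-- `valueOKW`. -/
def valueOK (q : TBin) (B : ℤ) (G : ℕ) (D : ℤ) (Td V : ℕ) : Bool :=
  zle (Int.ofNat (Nat.mul (Nat.mul 2 Td) (Nat.add (Nat.mul q.A 1000000) (Nat.mul q.S V))))
    (Int.add (Int.mul (Int.ofNat Td) (Int.add (Int.mul (Int.mul (Int.ofNat 2) B) (Int.ofNat V)) (Int.ofNat G)))
      (Int.mul (Int.ofNat 2000000) D))

/-- A constant is in range. -/
def small (a : ℤ) : Bool := Nat.ble a.natAbs 20000000

/-- `Win.leafFit`. -/
def leafFit (q : TBin) (dur : WBox → ℕ × ℕ) (b : WBox) (B A0 A1 A2 : ℤ) : List Node → Bool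
  | [] => false
  | p :: r => match r with
    | [] => false
    | _ :: _ =>
      match b, dur b with
      | ⟨th, C0, C1, M0, M1, T0, T1⟩, (Tn, Td) =>
        Nat.beq p.X C0 && small B && small A0 && small A1 && small A2 && Nat.ble Tn Td &&
          Nat.blt 0 Td && nodesFit th T0 T1 M1 B A0 A1 A2 (p :: r) &&
          (Nat.blt (nmin q.V1 M1) (nmax q.V0 C0) ||
            (let G := runDP C1 M0 (p :: r) 0 0 0
             let D := durMin Tn Td A0 A1 A2
             valueOK q B G D Td (nmax q.V0 C0) && valueOK q B G D Td (nmin q.V1 M1)))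

/-- `durGapN`. -/
def durGap : WBox → ℕ × ℕ
  | ⟨_, _, _, _, M1, T0, _⟩ =>
    bif Nat.blt T0 M1 then
      (nmin (Nat.mul 39500 (Nat.sub 1000000 T0)) (Nat.mul (Nat.sub M1 T0) 1000000), Nat.mul (Nat.sub M1 T0) 1000000)
    else (1, 1)

/-- `Win.skipOK`. -/
def skipOK (q : TBin) : WBox → Bool
  | ⟨th, C0, _, _, M1, T0, _⟩ =>
    Nat.blt q.V1 C0 || Nat.blt M1 q.V0 || (th && Nat.ble M1 T0 && Nat.blt T0 1000000)

/-- `checkW`, made cheap to evaluate. -/
def check (q : TBin) (dur : WBox → ℕ × ℕ) (corner : WBox → Bool) : WCert → WBox → Bool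
  | .leaf B A0 A1 A2 xs, b => leafFit q dur b B A0 A1 A2 xs
  | .skip, b => skipOK q b
  | .corner, b => corner b
  | .splitC s l r, ⟨th, C0, C1, M0, M1, T0, T1⟩ =>
    check q dur corner l ⟨th, C0, s, M0, M1, T0, T1⟩ && check q dur corner r ⟨th, s, C1, M0, M1, T0, T1⟩
  | .splitM s l r, ⟨th, C0, C1, M0, M1, T0, T1⟩ =>
    check q dur corner l ⟨th, C0, C1, M0, s, T0, T1⟩ && check q dur corner r ⟨th, C0, C1, s, M1, T0, T1⟩
  | .splitT s l r, ⟨th, C0, C1, M0, M1, T0, T1⟩ =>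
    check q dur corner l ⟨th, C0, C1, M0, M1, T0, s⟩ && check q dur corner r ⟨th, C0, C1, M0, M1, s, T1⟩

theorem zle_eq (a b : ℤ) : zle a b = decide (a ≤ b) := by
  rcases a with a | a <;> rcases b with b | b <;> rw [Bool.eq_iff_iff] <;> simp [zle, Int.negSucc_eq] <;>
    omega

theorem zmin_eq (a b : ℤ) : zmin a b = min a b := by
  rw [zmin, zle_eq]
  by_cases h : a ≤ b <;> simp [h, min_def]

theorem zpos_eq (a : ℤ) : (zpos a : ℤ) = max a 0 := by
  rcases a with a | a <;> simp [zpos]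

theorem ble_eq (a b : ℕ) : Nat.ble a b = decide (a ≤ b) := by
  rw [Bool.eq_iff_iff]; simp

theorem nmin_eq (a b : ℕ) : nmin a b = min a b := by
  by_cases h : a ≤ b <;> simp [nmin, ble_eq, h, min_def]

theorem nmax_eq (a b : ℕ) : nmax a b = max a b := by
  by_cases h : a ≤ b <;> simp [nmax, ble_eq, h, max_def]

theorem blt_eq (a b : ℕ) : Nat.blt a b = decide (a < b) := by
  rw [Bool.eq_iff_iff]; simp

theorem nodesFit_cons (th : Bool) (T0 T1 M1 : ℕ) (B A0 A1 A2 : ℤ) (p q : Node) (r : List Node) :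
    nodesFit th T0 T1 M1 B A0 A1 A2 (p :: q :: r) =
      (cellOK th T0 T1 B A0 A1 A2 p q && nodesFit th T0 T1 M1 B A0 A1 A2 (q :: r)) := rfl

theorem line_eq (B A : ℤ) (X : ℕ) : line B A X = lineX B A X := rfl

theorem fits_of {x : ℤ} {W : ℕ} {g : ℤ × ℕ} {g' : ℤ × ℤ} (e1 : g.1 = g'.1) (e2 : (g.2 : ℤ) = g'.2)
    (h : fits x W g = true) : Win.fits x W g' = true := by
  obtain ⟨g1, g2⟩ := g'
  obtain ⟨_ | _, d⟩ := g
  · simp only [fits, Bool.and_eq_true, Nat.ble_eq, Nat.add_eq, Nat.mul_eq] at h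
    subst e1 e2
    simp only [Win.fits, decide_eq_true_eq]
    obtain ⟨h1, h2⟩ := h
    have h2' := (Int.ofNat_le).2 h2
    push_cast at h2'
    rw [zpos_eq] at h2'
    refine ⟨by simp, by show (W : ℤ) ≤ 1000000; exact_mod_cast h1, ?_⟩
    simp only [Int.ofNat_eq_natCast] at h2' ⊢
    linarith
  · simp [fits] at h

theorem gOne_fst (T1 : ℕ) (o : Option (ℕ × ℕ × ℕ)) (X : ℕ) :
    (gOne T1 o X).1 = (Win.gOne T1 o X).1 := by
  rcases o with _ | ⟨L0, P, Q⟩ <;>
    simp [gOne, Win.gOne, Int.subNatNat_eq_coe, Nat.add_eq, Nat.mul_eq] <;> ring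

theorem gOne_snd (T1 : ℕ) (o : Option (ℕ × ℕ × ℕ)) (X : ℕ) :
    ((gOne T1 o X).2 : ℤ) = (Win.gOne T1 o X).2 := by
  rcases o with _ | ⟨L0, P, Q⟩ <;> simp [gOne, Win.gOne]

theorem gBoth_eq {th : Bool} {T0 Y : ℕ} {k : Option ℕ} (h : bothOK th T0 Y k = true) (X : ℕ) :
    (gBoth T0 k X).1 = (Win.gBoth T0 k X).1 ∧ ((gBoth T0 k X).2 : ℤ) = (Win.gBoth T0 k X).2 := by
  rcases k with _ | L0
  · unfold gBoth Win.gBoth
    simp [Int.subNatNat_eq_coe]
    ring
  · simp only [bothOK, Bool.and_eq_true, Nat.blt_eq] at h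
    have e := Nat.cast_sub (R := ℤ) h.1.2.le
    unfold gBoth Win.gBoth
    refine ⟨?_, ?_⟩ <;> simp [Int.subNatNat_eq_coe, e, den]
    ring

theorem oneOK_of {th : Bool} {o : Option (ℕ × ℕ × ℕ)} (h : oneOK th o = true) :
    Win.oneOK th o = true := by
  rcases o with _ | ⟨L0, P, Q⟩
  · rfl
  simp only [oneOK, Bool.and_eq_true, Nat.blt_eq, Bool.or_eq_true, Nat.ble_eq, List.any_eq_true,
    Nat.add_eq, Nat.mul_eq] at h
  obtain ⟨⟨hth, hL⟩, hpq⟩ := h
  simp only [Win.oneOK, Bool.and_eq_true, Bool.or_eq_true, decide_eq_true_eq, List.contains_iff_mem]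
  refine ⟨⟨hth, hL⟩, hpq.imp (fun h => ?_) ?_⟩
  · have := (Int.ofNat_le).2 h
    push_cast at this
    show (P : ℤ) ^ 2 + (Q : ℤ) ^ 2 ≤ 1000000 ^ 2
    linarith
  · rintro ⟨⟨a, b⟩, hm, h1, h2⟩
    rw [← Nat.eq_of_beq_eq_true h1, ← Nat.eq_of_beq_eq_true h2]
    exact hm

theorem bothOK_of {th : Bool} {T0 Y : ℕ} {k : Option ℕ} (h : bothOK th T0 Y k = true) :
    Win.bothOK th T0 Y k = true := by
  rcases k with _ | L0
  · rfl
  simp only [bothOK, Bool.and_eq_true, Nat.blt_eq, Nat.ble_eq, Nat.add_eq, Nat.mul_eq,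
    Nat.sub_eq] at h
  obtain ⟨⟨⟨hth, hL⟩, hT⟩, hflat⟩ := h
  simp only [Win.bothOK, Bool.and_eq_true, decide_eq_true_eq]
  refine ⟨hth, hL, hT, ?_⟩
  have := (Int.ofNat_le).2 hflat
  push_cast [Nat.cast_sub hT.le] at this
  show 3141593 * (1000000 - (T0 : ℤ)) ^ 2 ≤ 4 * 1000000 * 1000000 * (1000000 - Y)
  linarith

theorem cellOK_of {b : WBox} {B A0 A1 A2 : ℤ} {p q : Node}
    (h : cellOK b.theta b.T0 b.T1 B A0 A1 A2 p q = true) :
    p.X < q.X ∧ Win.cellOK b B A0 A1 A2 p q = true := by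
  simp only [cellOK, Bool.and_eq_true, Nat.blt_eq, line_eq] at h
  obtain ⟨⟨⟨⟨⟨⟨⟨⟨hX, ho⟩, hk⟩, p0⟩, q0⟩, p1⟩, q1⟩, p2⟩, q2⟩ := h
  refine ⟨hX, ?_⟩
  simp only [Win.cellOK, Bool.and_eq_true, decide_eq_true_eq]
  exact ⟨⟨⟨⟨⟨⟨⟨⟨hX, oneOK_of ho⟩, bothOK_of hk⟩, fits_of (by simp) (by simp) p0⟩,
    fits_of (by simp) (by simp) q0⟩, fits_of (gOne_fst ..) (gOne_snd ..) p1⟩,
    fits_of (gOne_fst ..) (gOne_snd ..) q1⟩,
    fits_of (gBoth_eq hk _).1 (gBoth_eq hk _).2 p2⟩, fits_of (gBoth_eq hk _).1 (gBoth_eq hk _).2 q2⟩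

theorem runDP_cons (C1 M0 : ℕ) (p q : Node) (r : List Node) (s0 s1 s2 : ℕ) :
    runDP C1 M0 (p :: q :: r) s0 s1 s2 =
      bif Nat.ble C1 p.X && Nat.ble q.X M0 then
        runDP C1 M0 (q :: r) (s0 + (q.X - p.X) * (p.w0 + q.w0))
          (nmin (s1 + (q.X - p.X) * (p.w1 + q.w1))
            (s0 + (q.X - p.X) * (nmin p.w0 p.w1 + nmin q.w0 q.w1)))
          (nmin (nmin (s2 + (q.X - p.X) * (p.w2 + q.w2))
              (s1 + (q.X - p.X) * (nmin p.w1 p.w2 + nmin q.w1 q.w2)))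
            (s0 + (q.X - p.X) * (nmin p.w0 (nmin p.w1 p.w2) + nmin q.w0 (nmin q.w1 q.w2))))
      else runDP C1 M0 (q :: r) s0 s1 s2 := rfl

theorem nodesFit_of {b : WBox} {B A0 A1 A2 : ℤ} : ∀ {l : List Node},
    nodesFit b.theta b.T0 b.T1 b.M1 B A0 A1 A2 l = true → Win.nodesFit b B A0 A1 A2 l = true
  | [], h => by simp [nodesFit] at h
  | [p], h => by
    simp only [nodesFit] at h
    simp [Win.nodesFit, Nat.eq_of_beq_eq_true h]
  | p :: q :: r, h => by
    simp only [nodesFit_cons, Bool.and_eq_true] at h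
    simp [Win.nodesFit, (cellOK_of h.1).2, nodesFit_of h.2]

theorem runDP_of {th : Bool} {T0 T1 M1 C1 M0 : ℕ} {B A0 A1 A2 : ℤ} : ∀ {l : List Node} (s0 s1 s2 : ℕ),
    nodesFit th T0 T1 M1 B A0 A1 A2 l = true →
      (runDP C1 M0 l s0 s1 s2 : ℤ) = (Win.runDP C1 M0 l (s0, s1, s2)).2.2
  | [], s0, s1, s2, h => by simp [nodesFit] at h
  | [p], s0, s1, s2, _ => by simp [runDP, Win.runDP]
  | p :: q :: r, s0, s1, s2, h => by
    simp only [nodesFit_cons, Bool.and_eq_true] at h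
    have hX : p.X < q.X := (cellOK_of (b := ⟨th, 0, 0, 0, M1, T0, T1⟩) h.1).1
    have hr := fun a b c => runDP_of (C1 := C1) (M0 := M0) (l := q :: r) a b c h.2
    rw [Win.runDP, runDP_cons]
    by_cases hc : C1 ≤ p.X ∧ q.X ≤ M0
    · simp only [stepDP, ble_eq, hc.1, hc.2, decide_true, Bool.and_self, cond_true]
      rw [hr]
      simp [trapZ, nmin_eq, Nat.cast_sub hX.le]
    · have hf : (decide (C1 ≤ p.X) && decide (q.X ≤ M0)) = false := by
        rw [← Bool.decide_and, decide_eq_false_iff_not]; exact hc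
      simp only [stepDP, if_neg hc, ble_eq, hf, cond_false]
      exact hr _ _ _

theorem durMin_eq (Tn Td : ℕ) (A0 A1 A2 : ℤ) : durMin Tn Td A0 A1 A2 = Win.durMin Tn Td A0 A1 A2 := by
  simp [durMin, Win.durMin, zmin_eq, Int.subNatNat_eq_coe]

theorem valueOK_eq (q : TBin) (B : ℤ) (G : ℕ) (D : ℤ) (Td V : ℕ) :
    valueOK q B G D Td V = valueOKW q B G D Td V := by
  rw [valueOK, zle_eq, valueOKW]
  congr 1

theorem durGap_eq (b : WBox) : durGap b = durGapN b := by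
  obtain ⟨th, C0, C1, M0, M1, T0, T1⟩ := b
  by_cases h : T0 < M1 <;> simp [durGap, durGapN, blt_eq, h, nmin_eq]

theorem small_of {a : ℤ} (h : small a = true) : |a| ≤ 20 * den := by
  simp only [small, Nat.ble_eq] at h
  show |a| ≤ 20 * 1000000
  rw [Int.abs_eq_natAbs]
  exact_mod_cast h

theorem leafFit_of {q : TBin} {dur : WBox → ℕ × ℕ} {b : WBox} {B A0 A1 A2 : ℤ} :
    ∀ {l : List Node}, leafFit q dur b B A0 A1 A2 l = true → Win.leafFit q dur b B A0 A1 A2 l = true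
  | [], h => by simp [leafFit] at h
  | [p], h => by simp [leafFit] at h
  | p :: p' :: r, h => by
    obtain ⟨th, C0, C1, M0, M1, T0, T1⟩ := b
    rcases hd : dur ⟨th, C0, C1, M0, M1, T0, T1⟩ with ⟨Tn, Td⟩
    simp only [leafFit, hd, Bool.and_eq_true, Bool.or_eq_true, Nat.ble_eq, Nat.blt_eq,
      nmin_eq, nmax_eq, valueOK_eq, durMin_eq] at h
    obtain ⟨⟨⟨⟨⟨⟨⟨⟨h0, hB⟩, hA0⟩, hA1⟩, hA2⟩, hT⟩, hT'⟩, hn⟩, hv⟩ := h
    have hnf := nodesFit_of (b := ⟨th, C0, C1, M0, M1, T0, T1⟩) hn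
    simp only [runDP_of 0 0 0 hn] at hv
    simp only [Win.leafFit, hd, Bool.and_eq_true, Bool.or_eq_true, decide_eq_true_eq]
    exact ⟨⟨⟨Nat.eq_of_beq_eq_true h0, small_of hB, small_of hA0, small_of hA1, small_of hA2, hT, hT'⟩,
      hnf⟩, by simpa using hv⟩

theorem skipOK_of {q : TBin} {b : WBox} (h : skipOK q b = true) : Win.skipOK q b = true := by
  obtain ⟨th, C0, C1, M0, M1, T0, T1⟩ := b
  simp only [skipOK, Bool.or_eq_true, Bool.and_eq_true, Nat.blt_eq, Nat.ble_eq] at h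
  simp only [Win.skipOK, Bool.or_eq_true, Bool.and_eq_true, decide_eq_true_eq]
  tauto

theorem checkW_of {q : TBin} {dur dur' : WBox → ℕ × ℕ} {corner : WBox → Bool}
    (hd : ∀ b, dur' b = dur b) : ∀ {t : WCert} {b : WBox},
      check q dur' corner t b = true → checkW q dur corner t b = true := by
  obtain rfl : dur' = dur := funext hd
  intro t
  induction t with
  | leaf B A0 A1 A2 xs => exact fun h => leafFit_of h
  | skip => exact fun h => skipOK_of h
  | corner => exact fun h => h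
  | splitC s l r il ir =>
    rintro ⟨th, C0, C1, M0, M1, T0, T1⟩ h
    simp only [check, Bool.and_eq_true] at h
    simp only [checkW, il h.1, ir h.2, Bool.and_self]
  | splitM s l r il ir =>
    rintro ⟨th, C0, C1, M0, M1, T0, T1⟩ h
    simp only [check, Bool.and_eq_true] at h
    simp only [checkW, il h.1, ir h.2, Bool.and_self]
  | splitT s l r il ir =>
    rintro ⟨th, C0, C1, M0, M1, T0, T1⟩ h
    simp only [check, Bool.and_eq_true] at h
    simp only [checkW, il h.1, ir h.2, Bool.and_self]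

theorem splitC_ok {q : TBin} {dur : WBox → ℕ × ℕ} {co : WBox → Bool} {s C0 C1 M0 M1 T0 T1 : ℕ}
    {th : Bool} {l r : WCert} (hl : check q dur co l ⟨th, C0, s, M0, M1, T0, T1⟩ = true)
    (hr : check q dur co r ⟨th, s, C1, M0, M1, T0, T1⟩ = true) :
    check q dur co (.splitC s l r) ⟨th, C0, C1, M0, M1, T0, T1⟩ = true := by simp [check, hl, hr]

theorem splitM_ok {q : TBin} {dur : WBox → ℕ × ℕ} {co : WBox → Bool} {s C0 C1 M0 M1 T0 T1 : ℕ}
    {th : Bool} {l r : WCert} (hl : check q dur co l ⟨th, C0, C1, M0, s, T0, T1⟩ = true)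
    (hr : check q dur co r ⟨th, C0, C1, s, M1, T0, T1⟩ = true) :
    check q dur co (.splitM s l r) ⟨th, C0, C1, M0, M1, T0, T1⟩ = true := by simp [check, hl, hr]

theorem splitT_ok {q : TBin} {dur : WBox → ℕ × ℕ} {co : WBox → Bool} {s C0 C1 M0 M1 T0 T1 : ℕ}
    {th : Bool} {l r : WCert} (hl : check q dur co l ⟨th, C0, C1, M0, M1, T0, s⟩ = true)
    (hr : check q dur co r ⟨th, C0, C1, M0, M1, s, T1⟩ = true) :
    check q dur co (.splitT s l r) ⟨th, C0, C1, M0, M1, T0, T1⟩ = true := by simp [check, hl, hr]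

end Fast

end Vale.Agent.P232.Win
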