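import Vale.Agent.P232.Win.Bins
import Vale.Agent.P232.Win.Fast
import Vale.Agent.P232.Win.DataGap0
import Vale.Agent.P232.Win.DataGap1
import Vale.Agent.P232.Win.DataGap2

/-!
# P232: certificates of the middle range
-/

noncomputable section

namespace Vale.Agent.P232.Win

-- evaluation is left to the kernel, one subtree at a time
attribute [local irreducible] Fast.check

theorem gap0_ok : checkW bin0 durGapN gapCorner gap0 ⟨true, 0, 0, 259000, 1000000, 0, 1000000⟩ = true := by
  refine Fast.checkW_of Fast.durGap_eq ?_
  iterate 5 all_goals try first | apply Fast.splitC_ok | apply Fast.splitM_ok | apply Fast.splitT_ok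
  all_goals decide +kernel

theorem gap1_ok : checkW bin1 durGapN gapCorner gap1 ⟨true, 0, 0, 278000, 1000000, 0, 1000000⟩ = true := by
  refine Fast.checkW_of Fast.durGap_eq ?_
  iterate 5 all_goals try first | apply Fast.splitC_ok | apply Fast.splitM_ok | apply Fast.splitT_ok
  all_goals decide +kernel

theorem gap2_ok : checkW bin2 durGapN gapCorner gap2 ⟨true, 0, 0, 297000, 1000000, 0, 1000000⟩ = true := by
  refine Fast.checkW_of Fast.durGap_eq ?_
  iterate 5 all_goals try first | apply Fast.splitC_ok | apply Fast.splitM_ok | apply Fast.splitT_ok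
  all_goals decide +kernel

end Vale.Agent.P232.Win
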