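import Vale.Agent.P232.Win.Bins
import Vale.Agent.P232.Win.Fast
import Vale.Agent.P232.Win.DataGap3

/-!
# P232: certificates of the middle range
-/

noncomputable section

namespace Vale.Agent.P232.Win

-- evaluation is left to the kernel, one subtree at a time
attribute [local irreducible] Fast.check

theorem gap3_ok : checkW bin3 durGapN gapCorner gap3 ⟨true, 0, 0, 311000, 1000000, 0, 1000000⟩ = true := by
  refine Fast.checkW_of Fast.durGap_eq ?_
  iterate 5 all_goals try first | apply Fast.splitC_ok | apply Fast.splitM_ok | apply Fast.splitT_ok
  all_goals decide +kernel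

end Vale.Agent.P232.Win
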