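import Vale.Agent.P232.Win.CheckA
import Vale.Agent.P232.Win.CheckB
import Vale.Agent.P232.Win.CheckC
import Vale.Agent.P232.Win.CheckD

/-!
# P232: the scalar facts of the middle range
-/

noncomputable section

open MeasureTheory Set

namespace Vale.Agent.P232.Win

/-- The bin of a mean. -/
theorem bin_cases {v : ℝ} (h0 : 259 / 1000 ≤ v) (h1 : v ≤ 368 / 1000) :
    v ∈ Icc (rv bin0.V0) (rv bin0.V1) ∨ v ∈ Icc (rv bin1.V0) (rv bin1.V1) ∨
      v ∈ Icc (rv bin2.V0) (rv bin2.V1) ∨ v ∈ Icc (rv bin3.V0) (rv bin3.V1) ∨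
      v ∈ Icc (rv bin4.V0) (rv bin4.V1) := by
  simp only [mem_Icc, rv, bin0, bin1, bin2, bin3, bin4]
  push_cast
  rcases le_total v (278000 / 1000000) with h | h
  · exact Or.inl ⟨by linarith, h⟩
  rcases le_total v (297000 / 1000000) with h' | h'
  · exact Or.inr (Or.inl ⟨h, h'⟩)
  rcases le_total v (311000 / 1000000) with h'' | h''
  · exact Or.inr (Or.inr (Or.inl ⟨h', h''⟩))
  rcases le_total v (318309 / 1000000) with h3 | h3
  · exact Or.inr (Or.inr (Or.inr (Or.inl ⟨h'', h3⟩)))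
  · exact Or.inr (Or.inr (Or.inr (Or.inr ⟨h3, by linarith⟩)))

variable {c m v θ : ℝ} {q : TBin}


theorem contact_root (hv0 : 259 / 1000 ≤ v) (hdom : binDom q = true) (hq : v ∈ Icc (rv q.V0) (rv q.V1))
    (hc : 1595 / 1000000 ≤ c) (hcv : c ≤ v) (hvm : v ≤ m) (hm1 : m ≤ 1) {t : WCert}
    (h : checkW q durContactN noCorner t ⟨false, 1590, q.V1, q.V0, 1000000, 0, 0⟩ = true) :
    Reaches okPlain (durContact c m) c m v (canonical v / 2 + 1 / 10 ^ 9) := by
  refine check_sound (th := false) (θ := 0) ⟨hdom, hq, hv0, hcv, hvm, hcv.trans hvm, hm1, by simp, ?_,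
    fun b _ _ => by simp [noCorner], by simp⟩ rfl ⟨?_, hcv.trans hq.2, hq.1.trans hvm, ?_, by simp,
    by simp⟩ h
  · intro b _ hin T₁ T₂ t0 _ _ hD
    simp only [durContactN, durContact] at hD ⊢
    push_cast
    rcases Nat.eq_zero_or_pos b.M1 with e | e
    · simp [e, t0]
    have hb : (0 : ℝ) < 1000 * b.M1 := by positivity
    rw [div_le_iff₀ hb]
    have h0 := hin.c0
    have h1 := mul_le_mul_of_nonneg_right hin.m1 t0
    simp only [rv] at h0 h1
    linarith
  · simp only [rv]; push_cast; linarith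
  · simp only [rv]; push_cast; linarith

theorem small_root (hv0 : 259 / 1000 ≤ v) (hdom : binDom q = true) (hq : v ∈ Icc (rv q.V0) (rv q.V1))
    (hc : 1595 / 1000000 ≤ c) (hc' : c ≤ 405 / 10000) (hcv : c ≤ v) (hvm : v ≤ m) (hm1 : m ≤ 1)
    {t : WCert}
    (h : checkW q durFreeN noCorner t ⟨false, 1590, 40500, q.V0, 1000000, 0, 0⟩ = true) :
    Reaches okPlain (fun _ _ => True) c m v (canonical v / 2 + 1 / 10 ^ 9) := by
  refine check_sound (th := false) (θ := 0) ⟨hdom, hq, hv0, hcv, hvm, hcv.trans hvm, hm1, by simp, ?_,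
    fun b _ _ => by simp [noCorner], by simp⟩ rfl ⟨?_, ?_, hq.1.trans hvm, ?_, by simp,
    by simp⟩ h
  · intro b _ _ T₁ T₂ t0 _ _ _
    simp [durFreeN, t0]
  all_goals (simp only [rv]; push_cast; linarith)

theorem gap_root (hv0 : 259 / 1000 ≤ v) (hdom : binDom q = true) (hq : v ∈ Icc (rv q.V0) (rv q.V1))
    (h0 : 0 ≤ θ) (hθ : θ ≤ m) (hv : 0 ≤ v) (hvm : v ≤ m) (hm : m < 998 / 1000) {t : WCert}
    (h : checkW q durGapN gapCorner t ⟨true, 0, 0, q.V0, 1000000, 0, 1000000⟩ = true) :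
    Reaches (okTheta θ) (durGap θ m) 0 m v (canonical v / 2 + 1 / 10 ^ 9) := by
  refine check_sound (th := true) (θ := θ) ⟨hdom, hq, hv0, hv, hvm, hv.trans hvm, by linarith,
    fun _ => hθ, ?_, ?_, ?_⟩ rfl ⟨?_, ?_, hq.1.trans hvm, ?_, fun _ => ?_, fun _ => ?_⟩ h
  · intro b hb hin T₁ T₂ t0 t21 t1 hD
    simp only [durGap] at hD
    have hT : 395 / 10000 ≤ T₂ := by
      have h1 : (m - θ) * T₂ ≤ (1 - θ) * T₂ := mul_le_mul_of_nonneg_right (by linarith) t0
      have h2 : 0 < 1 - θ := by linarith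
      exact le_of_mul_le_mul_left (by linarith) h2
    simp only [durGapN]
    split_ifs with hlt
    · have hlt' : (b.T0 : ℝ) < b.M1 := by exact_mod_cast hlt
      have ht0 := hin.t0 hb
      have hm1' := hin.m1
      simp only [rv] at ht0 hm1'
      rw [Nat.cast_mul, Nat.cast_sub hlt.le, div_le_iff₀ (by push_cast; nlinarith)]
      have hle : (b.T0 : ℝ) ≤ 1000000 := by linarith
      refine le_trans (Nat.cast_le.2 (min_le_left _ _)) ?_
      rw [Nat.cast_mul, Nat.cast_sub (by exact_mod_cast hle)]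
      push_cast
      linarith [mul_le_mul_of_nonneg_right hm1' t0,
        mul_le_mul_of_nonneg_right hT (by linarith : (0 : ℝ) ≤ θ - (b.T0 : ℝ) / 1000000)]
    · exfalso
      have hge : (b.M1 : ℝ) ≤ b.T0 := by exact_mod_cast not_lt.1 hlt
      have ht0 := hin.t0 hb
      have hm1' := hin.m1
      simp only [rv] at ht0 hm1'
      nlinarith
  · intro b _ hin hcor
    simp only [gapCorner, decide_eq_true_eq] at hcor
    have h1 := rv_le hcor
    have h2 := hin.m0
    simp only [rv] at h1 h2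
    linarith
  · intro _ e hlt T₁ T₂ _ _ _ hD
    simp only [durGap] at hD
    subst e
    linarith
  all_goals (simp only [rv]; push_cast; linarith)

/-- The scalar facts of the middle range, with margins. -/
theorem windowMargins :
    (∀ c m v, 1595 / 1000000 ≤ c → c ≤ v → v ≤ m → m ≤ 1 → 259 / 1000 ≤ v → v ≤ 368 / 1000 →
      Reaches okPlain (durContact c m) c m v (canonical v / 2 + 1 / 10 ^ 9)) ∧
    (∀ c m v, 1595 / 1000000 ≤ c → c ≤ 405 / 10000 → c ≤ v → v ≤ m → m ≤ 1 →
      259 / 1000 ≤ v → v ≤ 368 / 1000 →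
        Reaches okPlain (fun _ _ => True) c m v (canonical v / 2 + 1 / 10 ^ 9)) ∧
    (∀ θ m v, 0 ≤ θ → θ ≤ m → v ≤ m → m ≤ 1 → 259 / 1000 ≤ v → v ≤ 368 / 1000 →
      Reaches (okTheta θ) (durGap θ m) 0 m v
        (canonical v / 2 + min (1 / 10 ^ 9) ((1 - m) / 100))) := by
  refine ⟨fun c m v hc hcv hvm hm1 h0 h1 => ?_, fun c m v hc hc' hcv hvm hm1 h0 h1 => ?_,
    fun θ m v h hθ hvm hm1 h0 h1 => ?_⟩
  · rcases bin_cases h0 h1 with hb | hb | hb | hb | hb
    exacts [contact_root h0 bin0_dom hb hc hcv hvm hm1 contact0_ok,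
      contact_root h0 bin1_dom hb hc hcv hvm hm1 contact1_ok,
      contact_root h0 bin2_dom hb hc hcv hvm hm1 contact2_ok,
      contact_root h0 bin3_dom hb hc hcv hvm hm1 contact3_ok,
      contact_root h0 bin4_dom hb hc hcv hvm hm1 contact4_ok]
  · rcases bin_cases h0 h1 with hb | hb | hb | hb | hb
    exacts [small_root h0 bin0_dom hb hc hc' hcv hvm hm1 small0_ok,
      small_root h0 bin1_dom hb hc hc' hcv hvm hm1 small1_ok,
      small_root h0 bin2_dom hb hc hc' hcv hvm hm1 small2_ok,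
      small_root h0 bin3_dom hb hc hc' hcv hvm hm1 small3_ok,
      small_root h0 bin4_dom hb hc hc' hcv hvm hm1 small4_ok]
  · rcases le_or_gt (998 / 1000 : ℝ) m with hm | hm
    · refine corner_reaches (fun k a => ?_) _ hm hm1 h0 ?_
      · exact Or.inl le_rfl
      · have : canonical v ≤ 2 := min_le_right _ _
        linarith [min_le_right (1 / 10 ^ 9 : ℝ) ((1 - m) / 100)]
    refine Reaches.mono ?_ (add_le_add le_rfl (min_le_left _ _))
    have hv : 0 ≤ v := by linarith
    rcases bin_cases h0 h1 with hb | hb | hb | hb | hb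
    exacts [gap_root h0 bin0_dom hb h hθ hv hvm hm gap0_ok, gap_root h0 bin1_dom hb h hθ hv hvm hm gap1_ok,
      gap_root h0 bin2_dom hb h hθ hv hvm hm gap2_ok, gap_root h0 bin3_dom hb h hθ hv hvm hm gap3_ok,
      gap_root h0 bin4_dom hb h hθ hv hvm hm gap4_ok]

/-- The scalar facts of the middle range. -/
theorem windowScalar : WindowScalar :=
  ⟨fun c m v a b c' d e f => (windowMargins.1 c m v a b c' d e f).mono (by linarith),
    fun c m v a a' b c' d e f => (windowMargins.2.1 c m v a a' b c' d e f).mono (by linarith),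
    fun θ m v a b c' d e f => (windowMargins.2.2 θ m v a b c' d e f).mono
      (le_add_of_nonneg_right (le_min (by norm_num) (by linarith)))⟩

end Vale.Agent.P232.Win
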