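import Vale.Agent.P232.Win.RowPin
import Vale.Agent.P232.Win.RowData
import Vale.Agent.P232.Axis
import Vale.Agent.P232.Slicing
import Vale.Agent.P232.ProfileSquare
import Vale.Agent.P232.Sobolev
import Vale.Agent.P232.Excursion

/-!
# P232: an axis with a thin slice and no cut, in the middle range

The row bound restricted to a thin slice: only the calibration from the thin height is used.
-/

noncomputable section

open MeasureTheory Filter Topology Set

namespace Vale.Agent.P232.Win

open Axis

/-- Below the thin height a chord from it is at most the loss. -/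
theorem chord_low {p v0 N ℓ x : ℝ} (hp0 : 0 < p) (hplt : p < v0) (hN : v0 ≤ N) (hx0 : 0 ≤ x)
    (hx : x ≤ p) (hell : prof p * v0 ≤ ℓ * (v0 - p)) : chord p N x ≤ ℓ := by
  have hMp : 0 < N - p := by linarith
  have h2 : prof p * N / (N - p) ≤ ℓ := by
    rw [div_le_iff₀ hMp]
    have hv0p := sub_pos.2 hplt
    have h1 := mul_le_mul_of_nonneg_right hell hMp.le
    nlinarith [mul_le_mul_of_nonneg_left hN (mul_nonneg (prof_nonneg p) hp0.le)]
  have hl0 : 0 ≤ (p - x) / (N - p) := div_nonneg (by linarith) hMp.le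
  have hl1 : (p - x) / (N - p) ≤ p / (N - p) :=
    div_le_div_of_nonneg_right (by linarith) hMp.le
  have he : chord p N x = prof p + (prof p - prof N) * ((p - x) / (N - p)) := by
    rw [chord]; field_simp; ring
  have h3 : prof p * N / (N - p) = prof p + prof p * (p / (N - p)) := by
    field_simp; ring
  rw [he]
  nlinarith [mul_nonneg (prof_nonneg N) hl0, mul_le_mul_of_nonneg_left hl1 (prof_nonneg p)]

/-- The row bound when some slice is at most `p`. -/
theorem rowLow (hSl : Slicing) (hEx : Excursion) {v0 p η β k T ℓ : ℝ} {target : ℝ → ℝ}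
    (hp0 : 0 < p) (hplt : p < v0) (hpη : p < η) (hη1 : η ≤ 1 / 4) (hβ0 : 0 ≤ β) (hk : k < 1)
    (hβη : β * Real.sqrt η ≤ 2 * k * Real.sqrt Real.pi)
    (htime : 2 * Real.sqrt η < (1 - k) * Real.sqrt Real.pi) (hT : 0 < T)
    (hpT : p ≤ (1 - k) ^ 2 * Real.pi * T ^ 2) (hell : prof p * v0 ≤ ℓ * (v0 - p))
    (hexc : ∀ m, max v0 η ≤ m → m ≤ 1 → ℓ * T < ∫ a in p..η, weight p m a)
    {u : (Fin 3 → ℝ) → ℝ} (hu : Adm u) (i : Fin 3) (hnc : ¬ CanCut (area u i) β η)
    (hv0 : v0 ≤ mean u) (hv1 : mean u < 1) (hthin : ∃ z, area u i z ≤ p)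
    (hscal : ∀ m, mean u ≤ m → m ≤ 1 → ∃ C N, p ≤ C ∧ C ≤ p ∧ m ≤ N ∧ N ≤ 1 ∧
      target (mean u) + 2 * T * ℓ ≤ chord C N (mean u) + 2 * ∫ a in p..m, weight C N a) :
    target (mean u) - err (dfct u) ≤ energy u := by
  obtain ⟨hder, hsl, hper, hmem, hint, -⟩ := hSl u hu i
  set a := area u i with ha
  set v := mean u with hv
  have hac : Continuous a := continuous_area hSl hu i
  obtain ⟨zm, zM, hz⟩ := exists_extrema hac hper
  obtain ⟨z₀, hz₀⟩ := hthin
  set M := a zM with hM
  have hvM : v ≤ M := integral_le_of_slice hac hint fun z => (hz z).2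
  have hpv : p < v := hplt.trans_le hv0
  obtain ⟨C, N, hpC, hC1, hMN, hN1, hsc⟩ := hscal M hvM (hmem zM).2
  have hCp : C = p := le_antisymm hC1 hpC
  have hC0 : 0 < C := hp0.trans_le hpC
  have hCv : C ≤ v := hC1.trans hpv.le
  have hCN : C ≤ N := hCv.trans (hvM.trans hMN)
  have hP : 0 < prof C := prof_pos hC0 (by linarith)
  have hl : 0 ≤ ℓ := by
    by_contra hneg
    have := mul_neg_of_neg_of_pos (not_le.1 hneg) (sub_pos.2 hplt)
    nlinarith [hell, prof_nonneg p]
  have hη : max v0 η ≤ M := by
    refine max_le (hv0.trans hvM) ?_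
    have h := (hEx a (slope u i) (fun _ => 0) β η p k T 0 hder hsl hper hmem
      continuous_const (fun _ => ⟨le_rfl, zero_le_one⟩) (fun _ _ => rfl) hp0 hpη hη1 hβ0 hk hβη
      htime hT hpT le_rfl (by simp) ⟨z₀, hz₀⟩ hnc zM).1
    rwa [sSup_range_eq fun z => (hz z).2] at h
  refine le_of_forall_pos_le_add fun ε hε => ?_
  obtain ⟨e, he0, heε, hegap⟩ : ∃ e : ℝ, 0 < e ∧ e ≤ ε / 4 ∧
      ℓ * T + e ≤ ∫ x in p..η, weight p N x :=
    ⟨min (ε / 4) ((∫ x in p..η, weight p N x) - ℓ * T),
      lt_min (by positivity) (sub_pos.2 (hexc N (hη.trans hMN) hN1)), min_le_left _ _, by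
        linarith [min_le_right (ε / 4) ((∫ x in p..η, weight p N x) - ℓ * T)]⟩
  set d := min e (prof C * e ^ 2 / 2) with hd
  have hd0 : 0 < d := lt_min he0 (by positivity)
  have hde : 2 * d ≤ prof C * e ^ 2 := by
    linarith [min_le_right e (prof C * e ^ 2 / 2)]
  set S := calS C N d with hS
  set t := calT C N d with ht
  have hSc : Continuous S := continuous_calS hd0
  have htc : Continuous t := continuous_calT hd0
  have htp := calT_le hC0.le hN1 hCN hd0
  have hslice := slice_bound hSl hu i (hSc.comp hac) (htc.comp hac)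
    (fun z => (calS_mem hC0.le hN1 hCN hd0 _).1) (fun z => (htp _).1) fun z => (htp _).2.2
  simp only [Function.comp_apply] at hslice
  have i1 : IntervalIntegrable (fun z => S (a z) * prof (a z)) volume 0 1 :=
    ((hSc.comp hac).mul (continuous_prof.comp hac)).intervalIntegrable _ _
  have i2 : IntervalIntegrable (fun z => t (a z) * |slope u i z|) volume 0 1 :=
    ((htc.comp hac).mul hsl.abs).intervalIntegrable _ _
  rw [intervalIntegral.integral_add i1 i2] at hslice
  -- the part along the slices
  have hlow : ∀ z, chord C N (a z) - d -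
      ℓ * {y | a y ≤ p}.indicator (fun _ => (1 : ℝ)) z ≤ S (a z) * prof (a z) := by
    intro z
    have hSnn : 0 ≤ S (a z) * prof (a z) :=
      mul_nonneg (calS_mem hC0.le hN1 hCN hd0 _).1 (prof_nonneg _)
    by_cases hzp : a z ≤ p
    · rw [indicator_of_mem (show z ∈ {y | a y ≤ p} from hzp)]
      have hch : chord C N (a z) ≤ ℓ := by
        rw [hCp]
        exact chord_low hp0 hplt (hv0.trans (hvM.trans hMN)) (hmem z).1 hzp hell
      linarith
    · rw [indicator_of_notMem (show z ∉ {y | a y ≤ p} from hzp)]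
      have h1 : C ≤ a z := hCp.le.trans (le_of_not_ge hzp)
      linarith [chord_sub_le hC0.le hN1 hd0 h1 ((hz z).2.trans hMN)]
  have hint1 : chord C N v - d - ℓ * volume.real (Ico (0 : ℝ) 1 ∩ {y | a y ≤ p}) ≤
      ∫ z in (0 : ℝ)..1, S (a z) * prof (a z) := by
    have ic : IntervalIntegrable (fun z => chord C N (a z)) volume 0 1 :=
      ((continuous_chord C N).comp hac).intervalIntegrable _ _
    have il := (intervalIntegrable_low hac p).const_mul ℓ
    refine le_trans (le_of_eq ?_) (intervalIntegral.integral_mono_on zero_le_one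
      ((ic.sub intervalIntegrable_const).sub il) i1 fun z _ => hlow z)
    rw [intervalIntegral.integral_sub (ic.sub intervalIntegrable_const) il,
      intervalIntegral.integral_sub ic intervalIntegrable_const, integral_chord hac hint,
      intervalIntegral.integral_const_mul, integral_indicator_low hac]
    simp
  -- the part across the slices
  have hwt : ∀ {x y : ℝ}, C ≤ x → x ≤ y → y ≤ N →
      (∫ w in x..y, weight C N w) - e ≤ ∫ w in x..y, t w := by
    intro x y hx hxy hy
    have hle : y - x ≤ 1 := by linarith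
    have h := intervalIntegral.integral_mono_on hxy
      ((intervalIntegrable_weight C N x y).sub intervalIntegrable_const)
      (htc.intervalIntegrable _ _)
      fun w hw => weight_sub_le hC0.le hN1 hP hd0 he0.le hde (hx.trans hw.1) (hw.2.trans hy)
    rw [intervalIntegral.integral_sub (intervalIntegrable_weight C N x y) intervalIntegrable_const,
      intervalIntegral.integral_const, smul_eq_mul] at h
    nlinarith
  have hde' : d ≤ e := min_le_left _ _
  have hη' := max_le_iff.1 hη
  have hex := (hEx a (slope u i) t β η p k T ℓ hder hsl hper hmem htc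
    (fun x => ⟨(htp x).1, (htp x).2.1⟩) (fun x hx => calT_of_le hCN (hx.trans hpC)) hp0
    hpη hη1 hβ0 hk hβη htime hT hpT hl (by
      have := hwt (x := p) (y := η) hCp.le hpη.le (hη'.2.trans hMN)
      rw [hCp] at *
      linarith) ⟨z₀, hz₀⟩ hnc zM).2
  have h2 := hwt (x := p) (y := M) hCp.le (by linarith) hMN
  rw [hCp] at h2 hint1 hsc
  linarith

open Scalar in
/-- The row on a thin slice, with a margin. -/
theorem windowRow_margin : ∀ u : (Fin 3 → ℝ) → ℝ, Adm u → ∀ i : Fin 3,
    ¬ CanCut (area u i) 7 (1 / 100) → 259 / 1000 ≤ mean u → mean u ≤ 368 / 1000 →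
      (∃ z, area u i z ≤ 16 / 10000) →
        canonical (mean u) + 1 / 10 ^ 9 - err (dfct u) ≤ energy u := by
  intro u hu i hnc hv0 hv1 hthin
  have sqπ := Real.sq_sqrt Real.pi_pos.le
  have hpl : (31415926535 : ℝ) / 10 ^ 10 ≤ Real.pi := pi_low
  have hpu : Real.pi ≤ (31415926536 : ℝ) / 10 ^ 10 := pi_up
  have hsη : Real.sqrt (1 / 100) = 1 / 10 := by
    rw [show (1 / 100 : ℝ) = (1 / 10) ^ 2 by norm_num, Real.sqrt_sq (by norm_num)]
  have hsπ : (1772 / 1000 : ℝ) ≤ Real.sqrt Real.pi := Real.le_sqrt_of_sq_le (by linarith)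
  refine rowLow (slicing (Square.profileSquare sobolevPlane)) excursion (v0 := 259 / 1000)
    (k := 198 / 1000) (T := 2815 / 100000) (ℓ := 14271 / 100000) (target := fun v => canonical v + 1 / 10 ^ 9)
    (by norm_num) (by norm_num) (by norm_num) (by norm_num) (by norm_num) (by norm_num)
    (by rw [hsη]; linarith) (by rw [hsη]; linarith) (by norm_num) (by linarith) ?_ ?_ hu i hnc hv0
    (by linarith) hthin ?_
  · refine (mul_le_mul_of_nonneg_right (Scalar.prof_le_sqrt _) (by norm_num)).trans ?_
    have : Real.sqrt (Real.pi * (16 / 10000)) ≤ 7090 / 100000 :=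
      Real.sqrt_le_iff.2 ⟨by norm_num, by linarith⟩
    linarith
  · intro m hm hm1
    rw [max_eq_left (by norm_num)] at hm
    have h := excursion_sound RowData.cross_ok (m := m)
      (by push_cast; linarith) hm1 (by norm_num)
    push_cast at h
    norm_num at h ⊢
    exact h
  · intro m hvm hm1
    obtain ⟨C, N, h1, h2, h3, h4, h5⟩ := check_sound (tg := fun v => canonical v / 2)
      RowData.rowBins_covers (by norm_num)
      (canonical_dom RowData.rowBins RowData.rowBins_dom (v0 := 25900000) (by decide +kernel))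
      noSkip_sound _ _ _ _ _ RowData.floor_ok le_rfl (by norm_num) (16 / 10000) m (mean u)
      ⟨by push_cast; linarith, by push_cast; linarith⟩
      ⟨by push_cast; norm_num, by push_cast; norm_num⟩
      ⟨by push_cast; linarith, by push_cast; linarith⟩ (by linarith) hvm
    push_cast at h1 h5
    refine ⟨C, N, by linarith, h2, h3, h4, ?_⟩
    linarith

theorem windowRow : WindowRow := fun u hu i hnc h0 h1 hthin => by
  linarith [windowRow_margin u hu i hnc h0 h1 hthin]

end Vale.Agent.P232.Win
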