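import Vale.Agent.P232.Pins

/-!
# P232: calibrations of a slicing in three kinds

Half units: a slice of kind `k` and area `a` costs at least twice `F k a`.
-/

noncomputable section

open MeasureTheory Set

namespace Vale.Agent.P232.Win

/-- The bound for a slice which reaches no edge. -/
def sliceF0 (a : ℝ) : ℝ := Real.sqrt (Real.pi * a)

/-- The bound for a slice which reaches both edges. -/
def sliceF2 (a : ℝ) : ℝ := Real.sqrt (Real.pi * (1 - a))

/-- The three bounds without information on the contact. -/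
def plainF : Fin 3 → ℝ → ℝ := ![sliceF0, fun _ => 1, sliceF2]

/-- The straight and circular arcs used over a contact. -/
def arcs : List (ℝ × ℝ) :=
  [(785398 / 1000000, 1), (854599 / 1000000, 866025 / 1000000),
    (908913 / 1000000, 707106 / 1000000), (956611 / 1000000, 500000 / 1000000)]

/-- `L` is a lower bound for a slice which reaches one edge with contact at most `θ`. -/
def OneLine (θ a L : ℝ) : Prop :=
  ∃ P Q : ℝ, 0 ≤ Q ∧ (0 ≤ P ∧ P ^ 2 + Q ^ 2 ≤ 1 ∨ (P, Q) ∈ arcs) ∧ L ≤ P + Q * (a - θ)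

/-- `L` is a lower bound for a slice which reaches both edges with contact at least `θ`. -/
def BothStrip (θ a L : ℝ) : Prop :=
  ∃ H : ℝ, 0 < H ∧ 1 - θ ≤ H ∧ Real.pi * H ^ 2 / 4 ≤ 1 - a ∧ L ≤ (1 - a) / H + Real.pi * H / 4

/-- The numbers and weights of a calibration on `[c, m]` for the kinds of bound given by `ok`. -/
structure Calib (ok : Fin 3 → ℝ → ℝ → Prop) (c m : ℝ) where
  /-- the constant of each kind -/
  α : Fin 3 → ℝ
  /-- the slope in the area -/
  β : ℝ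
  /-- the weight of the variation -/
  w : Fin 3 → ℝ → ℝ
  cont : ∀ k, Continuous (w k)
  mem : ∀ k a, w k a ∈ Icc (0 : ℝ) 1
  alpha_le : ∀ k, |α k| ≤ 20
  beta_le : |β| ≤ 20
  valid : ∀ k, ∀ a ∈ Icc c m, ∃ L, ok k a L ∧
    max (α k + β * a) 0 ≤ Real.sqrt (1 - w k a ^ 2) * L

/-- The value of a calibration at mean `v`, durations `T₁ ≥ T₂` and switching areas `s₁ ≤ s₂`. -/
def Calib.value {ok : Fin 3 → ℝ → ℝ → Prop} {c m : ℝ} (K : Calib ok c m) (v T₁ T₂ s₁ s₂ : ℝ) : ℝ :=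
  K.β * v + (K.α 0 * (1 - T₁) + K.α 1 * (T₁ - T₂) + K.α 2 * T₂) +
    ((∫ a in c..s₁, K.w 0 a) + (∫ a in s₁..s₂, K.w 1 a) + ∫ a in s₂..m, K.w 2 a)

/-- A calibration reaches `tg` whatever the admissible durations and the switching areas. -/
def Reaches (ok : Fin 3 → ℝ → ℝ → Prop) (dur : ℝ → ℝ → Prop) (c m v tg : ℝ) : Prop :=
  ∃ K : Calib ok c m, ∀ T₁ T₂ s₁ s₂ : ℝ, 0 ≤ T₂ → T₂ ≤ T₁ → T₁ ≤ 1 → dur T₁ T₂ → c ≤ s₁ →
    s₁ ≤ s₂ → s₂ ≤ m → tg ≤ K.value v T₁ T₂ s₁ s₂

/-- No information on the contact. -/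
def okPlain (k : Fin 3) (a L : ℝ) : Prop := L ≤ plainF k a

/-- A contact `θ` separating one edge from both. -/
def okTheta (θ : ℝ) (k : Fin 3) (a L : ℝ) : Prop :=
  L ≤ plainF k a ∨ (k = 1 ∧ OneLine θ a L) ∨ (k = 2 ∧ BothStrip θ a L)

/-- Both far areas are at least the smallest one. -/
def durContact (c m : ℝ) (_ T₂ : ℝ) : Prop := 999 / 1000 * c ≤ m * T₂

/-- The far area over the second edge is not small. -/
def durGap (θ m : ℝ) (_ T₂ : ℝ) : Prop := 395 / 10000 * (1 - θ) ≤ (m - θ) * T₂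

/-- The scalar facts of the middle range: smallest far area, small far area, gap. -/
structure WindowScalar : Prop where
  contact : ∀ c m v, 1595 / 1000000 ≤ c → c ≤ v → v ≤ m → m ≤ 1 →
    259 / 1000 ≤ v → v ≤ 368 / 1000 →
      Reaches okPlain (durContact c m) c m v (canonical v / 2)
  small : ∀ c m v, 1595 / 1000000 ≤ c → c ≤ 405 / 10000 → c ≤ v → v ≤ m → m ≤ 1 →
    259 / 1000 ≤ v → v ≤ 368 / 1000 →
      Reaches okPlain (fun _ _ => True) c m v (canonical v / 2)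
  gap : ∀ θ m v, 0 ≤ θ → θ ≤ m → v ≤ m → m ≤ 1 → 259 / 1000 ≤ v → v ≤ 368 / 1000 →
      Reaches (okTheta θ) (durGap θ m) 0 m v (canonical v / 2)

end Vale.Agent.P232.Win
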