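import Vale.Agent.P232.Win.Calib

/-!
# P232: the integrals of the circular arcs in the table
-/

noncomputable section

open MeasureTheory Set

namespace Vale.Agent.P232.Win

/-- The primitive of an arc. -/
theorem arc_primitive {u : ℝ} (hu : 0 < u) (hu1 : u < 1) :
    ∫ t in (0 : ℝ)..1, Real.sqrt (1 - (u * t) ^ 2) =
      (Real.sqrt (1 - u ^ 2) + Real.arcsin u / u) / 2 := by
  set f : ℝ → ℝ := fun t => (t * Real.sqrt (1 - (u * t) ^ 2) + Real.arcsin (u * t) / u) / 2 with hf
  have key : ∀ t ∈ uIcc (0 : ℝ) 1, HasDerivAt f (Real.sqrt (1 - (u * t) ^ 2)) t := by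
    intro t ht
    rw [uIcc_of_le zero_le_one] at ht
    have hut : u * t < 1 := by nlinarith [ht.1, ht.2]
    have hut0 : 0 ≤ u * t := mul_nonneg hu.le ht.1
    have hD : 0 < 1 - (u * t) ^ 2 := by nlinarith
    have hs := Real.sqrt_pos.2 hD
    have h1 : HasDerivAt (fun s => 1 - (u * s) ^ 2) (-(2 * (u * t) * u)) t := by
      have := (((hasDerivAt_id t).const_mul u).pow 2).const_sub 1
      simpa using this
    have h2 : HasDerivAt (fun s => s * Real.sqrt (1 - (u * s) ^ 2))
        (Real.sqrt (1 - (u * t) ^ 2) +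
          t * (-(2 * (u * t) * u) / (2 * Real.sqrt (1 - (u * t) ^ 2)))) t := by
      have := (hasDerivAt_id t).mul (h1.sqrt hD.ne')
      exact this.congr_deriv (by simp)
    have h3 : HasDerivAt (fun s => Real.arcsin (u * s) / u)
        (1 / Real.sqrt (1 - (u * t) ^ 2) * (u * 1) / u) t :=
      ((Real.hasDerivAt_arcsin (by linarith) hut.ne).comp t
        ((hasDerivAt_id t).const_mul u)).div_const u
    refine ((h2.add h3).div_const 2).congr_deriv ?_
    have e := Real.sq_sqrt hD.le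
    generalize Real.sqrt (1 - (u * t) ^ 2) = S at hs e ⊢
    field_simp
    nlinarith [e]
  have hc : Continuous fun t : ℝ => Real.sqrt (1 - (u * t) ^ 2) := by fun_prop
  rw [intervalIntegral.integral_eq_sub_of_hasDerivAt key (hc.intervalIntegrable _ _)]
  simp [hf]

theorem arc_mono {Q u : ℝ} (hQ : 0 ≤ Q) (hQu : Q ≤ u) :
    ∫ t in (0 : ℝ)..1, Real.sqrt (1 - (u * t) ^ 2) ≤
      ∫ t in (0 : ℝ)..1, Real.sqrt (1 - (Q * t) ^ 2) :=
  intervalIntegral.integral_mono_on zero_le_one
    (Continuous.intervalIntegrable (by fun_prop) _ _) (Continuous.intervalIntegrable (by fun_prop) _ _)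
    fun t ht => Real.sqrt_le_sqrt (by
      have := pow_le_pow_left₀ (mul_nonneg hQ ht.1) (mul_le_mul_of_nonneg_right hQu ht.1) 2
      linarith)

/-- Every entry of the table lies below its arc. -/
theorem arcs_le {P Q : ℝ} (h : (P, Q) ∈ arcs) :
    0 < Q ∧ Q ≤ 1 ∧ P ≤ ∫ t in (0 : ℝ)..1, Real.sqrt (1 - (t * Q) ^ 2) := by
  have hπ := Real.pi_gt_d6
  have hs3 : (17320508 / 10000000 : ℝ) ≤ Real.sqrt 3 ∧ Real.sqrt 3 ≤ 17320509 / 10000000 :=
    ⟨Real.le_sqrt_of_sq_le (by norm_num), (Real.sqrt_le_left (by norm_num)).2 (by norm_num)⟩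
  have hs2 : (14142135 / 10000000 : ℝ) ≤ Real.sqrt 2 ∧ Real.sqrt 2 ≤ 14142136 / 10000000 :=
    ⟨Real.le_sqrt_of_sq_le (by norm_num), (Real.sqrt_le_left (by norm_num)).2 (by norm_num)⟩
  simp only [mul_comm _ Q]
  simp only [arcs, List.mem_cons, List.not_mem_nil, or_false, Prod.mk.injEq] at h
  rcases h with ⟨rfl, rfl⟩ | ⟨rfl, rfl⟩ | ⟨rfl, rfl⟩ | ⟨rfl, rfl⟩
  · refine ⟨one_pos, le_rfl, ?_⟩
    have e : ∫ t in (0 : ℝ)..1, Real.sqrt (1 - t ^ 2) = Real.pi / 4 := by
      have h : ∫ u in (-1 : ℝ)..1, Real.sqrt (1 - u ^ 2) = Real.pi / 2 := integral_sqrt_one_sub_sq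
      have hc : Continuous fun u : ℝ => Real.sqrt (1 - u ^ 2) := by fun_prop
      rw [← intervalIntegral.integral_add_adjacent_intervals (b := (0 : ℝ))
        (hc.intervalIntegrable _ _) (hc.intervalIntegrable _ _)] at h
      have h2 := intervalIntegral.integral_comp_neg (a := (0 : ℝ)) (b := 1)
        fun u : ℝ => Real.sqrt (1 - u ^ 2)
      simp only [neg_sq, neg_zero] at h2
      linarith
    simp only [one_mul]
    rw [e]; linarith
  · refine ⟨by norm_num, by norm_num, le_trans ?_ (arc_mono (u := Real.sqrt 3 / 2) (by norm_num)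
      (by linarith [hs3.1]))⟩
    rw [arc_primitive (by positivity) (by linarith [hs3.2]),
      show (1 : ℝ) - (Real.sqrt 3 / 2) ^ 2 = (1 / 2) ^ 2 by
        rw [div_pow, Real.sq_sqrt (by norm_num)]; norm_num,
      Real.sqrt_sq (by norm_num), ← Real.sin_pi_div_three,
      Real.arcsin_sin (by linarith) (by linarith), Real.sin_pi_div_three]
    have : (7090 / 10000 : ℝ) + 5 / 10000 ≤ 1 := by norm_num
    have h1 : (1209198 / 1000000 : ℝ) ≤ Real.pi / 3 / (Real.sqrt 3 / 2) := by
      rw [le_div_iff₀ (by positivity)]; nlinarith [hs3.2]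
    linarith
  · refine ⟨by norm_num, by norm_num, le_trans ?_ (arc_mono (u := Real.sqrt 2 / 2) (by norm_num)
      (by linarith [hs2.1]))⟩
    rw [arc_primitive (by positivity) (by linarith [hs2.2]),
      show (1 : ℝ) - (Real.sqrt 2 / 2) ^ 2 = (Real.sqrt 2 / 2) ^ 2 by
        rw [div_pow, Real.sq_sqrt (by norm_num)]; norm_num,
      Real.sqrt_sq (by positivity), ← Real.sin_pi_div_four,
      Real.arcsin_sin (by linarith) (by linarith), Real.sin_pi_div_four]
    have h1 : (1110720 / 1000000 : ℝ) ≤ Real.pi / 4 / (Real.sqrt 2 / 2) := by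
      rw [le_div_iff₀ (by positivity)]; nlinarith [hs2.2]
    linarith [hs2.1]
  · refine ⟨by norm_num, by norm_num, le_trans ?_ (arc_mono (u := 1 / 2) (by norm_num)
      (by norm_num))⟩
    rw [arc_primitive (by norm_num) (by norm_num),
      show (1 : ℝ) - (1 / 2) ^ 2 = (Real.sqrt 3 / 2) ^ 2 by
        rw [div_pow (Real.sqrt 3), Real.sq_sqrt (by norm_num)]; norm_num,
      Real.sqrt_sq (by positivity)]
    have ha : Real.arcsin (1 / 2) = Real.pi / 6 := by
      rw [← Real.sin_pi_div_six, Real.arcsin_sin (by linarith) (by linarith)]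
    rw [ha]
    linarith [hs3.1]

end Vale.Agent.P232.Win
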