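import Vale.Agent.P232.Win.Calib
import Mathlib.Analysis.SpecialFunctions.Integrals.Basic

/-!
# P232: the boxes next to the slab, by hand

With `ε = 1 - m` the weights are `1 - h` with `h a = (4/25) (ε + ε / (π max (1 - a) ε))` for all kinds,
the slope is `(2/5) √ε` and the constants vanish.
-/

noncomputable section

open MeasureTheory Set

namespace Vale.Agent.P232.Win

/-- The loss in the weight next to the slab. -/
def cornerLoss (ε a : ℝ) : ℝ := 4 / 25 * (ε + ε / (Real.pi * max (1 - a) ε))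

theorem cornerLoss_mem {ε : ℝ} (h0 : 0 < ε) (h1 : ε ≤ 1) (a : ℝ) :
    cornerLoss ε a ∈ Icc (0 : ℝ) 1 := by
  have hm : ε ≤ max (1 - a) ε := le_max_right _ _
  have hmp : 0 < max (1 - a) ε := h0.trans_le hm
  have hp : 0 ≤ ε / (Real.pi * max (1 - a) ε) := by positivity
  have hp1 : ε / (Real.pi * max (1 - a) ε) ≤ 1 := by
    rw [div_le_one (by positivity)]
    nlinarith [Real.two_le_pi]
  unfold cornerLoss
  constructor <;> linarith

theorem continuous_cornerLoss {ε : ℝ} (h0 : 0 < ε) : Continuous (cornerLoss ε) := by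
  refine continuous_const.mul (continuous_const.add (continuous_const.div (by fun_prop) fun a => ?_))
  have : 0 < max (1 - a) ε := h0.trans_le (le_max_right _ _)
  positivity

theorem corner_valid {ε a : ℝ} (h0 : 0 < ε) (h1 : ε ≤ 1) (ha : a ∈ Icc (0 : ℝ) (1 - ε)) (k : Fin 3) :
    max (2 / 5 * √ε * a) 0 ≤ Real.sqrt (1 - (1 - cornerLoss ε a) ^ 2) * plainF k a := by
  have hm := cornerLoss_mem h0 h1 a
  have hs : (2 / 5 * √ε * a) ^ 2 = 4 / 25 * ε * a ^ 2 := by
    rw [mul_pow, mul_pow, Real.sq_sqrt h0.le]; ring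
  have hk : 0 ≤ plainF k a := by fin_cases k <;> simp [plainF, sliceF0, sliceF2, Real.sqrt_nonneg]
  have key : 4 / 25 * ε * a ^ 2 ≤ cornerLoss ε a * plainF k a ^ 2 := by
    have hmax : max (1 - a) ε = 1 - a := max_eq_left (by linarith [ha.2])
    have hpos : 0 ≤ ε / (Real.pi * max (1 - a) ε) := by
      have : 0 < max (1 - a) ε := h0.trans_le (le_max_right _ _)
      positivity
    have ha2 : a ^ 2 ≤ a := by nlinarith [ha.1, ha.2]
    fin_cases k
    · show _ ≤ cornerLoss ε a * Real.sqrt (Real.pi * a) ^ 2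
      rw [Real.sq_sqrt (mul_nonneg Real.pi_pos.le ha.1), cornerLoss]
      have h2 : a ≤ Real.pi * a := le_mul_of_one_le_left ha.1 (by linarith [Real.two_le_pi])
      nlinarith [mul_nonneg hpos (mul_nonneg Real.pi_pos.le ha.1)]
    · show _ ≤ cornerLoss ε a * (1 : ℝ) ^ 2
      rw [cornerLoss]
      nlinarith [ha.1, ha.2]
    · show _ ≤ cornerLoss ε a * Real.sqrt (Real.pi * (1 - a)) ^ 2
      have hpa : 0 < Real.pi * (1 - a) := mul_pos Real.pi_pos (by linarith [ha.2])
      rw [Real.sq_sqrt hpa.le, cornerLoss, hmax]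
      have e : ε / (Real.pi * (1 - a)) * (Real.pi * (1 - a)) = ε := div_mul_cancel₀ _ hpa.ne'
      nlinarith [mul_nonneg h0.le hpa.le, ha.1, ha.2]
  refine (pow_le_pow_iff_left₀ (le_max_right _ _) (by positivity) two_ne_zero).1 ?_
  have hb : 0 ≤ 2 / 5 * √ε * a := mul_nonneg (by positivity) ha.1
  rw [max_eq_left hb, hs, mul_pow, Real.sq_sqrt (by nlinarith [hm.1, hm.2])]
  refine key.trans (mul_le_mul_of_nonneg_right ?_ (sq_nonneg _))
  nlinarith [hm.1, hm.2]

theorem integral_cornerLoss {ε : ℝ} (h0 : 0 < ε) (h1 : ε ≤ 1) :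
    ∫ a in (0 : ℝ)..(1 - ε), cornerLoss ε a =
      4 / 25 * (ε * (1 - ε) + ε / Real.pi * Real.log (1 / ε)) := by
  have e : ∫ a in (0 : ℝ)..(1 - ε), cornerLoss ε a =
      ∫ a in (0 : ℝ)..(1 - ε), 4 / 25 * (ε + ε / Real.pi * (1 / (1 - a))) := by
    refine intervalIntegral.integral_congr fun a ha => ?_
    rw [uIcc_of_le (by linarith)] at ha
    simp only [cornerLoss]
    rw [max_eq_left (by linarith [ha.2]), mul_one_div, div_div]
  have hi : IntervalIntegrable (fun a : ℝ => ε / Real.pi * (1 / (1 - a))) volume 0 (1 - ε) := by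
    refine ContinuousOn.intervalIntegrable ?_
    rw [uIcc_of_le (by linarith)]
    refine continuousOn_const.mul (continuousOn_const.div (by fun_prop) fun a ha => ?_)
    linarith [ha.2]
  rw [e, intervalIntegral.integral_const_mul, intervalIntegral.integral_add intervalIntegrable_const hi,
    intervalIntegral.integral_const, intervalIntegral.integral_const_mul,
    intervalIntegral.integral_comp_sub_left (fun x : ℝ => 1 / x), smul_eq_mul,
    integral_one_div_of_pos (by linarith) (by linarith)]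
  simp only [sub_zero, sub_sub_cancel]
  ring

/-- The facts next to the slab. -/
theorem corner_reaches {ok : Fin 3 → ℝ → ℝ → Prop} (hok : ∀ k a, ok k a (plainF k a))
    (D : ℝ → ℝ → Prop) {m v tg : ℝ} (hm : 998 / 1000 ≤ m) (hm1 : m ≤ 1) (hv : 259 / 1000 ≤ v)
    (htg : tg ≤ 1 + (1 - m) / 100) : Reaches ok D 0 m v tg := by
  rcases hm1.eq_or_lt with rfl | hlt
  · refine ⟨⟨fun _ => 0, 0, fun _ _ => 1, fun _ => continuous_const,
      fun _ _ => ⟨zero_le_one, le_rfl⟩, by norm_num, by norm_num,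
      fun k a _ => ⟨_, hok k a, by simp⟩⟩, fun T₁ T₂ s₁ s₂ _ _ _ _ _ _ _ => ?_⟩
    simp [Calib.value]
    linarith
  · set ε := 1 - m with hε
    have h0 : 0 < ε := by linarith
    have h2 : ε ≤ 2 / 1000 := by linarith
    have h1 : ε ≤ 1 := by linarith
    have hmε : m = 1 - ε := by rw [hε]; ring
    have hs1 : √ε ≤ 1 := Real.sqrt_le_one.2 h1
    let K : Calib ok 0 m :=
      { α := fun _ => 0
        β := 2 / 5 * √ε
        w := fun _ a => 1 - cornerLoss ε a
        cont := fun _ => continuous_const.sub (continuous_cornerLoss h0)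
        mem := fun _ a => ⟨by linarith [(cornerLoss_mem h0 h1 a).2],
          by linarith [(cornerLoss_mem h0 h1 a).1]⟩
        alpha_le := by norm_num
        beta_le := by
          rw [abs_of_nonneg (by positivity)]
          linarith
        valid := fun k a ha => ⟨_, hok k a, by
          simpa only [zero_add] using corner_valid h0 h1 ⟨ha.1, hmε ▸ ha.2⟩ k⟩ }
    refine ⟨K, fun T₁ T₂ s₁ s₂ _ _ _ _ _ _ _ => ?_⟩
    have hc : Continuous fun a => 1 - cornerLoss ε a :=
      continuous_const.sub (continuous_cornerLoss h0)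
    have hi : ∀ x y, IntervalIntegrable (fun a => 1 - cornerLoss ε a) volume x y :=
      fun x y => hc.intervalIntegrable x y
    simp only [Calib.value, K, zero_mul, add_zero]
    rw [intervalIntegral.integral_add_adjacent_intervals (hi 0 s₁) (hi s₁ s₂),
      intervalIntegral.integral_add_adjacent_intervals (hi 0 s₂) (hi s₂ m), hmε,
      intervalIntegral.integral_sub intervalIntegrable_const
        ((continuous_cornerLoss h0).intervalIntegrable _ _),
      intervalIntegral.integral_const, integral_cornerLoss h0 h1, smul_eq_mul, mul_one, sub_zero]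
    -- with `q = ε ^ (1 / 4)`
    set q := √(√ε) with hq
    have hq0 : 0 < q := Real.sqrt_pos.2 (Real.sqrt_pos.2 h0)
    have hq2 : q ^ 2 = √ε := Real.sq_sqrt (Real.sqrt_nonneg _)
    have hq4 : q ^ 4 = ε := by
      rw [show q ^ 4 = (q ^ 2) ^ 2 by ring, hq2, Real.sq_sqrt h0.le]
    have hqs : q ≤ 2115 / 10000 := by
      refine (pow_le_pow_iff_left₀ hq0.le (by norm_num) (n := 4) (by norm_num)).1 ?_
      rw [hq4]; linarith
    have hlog : Real.log (1 / ε) ≤ 4 * (1 / q - 1) := by
      rw [← hq4, show 1 / q ^ 4 = (1 / q) ^ 4 by ring, Real.log_pow]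
      push_cast
      linarith [Real.log_le_sub_one_of_pos (one_div_pos.2 hq0)]
    have hpi : ε / Real.pi * Real.log (1 / ε) ≤ 100 / 314 * (4 * (q ^ 3 - q ^ 4)) := by
      have hl0 : 0 ≤ Real.log (1 / ε) := Real.log_nonneg ((one_le_div h0).2 h1)
      have h1' : ε / Real.pi ≤ 100 / 314 * ε := by
        rw [div_le_iff₀ Real.pi_pos]
        nlinarith [Real.pi_gt_d2]
      have e : q ^ 3 - q ^ 4 = q ^ 4 * (1 / q - 1) := by field_simp
      rw [e, hq4]
      calc ε / Real.pi * Real.log (1 / ε) ≤ 100 / 314 * ε * Real.log (1 / ε) :=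
            mul_le_mul_of_nonneg_right h1' hl0
        _ ≤ 100 / 314 * ε * (4 * (1 / q - 1)) := mul_le_mul_of_nonneg_left hlog (by positivity)
        _ = _ := by ring
    have htg' : tg ≤ 1 + q ^ 4 / 100 := by rw [hq4]; exact htg
    rw [← hq2] at *
    rw [← hq4] at hpi ⊢
    nlinarith [mul_le_mul_of_nonneg_left hqs (sq_nonneg q),
      mul_le_mul_of_nonneg_left (pow_le_pow_left₀ hq0.le hqs 2) (sq_nonneg q),
      mul_le_mul_of_nonneg_left hv (sq_nonneg q), pow_nonneg hq0.le 4, pow_nonneg hq0.le 6,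
      pow_nonneg hq0.le 8]

end Vale.Agent.P232.Win
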