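import Vale.Agent.P232.Win.Tree
import Vale.Agent.P232.Win.Corner

/-!
# P232: the bins of the middle range
-/

noncomputable section

namespace Vale.Agent.P232.Win

/-- A bin of the middle range. -/
def bin0 : TBin := ⟨259000, 278000, 459216, 1710303, 918432⟩

theorem bin0_dom : binDom bin0 = true := by decide +kernel

/-- A bin of the middle range. -/
def bin1 : TBin := ⟨278000, 297000, 475186, 1652823, 950372⟩

theorem bin1_dom : binDom bin1 = true := by decide +kernel

/-- A bin of the middle range. -/
def bin2 : TBin := ⟨297000, 311000, 488632, 1607342, 977264⟩

theorem bin2_dom : binDom bin2 = true := by decide +kernel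

/-- A bin of the middle range. -/
def bin3 : TBin := ⟨311000, 318309, 500000, 1570797, 1000000⟩

theorem bin3_dom : binDom bin3 = true := by decide +kernel

/-- A bin of the middle range. -/
def bin4 : TBin := ⟨318309, 368000, 1000001, 0, 1⟩

theorem bin4_dom : binDom bin4 = true := by decide +kernel

end Vale.Agent.P232.Win
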