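import Vale.Agent.P232.Win.LineSets
import Vale.Agent.P232.Win.Arcs
import Vale.Agent.P232.Win.Tube

/-!
# P232: the cases of the middle range along one axis
-/

noncomputable section

open MeasureTheory Filter Topology Set Function

namespace Vale.Agent.P232.Win

variable {u : (Fin 3 → ℝ) → ℝ} {η : ℝ} {i j k : Fin 3}

/-- The loss in the cases. -/
def caseLoss (η : ℝ) (u : (Fin 3 → ℝ) → ℝ) : ℝ := 4 * err (dfct u) + 2000 * Real.sqrt η

theorem le_sqrt_self (h0 : 0 ≤ η) (h1 : η ≤ 1) : η ≤ Real.sqrt η :=
  Real.le_sqrt_of_sq_le (by nlinarith)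

theorem others (i : Fin 3) : ∃ j k : Fin 3, i ≠ j ∧ i ≠ k ∧ j ≠ k := by
  revert i; decide

/-- The heights where one of the two edges is between the values. -/
def mids (u : (Fin 3 → ℝ) → ℝ) (i j k : Fin 3) : Set ℝ := midSet u i j ∪ midSet u i k

theorem mids_small (hu : Adm u) (hSh : Sharp u η) (hij : i ≠ j) (hik : i ≠ k) :
    MeasurableSet (mids u i j k) ∧ volume.real (mids u i j k ∩ Icc 0 (1 / 2)) ≤ 2 * η := by
  refine ⟨(measurableSet_midSet hu i j).union (measurableSet_midSet hu i k), ?_⟩
  refine (measureReal_mono inter_subset_left ?_).trans ((measureReal_union_le _ _).trans ?_)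
  · refine ne_top_of_le_ne_top (b := volume (Icc (0 : ℝ) (1 / 2))) (by simp) (measure_mono ?_)
    exact union_subset (fun z hz => hz.1) fun z hz => hz.1
  · have h1 : volume.real (midSet u i j) ≤ η := hSh.edge i j hij
    have h2 : volume.real (midSet u i k) ≤ η := hSh.edge i k hik
    linarith

/-- Outside the middle heights the edge values follow the ends. -/
theorem edge_kind (hu : Adm u) (hS : Sym u) {z : ℝ} (hz : z ∈ Ioo (0 : ℝ) (1 / 2))
    (hzB : z ∉ midSet u i j) :
    (z < endPt u i j → edge u i j z = 1) ∧ (endPt u i j ≤ z → edge u i j z ≠ 1 → edge u i j z = 0) := by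
  refine ⟨edge_before hu hS hz.1.le, fun _ hne => ?_⟩
  by_contra h0
  exact hzB ⟨⟨hz.1.le, hz.2.le⟩, lt_of_le_of_ne (hu.mem _).1 (Ne.symm h0),
    lt_of_le_of_ne (hu.mem _).2 hne⟩

theorem good_none (hu : Adm u) (hS : Sym u) (hij : i ≠ j) (hik : i ≠ k) (hjk : j ≠ k) {z L : ℝ}
    (hj : edge u i j z = 0) (hk : edge u i k z = 0) (hL : L ≤ sliceF0 (area u i z)) :
    2 * L - 2 * err (dfct (slice u i z)) ≤ energy (slice u i z) := by
  obtain ⟨hA, hs, hm, hd, he⟩ := frame_spec hu hS hij hik hjk z
  have h := sliceNone _ hA hs ((frame_left hij hjk hik z).trans hj) ((frame_right hij hik z).trans hk)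
  rw [hm, hd, he] at h
  simp only [sliceF0] at hL
  linarith

theorem good_both (hu : Adm u) (hS : Sym u) (hij : i ≠ j) (hik : i ≠ k) (hjk : j ≠ k) {z L : ℝ}
    (hj : edge u i j z = 1) (hk : edge u i k z = 1) (hL : L ≤ sliceF2 (area u i z)) :
    2 * L - 2 * err (dfct (slice u i z)) ≤ energy (slice u i z) := by
  obtain ⟨hA, hs, hm, hd, he⟩ := frame_spec hu hS hij hik hjk z
  have h := sliceBoth _ hA hs ((frame_left hij hjk hik z).trans hj) ((frame_right hij hik z).trans hk)
  rw [hm, hd, he] at h
  simp only [sliceF2] at hL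
  linarith

theorem good_one (hu : Adm u) (hS : Sym u) (hij : i ≠ j) (hik : i ≠ k) (hjk : j ≠ k) {z L : ℝ}
    (hj : edge u i j z = 1) (hk : edge u i k z = 0) (hL : L ≤ 1) :
    2 * L ≤ energy (slice u i z) := by
  obtain ⟨hA, hs, -, -, he⟩ := frame_spec hu hS hij hik hjk z
  have h := (sliceOne _ hA hs ((frame_left hij hjk hik z).trans hj)
    ((frame_right hij hik z).trans hk)).1 1 0 zero_le_one le_rfl (by norm_num)
  rw [he] at h
  linarith

/-- Three kinds with the plain bounds. -/
theorem three_kinds (hu : Adm u) (hS : Sym u) (hSh : Sharp u η) (hη0 : 0 ≤ η) (hη1 : η ≤ 1)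
    (hij : i ≠ j) (hik : i ≠ k) (hjk : j ≠ k)
    (K : Calib okPlain (area u i (1 / 2)) (area u i 0)) :
    2 * K.value (mean u) (2 * max (endPt u i j) (endPt u i k))
        (2 * min (endPt u i j) (endPt u i k)) (area u i (max (endPt u i j) (endPt u i k)))
        (area u i (min (endPt u i j) (endPt u i k))) ≤ energy u + caseLoss η u := by
  obtain ⟨hBm, hBs⟩ := mids_small hu hSh hij hik
  have herr : ∀ z, 0 ≤ err (dfct (slice u i z)) := fun z =>
    mul_nonneg (by norm_num) (Real.rpow_nonneg (dfct_nonneg (hu.slice i z)) _)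
  refine le_trans (axis_core hu hS i K (le_min (endPt_mem i j).1 (endPt_mem i k).1) min_le_max
    (max_le (endPt_mem i j).2 (endPt_mem i k).2) hBm (le_refl (0 : ℝ))
    fun κ z hz hzB h2 h1 h0 L hL => ?_) ?_
  · simp only [mids, mem_union, not_or] at hzB
    have hle := hz.2.le
    rw [add_zero]
    fin_cases κ
    · have h := h0 rfl
      exact good_none hu hS hij hik hjk
        (edge_after hu hle ((le_max_left _ _).trans_lt h) hzB.1)
        (edge_after hu hle ((le_max_right _ _).trans_lt h) hzB.2) hL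
    · obtain ⟨hlo, hhi⟩ := h1 rfl
      have hL' : L ≤ 1 := hL
      rcases le_total (endPt u i j) (endPt u i k) with h | h
      · rw [min_eq_left h] at hlo
        rw [max_eq_right h] at hhi
        have := good_one hu hS hik hij hjk.symm (edge_before hu hS hz.1.le hhi)
          (edge_after hu hle hlo hzB.1) hL'
        linarith [herr z]
      · rw [min_eq_right h] at hlo
        rw [max_eq_left h] at hhi
        have := good_one hu hS hij hik hjk (edge_before hu hS hz.1.le hhi)
          (edge_after hu hle hlo hzB.2) hL'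
        linarith [herr z]
    · have h := h2 rfl
      exact good_both hu hS hij hik hjk (edge_before hu hS hz.1.le (h.trans_le (min_le_left _ _)))
        (edge_before hu hS hz.1.le (h.trans_le (min_le_right _ _))) hL
  · have := le_sqrt_self hη0 hη1
    unfold caseLoss
    linarith

theorem scalar_range (hu : Adm u) (hS : Sym u) (i : Fin 3) :
    area u i (1 / 2) ≤ mean u ∧ mean u ≤ area u i 0 ∧ area u i 0 ≤ 1 := by
  refine ⟨?_, mean_le_area_zero hu hS i, (mean_mem (hu.slice i 0)).2⟩
  have h := integral_area_half hu hS i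
  have hc : Continuous (area u i) :=
    continuous_iff_continuousAt.2 fun z => (hasDerivAt_area hu i z).continuousAt
  have h2 := intervalIntegral.integral_mono_on (μ := volume) (by norm_num : (0 : ℝ) ≤ 1 / 2)
    (intervalIntegrable_const (c := area u i (1 / 2))) (hc.intervalIntegrable _ _)
    fun z hz => area_anti hu hS i hz ⟨by norm_num, le_rfl⟩ hz.2
  simp only [intervalIntegral.integral_const, smul_eq_mul] at h2
  linarith

theorem switch_range (hu : Adm u) (hS : Sym u) (i : Fin 3) {p r : ℝ} (hp : 0 ≤ p) (hpr : p ≤ r)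
    (hr : r ≤ 1 / 2) :
    area u i (1 / 2) ≤ area u i r ∧ area u i r ≤ area u i p ∧ area u i p ≤ area u i 0 :=
  ⟨area_anti hu hS i ⟨hp.trans hpr, hr⟩ ⟨by norm_num, le_rfl⟩ hr,
    area_anti hu hS i ⟨hp, hpr.trans hr⟩ ⟨hp.trans hpr, hr⟩ hpr,
    area_anti hu hS i ⟨le_rfl, by norm_num⟩ ⟨hp, hpr.trans hr⟩ hp⟩

/-- All far areas are not small: slice along the smallest, towards any target. -/
theorem contact_case_to {T : ℝ → ℝ}
    (hW : ∀ c m v, 1595 / 1000000 ≤ c → c ≤ v → v ≤ m → m ≤ 1 → 259 / 1000 ≤ v → v ≤ 368 / 1000 →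
      Reaches okPlain (durContact c m) c m v (T v))
    (hu : Adm u) (hS : Sym u) (hSh : Sharp u η)
    (hη0 : 0 ≤ η) (hη : η ≤ 1 / 10000000) (hfar : ∀ i, 16 / 10000 < far u i)
    (hv0 : 259 / 1000 ≤ mean u) (hv1 : mean u ≤ 368 / 1000) :
    2 * T (mean u) ≤ energy u + caseLoss η u := by
  obtain ⟨i, -, hi⟩ := Finset.exists_min_image Finset.univ (far u) Finset.univ_nonempty
  obtain ⟨j, k, hij, hik, hjk⟩ := others i
  obtain ⟨hcv, hvm, hm1⟩ := scalar_range hu hS i
  have hc : 1595 / 1000000 ≤ area u i (1 / 2) := by have := hfar i; unfold far at this; linarith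
  obtain ⟨K, hK⟩ := hW _ _ _ hc hcv hvm hm1 hv0 hv1
  refine le_trans ?_ (three_kinds hu hS hSh hη0 (by linarith) hij hik hjk K)
  have hmax : max (endPt u i j) (endPt u i k) ≤ 1 / 2 := max_le (endPt_mem i j).2 (endPt_mem i k).2
  have hmin : 0 ≤ min (endPt u i j) (endPt u i k) := le_min (endPt_mem i j).1 (endPt_mem i k).1
  obtain ⟨hs1, hs2, hs3⟩ := switch_range hu hS i hmin min_le_max hmax
  have hdur : durContact (area u i (1 / 2)) (area u i 0)
      (2 * max (endPt u i j) (endPt u i k)) (2 * min (endPt u i j) (endPt u i k)) := by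
    have h1 := (hi j (Finset.mem_univ j)).trans (far_le hu hS hij hik hjk (hSh.edge i j hij))
    have h2 := (hi k (Finset.mem_univ k)).trans (far_le hu hS hik hij hjk.symm (hSh.edge i k hik))
    unfold durContact
    unfold far at h1 h2
    rcases min_choice (endPt u i j) (endPt u i k) with h | h <;> rw [h] <;> linarith
  have h := hK _ _ _ _ (by linarith) (by linarith [min_le_max (a := endPt u i j) (b := endPt u i k)])
    (by linarith) hdur hs1 hs2 hs3
  linarith

/-- All far areas are not small: slice along the smallest. -/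
theorem contact_case (hW : WindowScalar) (hu : Adm u) (hS : Sym u) (hSh : Sharp u η)
    (hη0 : 0 ≤ η) (hη : η ≤ 1 / 10000000) (hfar : ∀ i, 16 / 10000 < far u i)
    (hv0 : 259 / 1000 ≤ mean u) (hv1 : mean u ≤ 368 / 1000) :
    canonical (mean u) ≤ energy u + caseLoss η u := by
  have := contact_case_to (T := fun v => canonical v / 2) hW.contact hu hS hSh hη0 hη hfar hv0 hv1
  linarith

/-- A far area is small but not tiny, towards any target. -/
theorem small_case_to {T : ℝ → ℝ}
    (hW : ∀ c m v, 1595 / 1000000 ≤ c → c ≤ 405 / 10000 → c ≤ v → v ≤ m → m ≤ 1 →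
      259 / 1000 ≤ v → v ≤ 368 / 1000 → Reaches okPlain (fun _ _ => True) c m v (T v))
    (hu : Adm u) (hS : Sym u) (hSh : Sharp u η)
    (hη0 : 0 ≤ η) (hη : η ≤ 1) (hlo : 16 / 10000 < far u i) (hhi : far u i ≤ 4 / 100)
    (hv0 : 259 / 1000 ≤ mean u) (hv1 : mean u ≤ 368 / 1000) :
    2 * T (mean u) ≤ energy u + caseLoss η u := by
  obtain ⟨j, k, hij, hik, hjk⟩ := others i
  obtain ⟨hcv, hvm, hm1⟩ := scalar_range hu hS i
  unfold far at hlo hhi
  obtain ⟨K, hK⟩ := hW _ _ _ (by linarith) (by linarith) hcv hvm hm1 hv0 hv1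
  refine le_trans ?_ (three_kinds hu hS hSh hη0 hη hij hik hjk K)
  have hmax : max (endPt u i j) (endPt u i k) ≤ 1 / 2 := max_le (endPt_mem i j).2 (endPt_mem i k).2
  have hmin : 0 ≤ min (endPt u i j) (endPt u i k) := le_min (endPt_mem i j).1 (endPt_mem i k).1
  obtain ⟨hs1, hs2, hs3⟩ := switch_range hu hS i hmin min_le_max hmax
  have h := hK (2 * max (endPt u i j) (endPt u i k)) (2 * min (endPt u i j) (endPt u i k)) _ _
    (by linarith) (by linarith [min_le_max (a := endPt u i j) (b := endPt u i k)])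
    (by linarith) trivial hs1 hs2 hs3
  linarith

/-- A far area is small but not tiny. -/
theorem small_case (hW : WindowScalar) (hu : Adm u) (hS : Sym u) (hSh : Sharp u η)
    (hη0 : 0 ≤ η) (hη : η ≤ 1) (hlo : 16 / 10000 < far u i) (hhi : far u i ≤ 4 / 100)
    (hv0 : 259 / 1000 ≤ mean u) (hv1 : mean u ≤ 368 / 1000) :
    canonical (mean u) ≤ energy u + caseLoss η u := by
  have := small_case_to (T := fun v => canonical v / 2) hW.small hu hS hSh hη0 hη hlo hhi hv0 hv1
  linarith

/-- A gap across an axis makes the function vanish on its far face. -/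
theorem gap_zero (hu : Adm u) (hS : Sym u) (hg : HasGap u i) {x : Fin 3 → ℝ} (hx : x i = 1 / 2) :
    u x = 0 := by
  obtain ⟨a, b, hab, hz⟩ := hg
  obtain ⟨t, ht⟩ := nonempty_Ioo.2 hab
  have hz' : ∀ y : Fin 3 → ℝ, y i = t → u y = 0 := fun y hy => hz y (by rwa [hy])
  have key : ∀ z ∈ Icc (0 : ℝ) (1 / 2), (∀ y : Fin 3 → ℝ, y i = z → u y = 0) → u x = 0 := by
    intro z hzI h
    refine le_antisymm ?_ (hu.mem x).1
    rw [← h (update x i z) (by simp)]
    conv_lhs => rw [← update_eq_self i x, hx]
    exact hS.antitone i x hzI ⟨by norm_num, le_rfl⟩ hzI.2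
  have hfr : ∀ y : Fin 3 → ℝ, y i = Int.fract t → u y = 0 := by
    intro y hy
    have h := hz' (update y i t) (by simp)
    rw [← h]
    have e : y = update y i t + Pi.single i ((-⌊t⌋ : ℤ) : ℝ) := by
      funext l
      rcases eq_or_ne l i with rfl | hl
      · simp only [Pi.add_apply, update_self, Pi.single_eq_same, hy, Int.fract]
        push_cast
        ring
      · simp [hl]
    have hi := (hu.per.add_int i (update y i t)).int_mul (-⌊t⌋) 0
    simp only [zero_add, mul_one, Pi.single_zero, add_zero] at hi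
    conv_lhs => rw [e]
    exact hi
  rcases le_total (Int.fract t) (1 / 2) with h | h
  · exact key _ ⟨Int.fract_nonneg _, h⟩ hfr
  · refine key (1 - Int.fract t) ⟨by linarith [Int.fract_lt_one t], by linarith⟩ fun y hy => ?_
    have hneg : y i = 1 - Int.fract t := hy
    have e : y = update (update y i (-y i)) i (-(-y i)) := by simp
    rw [e]
    have h1 := hS.even i (update y i (-y i))
    simp only [update_self, update_idem] at h1 ⊢
    rw [h1]
    have e2 : update y i (-y i) =
        update y i (Int.fract t) + Pi.single i ((-1 : ℤ) : ℝ) := by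
      funext l
      rcases eq_or_ne l i with rfl | hl
      · simp [hneg]; ring
      · simp [hl]
    have hi := (hu.per.add_int i (update y i (Int.fract t))).int_mul (-1) 0
    simp only [zero_add, mul_one, Pi.single_zero, add_zero] at hi
    rw [e2, hi]
    exact hfr _ (by simp)

theorem far_zero (hu : Adm u) (hS : Sym u) (hg : HasGap u i) : area u i (1 / 2) = 0 := by
  have h : slice u i (1 / 2) = fun _ => 0 := funext fun y => gap_zero hu hS hg (by simp)
  simp only [area, mean, h, integral_zero]

theorem edge_gap (hu : Adm u) (hS : Sym u) (hg : HasGap u j) (hij : i ≠ j) (z : ℝ) :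
    edge u i j z = 0 :=
  gap_zero hu hS hg (by simp [update_of_ne hij.symm])

/-- Two gaps: only slices reaching no edge occur, and they pay for the range of the areas. -/
theorem tube_case_margin (hu : Adm u) (hS : Sym u) (hij : i ≠ j) (hik : i ≠ k) (hjk : j ≠ k)
    (hgj : HasGap u j) (hgk : HasGap u k) (hlo : 39 / 1000 ≤ far u i) (η : ℝ)
    (hv0 : 259 / 1000 ≤ mean u) (hv1 : mean u ≤ 368 / 1000) :
    canonical (mean u) + 2 * ((area u i 0 - area u i (1 / 2)) ^ 2 / 10 ^ 6) ≤
      energy u + caseLoss η u := by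
  obtain ⟨hcv, hvm, hm1⟩ := scalar_range hu hS i
  unfold far at hlo
  set c := area u i (1 / 2) with hc
  set m := area u i 0 with hm
  obtain ⟨α, β, hα, hβ, hdom, hval⟩ := tube_margin c (mean u) m hlo hcv hvm hm1 hv0 hv1
  set w : ℝ → ℝ := fun a =>
    Real.sqrt (max 0 (1 - (α + β * max c a) ^ 2 / (Real.pi * max c a))) with hw
  have hwc : Continuous w := by
    have hne : ∀ a : ℝ, Real.pi * max c a ≠ 0 := fun a =>
      (mul_pos Real.pi_pos (lt_of_lt_of_le (by linarith) (le_max_left c a))).ne'
    simp only [hw]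
    fun_prop (disch := exact hne)
  have hw1 : ∀ a, w a ∈ Icc (0 : ℝ) 1 := fun a => by
    refine ⟨Real.sqrt_nonneg _, Real.sqrt_le_one.2 (max_le zero_le_one ?_)⟩
    have h0 : 0 ≤ max c a := le_trans (by linarith) (le_max_left c a)
    linarith [div_nonneg (sq_nonneg (α + β * max c a)) (mul_nonneg Real.pi_pos.le h0)]
  let K : Calib (fun _ a L => L ≤ sliceF0 a) c m :=
    { α := fun _ => α
      β := β
      w := fun _ => w
      cont := fun _ => hwc
      mem := fun _ => hw1
      alpha_le := fun _ => hα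
      beta_le := hβ
      valid := fun _ a ha => by
        refine ⟨sliceF0 a, le_rfl, ?_⟩
        obtain ⟨h0, h1⟩ := hdom a ha
        have ha0 : 0 < a := lt_of_lt_of_le (by linarith) ha.1
        have hpa : 0 < Real.pi * a := mul_pos Real.pi_pos ha0
        rw [max_eq_left h0]
        simp only [hw, max_eq_right ha.1]
        have hsq : (α + β * a) ^ 2 ≤ Real.pi * a := by
          calc (α + β * a) ^ 2 ≤ Real.sqrt (Real.pi * a) ^ 2 := pow_le_pow_left₀ h0 h1 2
            _ = _ := Real.sq_sqrt hpa.le
        have h2 : 0 ≤ 1 - (α + β * a) ^ 2 / (Real.pi * a) := sub_nonneg.2 ((div_le_one hpa).2 hsq)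
        rw [max_eq_right h2, Real.sq_sqrt h2, sub_sub_cancel, sliceF0, ← Real.sqrt_mul
          (div_nonneg (sq_nonneg _) hpa.le), div_mul_cancel₀ _ hpa.ne', Real.sqrt_sq h0] }
  have hcore := axis_core hu hS i K (le_refl (0 : ℝ)) (le_refl 0) (by norm_num)
    (MeasurableSet.empty) (le_refl (0 : ℝ)) fun κ z hz _ h2 h1 _ L hL => by
      have := good_none hu hS hij hik hjk (edge_gap hu hS hgj hij z) (edge_gap hu hS hgk hik z) hL
      linarith
  have hsame : ∫ a in c..m, w a =
      ∫ a in c..m, Real.sqrt (max 0 (1 - (α + β * a) ^ 2 / (Real.pi * a))) :=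
    intervalIntegral.integral_congr fun a ha => by
      rw [uIcc_of_le (hcv.trans hvm)] at ha
      simp only [hw, max_eq_right ha.1]
  simp only [mul_zero, empty_inter, measureReal_empty] at hcore
  unfold Calib.value at hcore
  simp only [K, sub_zero, mul_zero, sub_self, mul_one, add_zero, intervalIntegral.integral_same,
    ← hm] at hcore
  have hcan : canonical (mean u) ≤ 2 * Real.sqrt (Real.pi * mean u) :=
    (min_le_left _ _).trans (min_le_right _ _)
  have := Real.sqrt_nonneg η
  unfold caseLoss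
  linarith

/-- Two gaps: only slices reaching no edge occur. -/
theorem tube_case (hu : Adm u) (hS : Sym u) (hij : i ≠ j) (hik : i ≠ k) (hjk : j ≠ k)
    (hgj : HasGap u j) (hgk : HasGap u k) (hlo : 39 / 1000 ≤ far u i) (η : ℝ)
    (hv0 : 259 / 1000 ≤ mean u) (hv1 : mean u ≤ 368 / 1000) :
    canonical (mean u) ≤ energy u + caseLoss η u := by
  have := tube_case_margin hu hS hij hik hjk hgj hgk hlo η hv0 hv1
  have := sq_nonneg (area u i 0 - area u i (1 / 2))
  linarith

/-- The slice bounds with the contact. -/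
theorem good_theta (hu : Adm u) (hS : Sym u) (hij : i ≠ j) (hik : i ≠ k) (hjk : j ≠ k)
    {θ z L e : ℝ} (hj : edge u i j z = 1) (he : 0 ≤ e) :
    ((edge u i k z = 1) → θ ≤ volume.real {t ∈ Ico (0 : ℝ) 1 | frame u i j k z ![1 / 2, t] = 1} →
      lineMid u i j k z ≤ e → BothStrip θ (area u i z) L → 2 * L - 2 * e ≤ energy (slice u i z)) ∧
    ((edge u i k z = 0) → line u i j k z ≤ θ + e → OneLine θ (area u i z) L →
      2 * L - 2 * e ≤ energy (slice u i z)) := by
  obtain ⟨hA, hs, hm, -, hen⟩ := frame_spec hu hS hij hik hjk z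
  have h1 := (frame_left (u := u) hij hjk hik z).trans hj
  constructor
  · rintro hk hθ hmid ⟨H, hH, hH1, hcond, hL⟩
    have h := sliceStrip _ hA hs h1 ((frame_right hij hik z).trans hk) H hH
      (by linarith) (by rwa [hm])
    rw [hm, hen] at h
    unfold lineMid at hmid
    linarith
  · rintro hk hθ ⟨P, Q, hQ, hPQ, hL⟩
    have hone := sliceOne _ hA hs h1 ((frame_right hij hik z).trans hk)
    have hQ1 : Q ≤ 1 := by
      rcases hPQ with ⟨-, h⟩ | h
      · nlinarith [sq_nonneg P]
      · exact (arcs_le h).2.1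
    have hlow : 2 * (P + Q * (area u i z - line u i j k z)) ≤ energy (slice u i z) := by
      rcases hPQ with ⟨hP, h⟩ | h
      · have := hone.1 P Q hP hQ h
        rwa [hm, hen] at this
      · obtain ⟨hQ0, -, hP⟩ := arcs_le h
        have := hone.2 (1 / Q) ((one_le_div hQ0).2 hQ1)
        simp only [div_div_eq_mul_div, div_one] at this
        rw [hm, hen] at this
        unfold line
        nlinarith
    have h2 : Q * (line u i j k z - θ) ≤ e := by
      rcases le_total (line u i j k z - θ) 0 with h | h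
      · exact (mul_nonpos_of_nonneg_of_nonpos hQ h).trans he
      · exact (mul_le_of_le_one_left h hQ1).trans (by linarith)
    nlinarith

theorem frame_swap (hjk : j ≠ k) (z a b : ℝ) :
    frame u i j k z ![a, b] = frame u i k j z ![b, a] := by
  simp only [frame, Matrix.cons_val_zero, Matrix.cons_val_one]
  rw [update_comm hjk]

/-- A gap next to two far areas which are not small, towards any target. -/
theorem gap_case_le_to {T : ℝ → ℝ → ℝ}
    (hW : ∀ θ m v, 0 ≤ θ → θ ≤ m → v ≤ m → m ≤ 1 → 259 / 1000 ≤ v → v ≤ 368 / 1000 →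
      Reaches (okTheta θ) (durGap θ m) 0 m v (T m v))
    (hu : Adm u) (hS : Sym u) (hSh : Sharp u η) (hη0 : 0 < η)
    (hη : η ≤ 1 / 10 ^ 10) (hij : i ≠ j) (hik : i ≠ k) (hjk : j ≠ k) (hg : HasGap u i)
    (hfk : 4 / 100 < far u k) (hord : endPt u i k ≤ endPt u i j)
    (hv0 : 259 / 1000 ≤ mean u) (hv1 : mean u ≤ 368 / 1000) :
    2 * T (area u i 0) (mean u) ≤ energy u + caseLoss η u := by
  obtain ⟨-, hvm, hm1⟩ := scalar_range hu hS i
  set σ := Real.sqrt η with hσ
  have hσ0 : 0 ≤ σ := Real.sqrt_nonneg _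
  have hσ5 : σ ≤ 1 / 100000 := (Real.sqrt_le_left (by norm_num)).2 (by linarith)
  have hηle : η ≤ σ := le_sqrt_self hη0.le (by linarith)
  set p := endPt u i k with hp
  set r := endPt u i j with hr
  have hpm := endPt_mem (u := u) i k
  have hrm := endPt_mem (u := u) i j
  set θ := max 0 (line u i j k p - σ) with hθdef
  have hlf := line_facts hu hS hij hik hjk p
  have hθm : θ ≤ area u i 0 := by
    refine max_le (le_trans (hlf.1.trans hlf.2.1) ?_) ?_
    · exact area_anti hu hS i ⟨le_rfl, by norm_num⟩ hpm hpm.1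
    · linarith [area_anti hu hS i ⟨le_rfl, by norm_num⟩ hpm hpm.1, hlf.2.1]
  obtain ⟨K, hK⟩ : Reaches (okTheta θ) (durGap θ (area u i 0)) (area u i (1 / 2)) (area u i 0)
      (mean u) (T (area u i 0) (mean u)) := by
    rw [far_zero hu hS hg]
    exact hW θ (area u i 0) (mean u) (le_max_left _ _) hθm hvm hm1 hv0 hv1
  set Bμ := lineBad u i j k η with hBμ
  obtain ⟨hBμm, hBμs⟩ := lineBad_small hu hij hik hjk hη0 (hSh.face j)
  obtain ⟨hmm, hms⟩ := mids_small hu hSh hij hik
  set B := mids u i j k ∪ Bμ with hB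
  have hBs : volume.real (B ∩ Icc 0 (1 / 2)) ≤ 3 * σ := by
    rw [hB, union_inter_distrib_right]
    refine (measureReal_union_le _ _).trans ?_
    linarith
  have hmu : ∀ z ∈ Ioo (0 : ℝ) (1 / 2), z ∉ B → lineMid u i j k z ≤ σ := fun z hz hzB =>
    le_of_not_gt fun h => hzB (Or.inr ⟨⟨hz.1.le, hz.2.le⟩, h⟩)
  have hfull : ∀ z ∈ Ioo (0 : ℝ) (1 / 2), z ∉ B → z ≤ p →
      θ ≤ volume.real {t ∈ Ico (0 : ℝ) 1 | frame u i j k z ![1 / 2, t] = 1} := by
    intro z hz hzB hzp
    refine max_le measureReal_nonneg ?_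
    have h1 : line u i j k p ≤ line u i j k z := line_anti hu hS ⟨hz.1.le, hz.2.le⟩ hpm hzp
    have h2 := contact_le_full (frame_spec hu hS hij hik hjk z).1
    have h3 := hmu z hz hzB
    unfold line lineMid at *
    linarith
  have herr : ∀ z, 0 ≤ err (dfct (slice u i z)) := fun z =>
    mul_nonneg (by norm_num) (Real.rpow_nonneg (dfct_nonneg (hu.slice i z)) _)
  have hcore := axis_core hu hS i K hpm.1 hord hrm.2 (hmm.union hBμm)
    (show (0 : ℝ) ≤ 2 * σ by linarith) fun κ z hz hzB h2 h1 h0 L hL => by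
      have hzmj : z ∉ midSet u i j := fun h => hzB (Or.inl (Or.inl h))
      have hzmk : z ∉ midSet u i k := fun h => hzB (Or.inl (Or.inr h))
      have hE := herr z
      fin_cases κ
      · have h := h0 rfl
        have hL' : L ≤ sliceF0 (area u i z) := by
          rcases hL with hL | ⟨h', -⟩ | ⟨h', -⟩
          · exact hL
          · exact absurd h' (by decide)
          · exact absurd h' (by decide)
        have := good_none hu hS hij hik hjk (edge_after hu hz.2.le h hzmj)
          (edge_after hu hz.2.le (hord.trans_lt h) hzmk) hL'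
        linarith
      · obtain ⟨hlo, hhi⟩ := h1 rfl
        have ej := edge_before hu hS hz.1.le hhi
        have ek := edge_after hu hz.2.le hlo hzmk
        rcases hL with hL | ⟨-, hL⟩ | ⟨h', -⟩
        · have := good_one hu hS hij hik hjk ej ek hL
          linarith
        · have hline : line u i j k z ≤ θ + σ := by
            have := line_anti (i := i) (j := j) (k := k) hu hS hpm ⟨hz.1.le, hz.2.le⟩ hlo.le
            linarith [le_max_right 0 (line u i j k p - σ)]
          have := (good_theta hu hS hij hik hjk ej hσ0).2 ek hline hL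
          linarith
        · exact absurd h' (by decide)
      · have h := h2 rfl
        have ej := edge_before hu hS hz.1.le (h.trans_le hord)
        have ek := edge_before hu hS hz.1.le h
        rcases hL with hL | ⟨h', -⟩ | ⟨-, hL⟩
        · have := good_both hu hS hij hik hjk ej ek hL
          linarith
        · exact absurd h' (by decide)
        · have := (good_theta hu hS hij hik hjk ej hσ0).1 ek (hfull z hz hzB h.le) (hmu z hz hzB) hL
          linarith
  -- the far area over the second edge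
  have hdur : durGap θ (area u i 0) (2 * r) (2 * p) := by
    have hlc : Continuous (line u i k j) := continuous_line hu
    set χ : ℝ → ℝ := B.indicator fun _ => 1 with hχ
    have hχi : ∀ x y : ℝ, IntervalIntegrable χ volume x y := fun x y =>
      ⟨(integrableOn_const (by simp)).indicator (hmm.union hBμm),
        (integrableOn_const (by simp)).indicator (hmm.union hBμm)⟩
    have hθ1 : 0 ≤ 1 - θ := by linarith
    have hpt : ∀ z ∈ Icc (0 : ℝ) (1 / 2), z ≠ 0 → z ≠ 1 / 2 → z ≠ p → line u i k j z * (1 - θ) ≤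
        (if z ≤ p then area u i 0 - θ else 0) + (1 - θ) * χ z := by
      intro z hz h0 h2 hzp
      have hlk := line_facts hu hS hik hij hjk.symm z
      have hpos : 0 ≤ (if z ≤ p then area u i 0 - θ else 0) := by split_ifs <;> linarith
      by_cases hzB : z ∈ B
      · rw [hχ, indicator_of_mem hzB, mul_one]
        nlinarith [hlk.2.2, (hu.mem (update (update (0 : Fin 3 → ℝ) k (1 / 2)) i z)).2,
          show edge u i k z ≤ 1 from (hu.mem _).2]
      rw [hχ, indicator_of_notMem hzB, mul_zero, add_zero]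
      have hzI : z ∈ Ioo (0 : ℝ) (1 / 2) := ⟨lt_of_le_of_ne hz.1 (Ne.symm h0), lt_of_le_of_ne hz.2 h2⟩
      split_ifs with hle
      · obtain ⟨hA, hs, hm, -, -⟩ := frame_spec hu hS hij hik hjk z
        have h := full_area_le hA hs (hfull z hzI hzB hle)
        rw [hm] at h
        have e : (∫ s in (0 : ℝ)..1, frame u i j k z ![s, 1 / 2]) = line u i k j z :=
          intervalIntegral.integral_congr fun s _ => frame_swap hjk z s (1 / 2)
        rw [e] at h
        have := area_anti hu hS i ⟨le_rfl, by norm_num⟩ hz hz.1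
        linarith
      · have := edge_after hu hz.2 (not_le.1 hle) fun h => hzB (Or.inl (Or.inr h))
        nlinarith [hlk.2.2, hlk.1]
    have hi1 : IntervalIntegrable (fun z => if z ≤ p then area u i 0 - θ else 0) volume 0 (1 / 2) :=
      ⟨(integrableOn_const (by simp)).indicator measurableSet_Iic,
        (integrableOn_const (by simp)).indicator measurableSet_Iic⟩
    have hint : ∫ z in (0 : ℝ)..1 / 2, line u i k j z * (1 - θ) ≤
        ∫ z in (0 : ℝ)..1 / 2, ((if z ≤ p then area u i 0 - θ else 0) + (1 - θ) * χ z) := by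
      refine intervalIntegral.integral_mono_ae_restrict (by norm_num)
        ((hlc.mul continuous_const).intervalIntegrable _ _) (hi1.add ((hχi _ _).const_mul _)) ?_
      have hne : ∀ᵐ z : ℝ, z ≠ 0 ∧ z ≠ 1 / 2 ∧ z ≠ p :=
        (ae_iff.2 (by simp)).and ((ae_iff.2 (by simp)).and (ae_iff.2 (by simp)))
      filter_upwards [ae_restrict_of_ae (s := Icc (0 : ℝ) (1 / 2)) hne,
        ae_restrict_mem measurableSet_Icc] with z hz hzI using hpt z hzI hz.1 hz.2.1 hz.2.2
    have hχint : ∫ z in (0 : ℝ)..1 / 2, χ z ≤ 3 * σ := by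
      refine le_trans ?_ hBs
      rw [intervalIntegral.integral_of_le (by norm_num), hχ,
        setIntegral_indicator (hmm.union hBμm), setIntegral_const, smul_eq_mul, mul_one, inter_comm]
      exact measureReal_mono (inter_subset_inter_right _ Ioc_subset_Icc_self)
        (ne_top_of_le_ne_top (by simp) (measure_mono inter_subset_right))
    have hstep : ∫ z in (0 : ℝ)..1 / 2, (if z ≤ p then area u i 0 - θ else 0) =
        p * (area u i 0 - θ) := by
      rw [intervalIntegral.integral_of_le (by norm_num),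
        show (fun z => if z ≤ p then area u i 0 - θ else 0) =
          (Iic p).indicator fun _ => area u i 0 - θ from rfl,
        setIntegral_indicator measurableSet_Iic, setIntegral_const, smul_eq_mul,
        Ioc_inter_Iic, min_eq_right hpm.2, Real.volume_real_Ioc_of_le hpm.1, sub_zero]
    have hfar := far_eq_line hu hS hik hij hjk.symm
    rw [intervalIntegral.integral_mul_const, intervalIntegral.integral_add hi1 ((hχi _ _).const_mul _),
      intervalIntegral.integral_const_mul, hstep] at hint
    have := mul_le_mul_of_nonneg_left hχint hθ1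
    have := mul_le_mul_of_nonneg_left hσ5 hθ1
    have := mul_le_mul_of_nonneg_right hfk.le hθ1
    have e2 : far u k * (1 - θ) = 2 * ((∫ z in (0 : ℝ)..1 / 2, line u i k j z) * (1 - θ)) := by
      rw [hfar]; ring
    unfold durGap
    linarith
  obtain ⟨hs1, hs2, hs3⟩ := switch_range hu hS i hpm.1 hord hrm.2
  have h := hK _ _ _ _ (by linarith [hpm.1]) (by linarith) (by linarith [hrm.2]) hdur hs1 hs2 hs3
  unfold caseLoss
  linarith

/-- A gap next to two far areas which are not small, in either order, towards any target. -/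
theorem gap_case_to {T : ℝ → ℝ → ℝ}
    (hW : ∀ θ m v, 0 ≤ θ → θ ≤ m → v ≤ m → m ≤ 1 → 259 / 1000 ≤ v → v ≤ 368 / 1000 →
      Reaches (okTheta θ) (durGap θ m) 0 m v (T m v))
    (hu : Adm u) (hS : Sym u) (hSh : Sharp u η) (hη0 : 0 < η)
    (hη : η ≤ 1 / 10 ^ 10) (hij : i ≠ j) (hik : i ≠ k) (hjk : j ≠ k) (hg : HasGap u i)
    (hfj : 4 / 100 < far u j) (hfk : 4 / 100 < far u k)
    (hv0 : 259 / 1000 ≤ mean u) (hv1 : mean u ≤ 368 / 1000) :
    2 * T (area u i 0) (mean u) ≤ energy u + caseLoss η u := by
  rcases le_total (endPt u i k) (endPt u i j) with h | h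
  · exact gap_case_le_to hW hu hS hSh hη0 hη hij hik hjk hg hfk h hv0 hv1
  · exact gap_case_le_to hW hu hS hSh hη0 hη hik hij hjk.symm hg hfj h hv0 hv1

/-- A gap next to two far areas which are not small, in either order. -/
theorem gap_case (hW : WindowScalar) (hu : Adm u) (hS : Sym u) (hSh : Sharp u η) (hη0 : 0 < η)
    (hη : η ≤ 1 / 10 ^ 10) (hij : i ≠ j) (hik : i ≠ k) (hjk : j ≠ k) (hg : HasGap u i)
    (hfj : 4 / 100 < far u j) (hfk : 4 / 100 < far u k)
    (hv0 : 259 / 1000 ≤ mean u) (hv1 : mean u ≤ 368 / 1000) :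
    canonical (mean u) ≤ energy u + caseLoss η u := by
  have := gap_case_to (T := fun _ v => canonical v / 2) hW.gap hu hS hSh hη0 hη hij hik hjk hg hfj
    hfk hv0 hv1
  linarith

end Vale.Agent.P232.Win
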