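import Mathlib

/-!
# P232: integer certificates for the middle range

Places, values and weights are numerators over `10⁶`.
-/

namespace Vale.Agent.P232.Win

/-- The denominator. -/
abbrev den : ℤ := 1000000

/-- A node: place, three weights, and the tangents used on the cell to its right for the kind
reaching one edge (parameter, constant, slope) and for the kind reaching both (parameter). -/
structure Node where
  /-- the place -/
  X : ℕ
  /-- weight of the kind reaching no edge -/
  w0 : ℕ
  /-- weight of the kind reaching one edge -/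
  w1 : ℕ
  /-- weight of the kind reaching both edges -/
  w2 : ℕ
  /-- the line for one edge, none for the constant bound -/
  o : Option (ℕ × ℕ × ℕ) := none
  /-- the line for both edges, none for the square root bound -/
  k : Option ℕ := none

/-- An affine majorant of the target on a bin, `(A + S v / 10⁶) / 10⁶`. -/
structure TBin where
  /-- left end -/
  V0 : ℕ
  /-- right end -/
  V1 : ℕ
  /-- intercept -/
  A : ℕ
  /-- slope -/
  S : ℕ
  /-- the parameter of tangency -/
  R : ℕ

/-- A certificate tree. -/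
inductive WCert where
  /-- slope, three constants, nodes -/
  | leaf (B A0 A1 A2 : ℤ) (xs : List Node)
  /-- an empty box -/
  | skip
  /-- a box left to a separate lemma -/
  | corner
  /-- a split in the least area -/
  | splitC (s : ℕ) (l r : WCert)
  /-- a split in the greatest area -/
  | splitM (s : ℕ) (l r : WCert)
  /-- a split in the contact -/
  | splitT (s : ℕ) (l r : WCert)

/-- A box in least area, greatest area and contact; `theta` tells whether the contact is used. -/
structure WBox where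
  /-- whether the contact is used -/
  theta : Bool
  /-- least area, lower end -/
  C0 : ℕ
  /-- least area, upper end -/
  C1 : ℕ
  /-- greatest area, lower end -/
  M0 : ℕ
  /-- greatest area, upper end -/
  M1 : ℕ
  /-- contact, lower end -/
  T0 : ℕ
  /-- contact, upper end -/
  T1 : ℕ

/-- The table of circular arcs. -/
def arcsN : List (ℕ × ℕ) :=
  [(785398, 1000000), (854599, 866025), (908913, 707106), (956611, 500000)]

/-- Numerator and denominator of the affine minorant of the square for one edge. -/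
def gOne (T1 : ℕ) (o : Option (ℕ × ℕ × ℕ)) (X : ℕ) : ℤ × ℤ :=
  match o with
  | none => (den * den, 1)
  | some (L0, P, Q) =>
    (2 * (L0 : ℤ) * ((P : ℤ) * den + (Q : ℤ) * ((X : ℤ) - T1)) - (L0 : ℤ) ^ 2 * den, den)

/-- Numerator and denominator of the affine minorant of the square for both edges. -/
def gBoth (T0 : ℕ) (k : Option ℕ) (X : ℕ) : ℤ × ℤ :=
  match k with
  | none => (3141592 * (den - X), 1)
  | some L0 =>
    (2 * (L0 : ℤ) * ((den - X) * (4 * den * den) + 3141592 * (den - T0) ^ 2) -
      (L0 : ℤ) ^ 2 * (4 * den * (den - T0)), 4 * den * (den - T0))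

/-- The numerator of `α + β a` over `10¹²`. -/
def lineX (B A : ℤ) (X : ℕ) : ℤ := A * den + B * X

/-- The weight is admissible against the minorant. -/
def fits (x : ℤ) (W : ℕ) (g : ℤ × ℤ) : Bool :=
  decide (0 ≤ g.1 ∧ (W : ℤ) ≤ den ∧ max x 0 ^ 2 * g.2 ≤ (den ^ 2 - (W : ℤ) ^ 2) * g.1)

/-- The line for one edge may be used. -/
def oneOK (theta : Bool) : Option (ℕ × ℕ × ℕ) → Bool
  | none => true
  | some (L0, P, Q) =>
    theta && decide (0 < L0) && (decide ((P : ℤ) ^ 2 + (Q : ℤ) ^ 2 ≤ den ^ 2) || arcsN.contains (P, Q))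

/-- The line for both edges may be used up to `Y`. -/
def bothOK (theta : Bool) (T0 Y : ℕ) : Option ℕ → Bool
  | none => true
  | some L0 =>
    theta && decide (0 < L0 ∧ T0 < 1000000 ∧
      3141593 * (den - (T0 : ℤ)) ^ 2 ≤ 4 * den * den * (den - Y))

/-- The conditions on the cell between two nodes. -/
def cellOK (b : WBox) (B A0 A1 A2 : ℤ) (p q : Node) : Bool :=
  decide (p.X < q.X) && oneOK b.theta p.o && bothOK b.theta b.T0 q.X p.k &&
    fits (lineX B A0 p.X) p.w0 (3141592 * (p.X : ℤ), 1) &&
    fits (lineX B A0 q.X) q.w0 (3141592 * (q.X : ℤ), 1) &&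
    fits (lineX B A1 p.X) p.w1 (gOne b.T1 p.o p.X) &&
    fits (lineX B A1 q.X) q.w1 (gOne b.T1 p.o q.X) &&
    fits (lineX B A2 p.X) p.w2 (gBoth b.T0 p.k p.X) &&
    fits (lineX B A2 q.X) q.w2 (gBoth b.T0 p.k q.X)

/-- The conditions on all cells; the first node is at `C0`, the last at `M1`. -/
def nodesFit (b : WBox) (B A0 A1 A2 : ℤ) : List Node → Bool
  | [] => false
  | [p] => decide (p.X = b.M1)
  | p :: q :: r => cellOK b B A0 A1 A2 p q && nodesFit b B A0 A1 A2 (q :: r)

/-- Twice a trapezoid. -/
def trapZ (h u v : ℤ) : ℤ := h * (u + v)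

/-- One step of the least switching over the cells inside `[C1, M0]`. -/
def stepDP (C1 M0 : ℕ) (p q : Node) (S : ℤ × ℤ × ℤ) : ℤ × ℤ × ℤ :=
  if C1 ≤ p.X ∧ q.X ≤ M0 then
    let h : ℤ := (q.X : ℤ) - p.X
    (S.1 + trapZ h p.w0 q.w0,
      min (S.2.1 + trapZ h p.w1 q.w1) (S.1 + trapZ h (min p.w0 p.w1 : ℕ) (min q.w0 q.w1 : ℕ)),
      min (min (S.2.2 + trapZ h p.w2 q.w2)
        (S.2.1 + trapZ h (min p.w1 p.w2 : ℕ) (min q.w1 q.w2 : ℕ)))
        (S.1 + trapZ h (min p.w0 (min p.w1 p.w2) : ℕ) (min q.w0 (min q.w1 q.w2) : ℕ)))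
  else S

/-- The least switching over the cells. -/
def runDP (C1 M0 : ℕ) : List Node → ℤ × ℤ × ℤ → ℤ × ℤ × ℤ
  | p :: q :: r, S => runDP C1 M0 (q :: r) (stepDP C1 M0 p q S)
  | _, S => S

/-- The least value of the constants over the durations. -/
def durMin (Tn Td : ℕ) (A0 A1 A2 : ℤ) : ℤ :=
  min (A2 * Td) (min (A2 * Tn + A0 * ((Td : ℤ) - Tn)) (A2 * Tn + A1 * ((Td : ℤ) - Tn)))

/-- The target is reached at one value of the mean. -/
def valueOKW (q : TBin) (B G D : ℤ) (Td V : ℕ) : Bool :=
  decide (2 * (Td : ℤ) * ((q.A : ℤ) * den + (q.S : ℤ) * V) ≤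
    (Td : ℤ) * (2 * B * V + G) + 2 * den * D)

/-- The leaf test. -/
def leafFit (q : TBin) (dur : WBox → ℕ × ℕ) (b : WBox) (B A0 A1 A2 : ℤ) : List Node → Bool
  | [] => false
  | [_] => false
  | p :: q' :: r =>
    decide (p.X = b.C0 ∧ |B| ≤ 20 * den ∧ |A0| ≤ 20 * den ∧ |A1| ≤ 20 * den ∧ |A2| ≤ 20 * den ∧
      (dur b).1 ≤ (dur b).2 ∧ 0 < (dur b).2) &&
    nodesFit b B A0 A1 A2 (p :: q' :: r) &&
    (let G := (runDP b.C1 b.M0 (p :: q' :: r) (0, 0, 0)).2.2
     let D := durMin (dur b).1 (dur b).2 A0 A1 A2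
     decide (min q.V1 b.M1 < max q.V0 b.C0) ||
      (valueOKW q B G D (dur b).2 (max q.V0 b.C0) && valueOKW q B G D (dur b).2 (min q.V1 b.M1)))

/-- An empty box. -/
def skipOK (q : TBin) (b : WBox) : Bool :=
  decide (q.V1 < b.C0 ∨ b.M1 < q.V0) ||
    (b.theta && decide (b.M1 ≤ b.T0 ∧ b.T0 < 1000000))

/-- The certificate test. -/
def checkW (q : TBin) (dur : WBox → ℕ × ℕ) (corner : WBox → Bool) : WCert → WBox → Bool
  | .leaf B A0 A1 A2 xs, b => leafFit q dur b B A0 A1 A2 xs
  | .skip, b => skipOK q b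
  | .corner, b => corner b
  | .splitC s l r, b =>
    checkW q dur corner l { b with C1 := s } && checkW q dur corner r { b with C0 := s }
  | .splitM s l r, b =>
    checkW q dur corner l { b with M1 := s } && checkW q dur corner r { b with M0 := s }
  | .splitT s l r, b =>
    checkW q dur corner l { b with T1 := s } && checkW q dur corner r { b with T0 := s }

/-- The durations when both far areas are at least the smallest. -/
def durContactN (b : WBox) : ℕ × ℕ := (999 * b.C0, 1000 * b.M1)

/-- No information on the durations. -/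
def durFreeN (_ : WBox) : ℕ × ℕ := (0, 1)

/-- The durations next to a gap. -/
def durGapN (b : WBox) : ℕ × ℕ :=
  if b.T0 < b.M1 then
    (min (39500 * (1000000 - b.T0)) ((b.M1 - b.T0) * 1000000), (b.M1 - b.T0) * 1000000)
  else (1, 1)

/-- The boxes next to the slab. -/
def gapCorner (b : WBox) : Bool := decide (998000 ≤ b.M0)

/-- No separate lemma. -/
def noCorner (_ : WBox) : Bool := false

/-- The bin's line lies strictly above the target: a tangent of the tube value with a bound above
`π`, or more than the slab value. -/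
def binDom (q : TBin) : Bool :=
  decide ((0 < q.R ∧ (q.R : ℤ) ≤ den ∧ (q.R : ℤ) ≤ 2 * q.A ∧
      3141593 * den ≤ 2 * (q.S : ℤ) * q.R) ∨ den < (q.A : ℤ))

end Vale.Agent.P232.Win
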