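import Vale.Agent.P232.Win.Bins
import Vale.Agent.P232.Win.Fast
import Vale.Agent.P232.Win.DataContact0
import Vale.Agent.P232.Win.DataContact1
import Vale.Agent.P232.Win.DataContact2
import Vale.Agent.P232.Win.DataContact3
import Vale.Agent.P232.Win.DataContact4
import Vale.Agent.P232.Win.DataSmall0
import Vale.Agent.P232.Win.DataSmall1
import Vale.Agent.P232.Win.DataSmall2
import Vale.Agent.P232.Win.DataSmall3
import Vale.Agent.P232.Win.DataSmall4

/-!
# P232: certificates of the middle range
-/

noncomputable section

namespace Vale.Agent.P232.Win

-- evaluation is left to the kernel, one subtree at a time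
attribute [local irreducible] Fast.check

theorem contact0_ok : checkW bin0 durContactN noCorner contact0 ⟨false, 1590, 278000, 259000, 1000000, 0, 0⟩ = true := by
  refine Fast.checkW_of (fun _ => rfl) ?_
  iterate 4 all_goals try first | apply Fast.splitC_ok | apply Fast.splitM_ok | apply Fast.splitT_ok
  all_goals decide +kernel

theorem contact1_ok : checkW bin1 durContactN noCorner contact1 ⟨false, 1590, 297000, 278000, 1000000, 0, 0⟩ = true := by
  refine Fast.checkW_of (fun _ => rfl) ?_
  iterate 4 all_goals try first | apply Fast.splitC_ok | apply Fast.splitM_ok | apply Fast.splitT_ok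
  all_goals decide +kernel

theorem contact2_ok : checkW bin2 durContactN noCorner contact2 ⟨false, 1590, 311000, 297000, 1000000, 0, 0⟩ = true := by
  refine Fast.checkW_of (fun _ => rfl) ?_
  iterate 4 all_goals try first | apply Fast.splitC_ok | apply Fast.splitM_ok | apply Fast.splitT_ok
  all_goals decide +kernel

theorem contact3_ok : checkW bin3 durContactN noCorner contact3 ⟨false, 1590, 318309, 311000, 1000000, 0, 0⟩ = true := by
  refine Fast.checkW_of (fun _ => rfl) ?_
  iterate 4 all_goals try first | apply Fast.splitC_ok | apply Fast.splitM_ok | apply Fast.splitT_ok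
  all_goals decide +kernel

theorem contact4_ok : checkW bin4 durContactN noCorner contact4 ⟨false, 1590, 368000, 318309, 1000000, 0, 0⟩ = true := by
  refine Fast.checkW_of (fun _ => rfl) ?_
  iterate 4 all_goals try first | apply Fast.splitC_ok | apply Fast.splitM_ok | apply Fast.splitT_ok
  all_goals decide +kernel

theorem small0_ok : checkW bin0 durFreeN noCorner small0 ⟨false, 1590, 40500, 259000, 1000000, 0, 0⟩ = true := by
  refine Fast.checkW_of (fun _ => rfl) ?_
  iterate 4 all_goals try first | apply Fast.splitC_ok | apply Fast.splitM_ok | apply Fast.splitT_ok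
  all_goals decide +kernel

theorem small1_ok : checkW bin1 durFreeN noCorner small1 ⟨false, 1590, 40500, 278000, 1000000, 0, 0⟩ = true := by
  refine Fast.checkW_of (fun _ => rfl) ?_
  iterate 4 all_goals try first | apply Fast.splitC_ok | apply Fast.splitM_ok | apply Fast.splitT_ok
  all_goals decide +kernel

theorem small2_ok : checkW bin2 durFreeN noCorner small2 ⟨false, 1590, 40500, 297000, 1000000, 0, 0⟩ = true := by
  refine Fast.checkW_of (fun _ => rfl) ?_
  iterate 4 all_goals try first | apply Fast.splitC_ok | apply Fast.splitM_ok | apply Fast.splitT_ok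
  all_goals decide +kernel

theorem small3_ok : checkW bin3 durFreeN noCorner small3 ⟨false, 1590, 40500, 311000, 1000000, 0, 0⟩ = true := by
  refine Fast.checkW_of (fun _ => rfl) ?_
  iterate 4 all_goals try first | apply Fast.splitC_ok | apply Fast.splitM_ok | apply Fast.splitT_ok
  all_goals decide +kernel

theorem small4_ok : checkW bin4 durFreeN noCorner small4 ⟨false, 1590, 40500, 318309, 1000000, 0, 0⟩ = true := by
  refine Fast.checkW_of (fun _ => rfl) ?_
  iterate 4 all_goals try first | apply Fast.splitC_ok | apply Fast.splitM_ok | apply Fast.splitT_ok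
  all_goals decide +kernel

end Vale.Agent.P232.Win
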