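import Vale.Agent.P232.Win.Calib

/-!
# P232: a calibration along the slices of a half period
-/

noncomputable section

open MeasureTheory Filter Topology Set

namespace Vale.Agent.P232.Win

variable {a a' G e : ℝ → ℝ} {ok : Fin 3 → ℝ → ℝ → Prop} {c m : ℝ}

/-- One kind on one interval. -/
theorem core_piece (K : Calib ok c m) (k : Fin 3) (hd : ∀ z, HasDerivAt a (a' z) z)
    (hc : Continuous a') {x y : ℝ} (hxy : x ≤ y) (hmem : ∀ z ∈ Icc x y, a z ∈ Icc c m)
    (ha1 : ∀ z ∈ Icc x y, |a z| ≤ 1) {B : Set ℝ} (hB : MeasurableSet B) (hG : Continuous G)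
    (he : Continuous e) (he0 : ∀ z, 0 ≤ e z) (hvar : ∀ z ∈ Icc x y, |a' z| ≤ G z)
    (hgood : ∀ z ∈ Ioo x y, z ∉ B → ∀ L s t : ℝ, 0 ≤ s → 0 ≤ t → s ^ 2 + t ^ 2 ≤ 1 →
      ok k (a z) L → s * (2 * L) + t * |a' z| ≤ G z + e z) :
    2 * K.α k * (y - x) + 2 * K.β * (∫ z in x..y, a z) + ∫ s in a y..a x, K.w k s ≤
      (∫ z in x..y, G z) + (∫ z in x..y, e z) + 80 * volume.real (B ∩ Icc x y) := by
  have hac : Continuous a := continuous_iff_continuousAt.2 fun z => (hd z).continuousAt
  have hwc : Continuous fun z => K.w k (a z) * a' z := ((K.cont k).comp hac).mul hc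
  have hsub : ∫ z in x..y, K.w k (a z) * a' z = ∫ s in a x..a y, K.w k s :=
    intervalIntegral.integral_comp_mul_deriv (fun z _ => hd z) hc.continuousOn (K.cont k)
  rw [intervalIntegral.integral_symm (a x) (a y), ← hsub]
  set χ : ℝ → ℝ := B.indicator fun _ => 1 with hχ
  have hχi : IntervalIntegrable χ volume x y :=
    ⟨(integrableOn_const (by simp)).indicator hB, (integrableOn_const (by simp)).indicator hB⟩
  have hχint : ∫ z in x..y, χ z ≤ volume.real (B ∩ Icc x y) := by
    rw [intervalIntegral.integral_of_le hxy, hχ, setIntegral_indicator hB, setIntegral_const,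
      smul_eq_mul, mul_one, inter_comm]
    exact measureReal_mono (inter_subset_inter_right _ Ioc_subset_Icc_self)
      (ne_top_of_le_ne_top (by simp) (measure_mono inter_subset_right))
  have hpt : ∀ z ∈ Icc x y, z ≠ x → z ≠ y →
      2 * K.α k + 2 * K.β * a z + -(K.w k (a z) * a' z) ≤ G z + e z + 80 * χ z := by
    intro z hz hzx hzy
    have hw := K.mem k (a z)
    have hlow : -(K.w k (a z) * a' z) ≤ K.w k (a z) * |a' z| := by
      rw [← mul_neg]; exact mul_le_mul_of_nonneg_left (neg_le_abs _) hw.1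
    by_cases hzB : z ∈ B
    · rw [hχ, indicator_of_mem hzB, mul_one]
      have h1 := (mul_le_of_le_one_left (abs_nonneg _) hw.2).trans (hvar z hz)
      have h2 := abs_le.1 (K.alpha_le k)
      have h3 : |K.β * a z| ≤ 20 := by
        rw [abs_mul]
        exact (mul_le_mul K.beta_le (ha1 z hz) (abs_nonneg _) (by norm_num)).trans (by norm_num)
      rw [abs_le] at h3
      linarith [he0 z]
    · rw [hχ, indicator_of_notMem hzB, mul_zero, add_zero]
      obtain ⟨L, hL, hx⟩ := K.valid k (a z) (hmem z hz)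
      have hs2 : Real.sqrt (1 - K.w k (a z) ^ 2) ^ 2 = 1 - K.w k (a z) ^ 2 :=
        Real.sq_sqrt (by nlinarith [hw.1, hw.2])
      have h := hgood z ⟨lt_of_le_of_ne hz.1 (Ne.symm hzx), lt_of_le_of_ne hz.2 hzy⟩ hzB L _ _
        (Real.sqrt_nonneg _) hw.1 (by rw [hs2]; linarith) hL
      linarith [le_max_left (K.α k + K.β * a z) 0]
  have hl : Continuous fun z => 2 * K.α k + 2 * K.β * a z + -(K.w k (a z) * a' z) := by fun_prop
  have hr : IntervalIntegrable (fun z => G z + e z + 80 * χ z) volume x y :=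
    ((hG.add he).intervalIntegrable x y).add (hχi.const_mul 80)
  have hmono : ∫ z in x..y, (2 * K.α k + 2 * K.β * a z + -(K.w k (a z) * a' z)) ≤
      ∫ z in x..y, (G z + e z + 80 * χ z) := by
    refine intervalIntegral.integral_mono_ae_restrict hxy (hl.intervalIntegrable x y) hr ?_
    have hne : ∀ᵐ z : ℝ, z ≠ x ∧ z ≠ y := (ae_iff.2 (by simp)).and (ae_iff.2 (by simp))
    filter_upwards [ae_restrict_of_ae (s := Icc x y) hne, ae_restrict_mem measurableSet_Icc]
      with z hz hzI using hpt z hzI hz.1 hz.2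
  rw [intervalIntegral.integral_add (f := fun z => 2 * K.α k + 2 * K.β * a z)
      (g := fun z => -(K.w k (a z) * a' z))
      ((by fun_prop : Continuous _).intervalIntegrable _ _) (hwc.neg.intervalIntegrable _ _),
    intervalIntegral.integral_add (f := fun _ => 2 * K.α k) (g := fun z => 2 * K.β * a z)
      intervalIntegrable_const ((hac.const_mul _).intervalIntegrable _ _),
    intervalIntegral.integral_const, intervalIntegral.integral_const_mul,
    intervalIntegral.integral_neg, intervalIntegral.integral_add (f := fun z => G z + e z)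
      (g := fun z => 80 * χ z) ((hG.add he).intervalIntegrable x y) (hχi.const_mul 80),
    intervalIntegral.integral_add (hG.intervalIntegrable x y) (he.intervalIntegrable x y),
    intervalIntegral.integral_const_mul, smul_eq_mul] at hmono
  linarith [mul_le_mul_of_nonneg_left hχint (by norm_num : (0 : ℝ) ≤ 80)]

/-- The calibration on the half period, the kinds changing at `p` and at `r`. -/
theorem core_half (K : Calib ok (a (1 / 2)) (a 0)) (hd : ∀ z, HasDerivAt a (a' z) z)
    (hc : Continuous a') (hanti : AntitoneOn a (Icc 0 (1 / 2)))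
    (ha1 : ∀ z, a z ∈ Icc (0 : ℝ) 1) {v : ℝ} (hint : ∫ z in (0 : ℝ)..1 / 2, a z = v / 2)
    {p r : ℝ} (hp : 0 ≤ p) (hpr : p ≤ r) (hr : r ≤ 1 / 2) {B : Set ℝ} (hB : MeasurableSet B)
    (hG : Continuous G) (he : Continuous e) (he0 : ∀ z, 0 ≤ e z)
    (hvar : ∀ z ∈ Icc (0 : ℝ) (1 / 2), |a' z| ≤ G z)
    (hgood : ∀ k : Fin 3, ∀ z ∈ Ioo (0 : ℝ) (1 / 2), z ∉ B →
      (k = 2 → z < p) → (k = 1 → p < z ∧ z < r) → (k = 0 → r < z) →
      ∀ L s t : ℝ, 0 ≤ s → 0 ≤ t → s ^ 2 + t ^ 2 ≤ 1 →
      ok k (a z) L → s * (2 * L) + t * |a' z| ≤ G z + e z) :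
    K.value v (2 * r) (2 * p) (a r) (a p) ≤
      (∫ z in (0 : ℝ)..1 / 2, G z) + (∫ z in (0 : ℝ)..1 / 2, e z) +
        80 * (3 * volume.real (B ∩ Icc 0 (1 / 2))) := by
  have hmem : ∀ z ∈ Icc (0 : ℝ) (1 / 2), a z ∈ Icc (a (1 / 2)) (a 0) := fun z hz =>
    ⟨hanti hz ⟨by norm_num, le_rfl⟩ hz.2, hanti ⟨le_rfl, by norm_num⟩ hz hz.1⟩
  have hab : ∀ z, |a z| ≤ 1 := fun z => abs_le.2 ⟨by linarith [(ha1 z).1], (ha1 z).2⟩
  have piece : ∀ k : Fin 3, ∀ x y : ℝ, 0 ≤ x → x ≤ y → y ≤ 1 / 2 →
      (∀ z ∈ Ioo x y, (k = 2 → z < p) ∧ (k = 1 → p < z ∧ z < r) ∧ (k = 0 → r < z)) →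
      2 * K.α k * (y - x) + 2 * K.β * (∫ z in x..y, a z) + ∫ s in a y..a x, K.w k s ≤
        (∫ z in x..y, G z) + (∫ z in x..y, e z) + 80 * volume.real (B ∩ Icc 0 (1 / 2)) := by
    intro k x y hx hxy hy hk
    have hsub : Icc x y ⊆ Icc (0 : ℝ) (1 / 2) := Icc_subset_Icc hx hy
    refine (core_piece K k hd hc hxy (fun z hz => hmem z (hsub hz)) (fun z _ => hab z) hB hG he he0
      (fun z hz => hvar z (hsub hz)) fun z hz hzB => hgood k z ⟨by linarith [hz.1], by linarith [hz.2]⟩
        hzB (hk z hz).1 (hk z hz).2.1 (hk z hz).2.2).trans ?_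
    have : volume.real (B ∩ Icc x y) ≤ volume.real (B ∩ Icc (0 : ℝ) (1 / 2)) :=
      measureReal_mono (inter_subset_inter_right _ hsub)
        (ne_top_of_le_ne_top (by simp) (measure_mono inter_subset_right))
    linarith
  have h2 := piece 2 0 p le_rfl hp (hpr.trans hr)
    fun z hz => ⟨fun _ => hz.2, by simp, by simp⟩
  have h1 := piece 1 p r hp hpr hr fun z hz => ⟨by simp, fun _ => hz, by simp⟩
  have h0 := piece 0 r (1 / 2) (hp.trans hpr) hr le_rfl
    fun z hz => ⟨by simp, by simp, fun _ => hz.1⟩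
  have hac : Continuous a := continuous_iff_continuousAt.2 fun z => (hd z).continuousAt
  have split : ∀ f : ℝ → ℝ, Continuous f → (∫ z in (0 : ℝ)..p, f z) + (∫ z in p..r, f z) +
      (∫ z in r..1 / 2, f z) = ∫ z in (0 : ℝ)..1 / 2, f z := fun f hf => by
    rw [intervalIntegral.integral_add_adjacent_intervals (hf.intervalIntegrable _ _)
      (hf.intervalIntegrable _ _), intervalIntegral.integral_add_adjacent_intervals
      (hf.intervalIntegrable _ _) (hf.intervalIntegrable _ _)]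
  have sa := split a hac
  have sG := split G hG
  have se := split e he
  rw [hint] at sa
  have sa' : 2 * K.β * (∫ z in (0 : ℝ)..p, a z) + 2 * K.β * (∫ z in p..r, a z) +
      2 * K.β * (∫ z in r..1 / 2, a z) = K.β * v := by
    rw [← mul_add, ← mul_add, sa]; ring
  unfold Calib.value
  linarith

end Vale.Agent.P232.Win
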