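import Vale.Agent.P232.Win.AxisBound

/-!
# P232: the middle line of a slice is nearly two-valued at most heights
-/

noncomputable section

open MeasureTheory Filter Topology Set Function

namespace Vale.Agent.P232.Win

open Planar

variable {u : (Fin 3 → ℝ) → ℝ} {i j k : Fin 3}

/-- The length on which the middle line lies between the two values. -/
def lineMid (u : (Fin 3 → ℝ) → ℝ) (i j k : Fin 3) (z : ℝ) : ℝ :=
  volume.real {t ∈ Ico (0 : ℝ) 1 | frame u i j k z ![1 / 2, t] ∈ Ioo (0 : ℝ) 1}

/-- The heights at which the middle line is not nearly two-valued. -/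
def lineBad (u : (Fin 3 → ℝ) → ℝ) (i j k : Fin 3) (η : ℝ) : Set ℝ :=
  {z ∈ Icc (0 : ℝ) (1 / 2) | Real.sqrt η < lineMid u i j k z}

theorem volume_preserving_pair :
    MeasurePreserving (fun q : ℝ × ℝ => (![q.1, q.2] : Fin 2 → ℝ)) volume volume := by
  have h := (volume_preserving_piFinTwo fun _ : Fin 2 => ℝ).symm
  convert h using 1
  funext q l
  fin_cases l <;> rfl

theorem volume_preserving_pair_swap :
    MeasurePreserving (fun q : ℝ × ℝ => (![q.2, q.1] : Fin 2 → ℝ)) volume volume :=
  volume_preserving_pair.comp Measure.measurePreserving_swap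

/-- The bad heights are few. -/
theorem lineBad_small (hu : Adm u) (hij : i ≠ j) (hik : i ≠ k) (hjk : j ≠ k) {η : ℝ} (hη : 0 < η)
    (hface : volume.real {y ∈ box 2 | slice u j (1 / 2) y ∈ Ioo (0 : ℝ) 1} ≤ η) :
    MeasurableSet (lineBad u i j k η) ∧
      volume.real (lineBad u i j k η ∩ Icc 0 (1 / 2)) ≤ Real.sqrt η := by
  set S : Set (Fin 2 → ℝ) := {y ∈ box 2 | slice u j (1 / 2) y ∈ Ioo (0 : ℝ) 1} with hS
  have hSm : MeasurableSet S := measurableSet_box.inter
    ((hu.slice j (1 / 2)).smooth.continuous.measurable measurableSet_Ioo)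
  have hsub : S ⊆ box 2 := fun y hy => hy.1
  have hbox : volume (box 2) ≠ ⊤ := fun h => by
    have := volume_box (n := 2)
    rw [measureReal_def, h] at this
    simp at this
  have hSle : volume S ≤ ENNReal.ofReal η := by
    rw [← ENNReal.ofReal_toReal (ne_top_of_le_ne_top hbox (measure_mono hsub))]
    exact ENNReal.ofReal_le_ofReal hface
  -- the face as a set of pairs
  obtain ⟨F, hFm, hFle, hFsec⟩ : ∃ F : Set (ℝ × ℝ), MeasurableSet F ∧
      volume F ≤ ENNReal.ofReal η ∧ ∀ z ∈ Ico (0 : ℝ) 1, Prod.mk z ⁻¹' F =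
        {t ∈ Ico (0 : ℝ) 1 | frame u i j k z ![1 / 2, t] ∈ Ioo (0 : ℝ) 1} := by
    have hbx : ∀ a b : ℝ, (![a, b] : Fin 2 → ℝ) ∈ box 2 ↔ a ∈ Ico (0 : ℝ) 1 ∧ b ∈ Ico (0 : ℝ) 1 := by
      intro a b; simp [box, Fin.forall_fin_two]
    rcases frame_cases (u := u) hij.symm hjk hik with h | h
    · refine ⟨(fun q : ℝ × ℝ => (![q.1, q.2] : Fin 2 → ℝ)) ⁻¹' S,
        volume_preserving_pair.measurable hSm,
        (volume_preserving_pair.measure_preimage hSm.nullMeasurableSet).trans_le hSle,
        fun z hz => ?_⟩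
      ext t
      simp only [mem_preimage, hS, mem_ofPred_eq, hbx, hz, true_and, frame_line hij, h]
    · refine ⟨(fun q : ℝ × ℝ => (![q.2, q.1] : Fin 2 → ℝ)) ⁻¹' S,
        volume_preserving_pair_swap.measurable hSm,
        (volume_preserving_pair_swap.measure_preimage hSm.nullMeasurableSet).trans_le hSle,
        fun z hz => ?_⟩
      ext t
      simp only [mem_preimage, hS, mem_ofPred_eq, hbx, hz, and_true, frame_line hij, h, flip2_pair]
  set f : ℝ → ENNReal := fun z => volume (Prod.mk z ⁻¹' F) with hf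
  have hfm : Measurable f := measurable_measure_prodMk_left hFm
  have hlint : ∫⁻ z, f z ≤ ENNReal.ofReal η := by
    rw [hf, ← Measure.prod_apply hFm, ← Measure.volume_eq_prod]
    exact hFle
  have hmem : ∀ z ∈ Icc (0 : ℝ) (1 / 2), z ∈ Ico (0 : ℝ) 1 := fun z hz =>
    ⟨hz.1, by linarith [hz.2]⟩
  have hset : lineBad u i j k η =
      Icc (0 : ℝ) (1 / 2) ∩ {z | ENNReal.ofReal (Real.sqrt η) < f z} := by
    ext z
    simp only [lineBad, mem_ofPred_eq, mem_inter_iff]
    refine and_congr_right fun hz => ?_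
    have hfin : volume (Prod.mk z ⁻¹' F) ≠ ⊤ := by
      rw [hFsec z (hmem z hz)]
      exact ne_top_of_le_ne_top (by simp) (measure_mono fun t ht => (ht.1 : t ∈ Ico (0 : ℝ) 1))
    show Real.sqrt η < lineMid u i j k z ↔ ENNReal.ofReal (Real.sqrt η) < volume (Prod.mk z ⁻¹' F)
    rw [ENNReal.ofReal_lt_iff_lt_toReal (Real.sqrt_nonneg _) hfin, lineMid, measureReal_def,
      hFsec z (hmem z hz)]
  refine ⟨hset ▸ measurableSet_Icc.inter (measurableSet_lt measurable_const hfm), ?_⟩
  have hmark : ENNReal.ofReal (Real.sqrt η) * volume {z | ENNReal.ofReal (Real.sqrt η) ≤ f z} ≤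
      ENNReal.ofReal η :=
    (mul_meas_ge_le_lintegral₀ hfm.aemeasurable _).trans hlint
  have hsq : 0 < Real.sqrt η := Real.sqrt_pos.2 hη
  have hv : volume {z | ENNReal.ofReal (Real.sqrt η) ≤ f z} ≤ ENNReal.ofReal (Real.sqrt η) := by
    by_contra hlt
    push Not at hlt
    have h1 := ENNReal.mul_lt_mul_right (a := ENNReal.ofReal (Real.sqrt η))
      (by simpa using hsq) ENNReal.ofReal_ne_top hlt
    have h2 := h1.trans_le hmark
    rw [← ENNReal.ofReal_mul hsq.le, Real.mul_self_sqrt hη.le] at h2
    exact lt_irrefl _ h2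
  refine ENNReal.toReal_le_of_le_ofReal hsq.le (le_trans (measure_mono ?_) hv)
  intro z hz
  rw [hset] at hz
  exact (show ENNReal.ofReal (Real.sqrt η) < f z from hz.1.2).le

/-- The contact is at most the length of the full part and the middle part. -/
theorem contact_le_full {w : (Fin 2 → ℝ) → ℝ} (hw : Adm w) :
    contact w ≤ volume.real {t ∈ Ico (0 : ℝ) 1 | w ![1 / 2, t] = 1} +
      volume.real {t ∈ Ico (0 : ℝ) 1 | w ![1 / 2, t] ∈ Ioo (0 : ℝ) 1} := by
  set g : ℝ → ℝ := fun t => w ![1 / 2, t] with hg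
  have hgc : Continuous g :=
    hw.smooth.continuous.comp (by fun_prop : Continuous fun t : ℝ => ![1 / 2, t])
  set A : Set ℝ := {t ∈ Ico (0 : ℝ) 1 | g t = 1} with hA
  set M : Set ℝ := {t ∈ Ico (0 : ℝ) 1 | g t ∈ Ioo (0 : ℝ) 1} with hM
  have hAm : MeasurableSet A := measurableSet_Ico.inter (hgc.measurable (measurableSet_singleton 1))
  have hMm : MeasurableSet M := measurableSet_Ico.inter (hgc.measurable measurableSet_Ioo)
  have iA : IntegrableOn (A.indicator fun _ => (1 : ℝ)) (Ico (0 : ℝ) 1) :=
    (integrableOn_const (by simp)).indicator hAm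
  have iM : IntegrableOn (M.indicator fun _ => (1 : ℝ)) (Ico (0 : ℝ) 1) :=
    (integrableOn_const (by simp)).indicator hMm
  rw [contact, intervalIntegral.integral_of_le zero_le_one, ← integral_Ico_eq_integral_Ioc]
  refine (setIntegral_mono_on (hgc.integrableOn_Icc.mono_set Ico_subset_Icc_self)
    (iA.add iM) measurableSet_Ico fun t ht => ?_).trans_eq ?_
  · simp only [Pi.add_apply]
    have h01 := hw.mem ![1 / 2, t]
    rcases eq_or_lt_of_le h01.2 with h | h
    · rw [indicator_of_mem (show t ∈ A from ⟨ht, h⟩)]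
      exact h01.2.trans (le_add_of_nonneg_right (indicator_nonneg (fun _ _ => zero_le_one) _))
    rcases eq_or_lt_of_le h01.1 with h0 | h0
    · rw [show g t = 0 from h0.symm]
      exact add_nonneg (indicator_nonneg (fun _ _ => zero_le_one) _)
        (indicator_nonneg (fun _ _ => zero_le_one) _)
    · rw [indicator_of_mem (show t ∈ M from ⟨ht, h0, h⟩)]
      exact h01.2.trans (le_add_of_nonneg_left (indicator_nonneg (fun _ _ => zero_le_one) _))
  · rw [Pi.add_def, integral_add iA iM, setIntegral_indicator hAm, setIntegral_indicator hMm,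
      inter_eq_right.2 (show A ⊆ Ico 0 1 from fun t ht => ht.1),
      inter_eq_right.2 (show M ⊆ Ico 0 1 from fun t ht => ht.1)]
    simp [hA, hM, hg]

/-- Area above the full part of a middle line and the contact on the other axis. -/
theorem full_area_le {w : (Fin 2 → ℝ) → ℝ} (hw : Adm w) (hs : Sym w) {θ : ℝ}
    (hθ : θ ≤ volume.real {t ∈ Ico (0 : ℝ) 1 | w ![1 / 2, t] = 1}) :
    θ + (1 - θ) * ∫ s in (0 : ℝ)..1, w ![s, 1 / 2] ≤ mean w := by
  have hc := hw.smooth.continuous
  set h := ∫ s in (0 : ℝ)..1, w ![s, 1 / 2] with hh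
  set A : Set ℝ := {t ∈ Ico (0 : ℝ) 1 | w ![1 / 2, t] = 1} with hA
  have hAm : MeasurableSet A := measurableSet_Ico.inter
    ((hc.comp (by fun_prop : Continuous fun t : ℝ => ![1 / 2, t])).measurable
      (measurableSet_singleton 1))
  have hls : ∀ t, Continuous fun s : ℝ => w ![s, t] := fun t =>
    hc.comp (by fun_prop)
  have hh1 : h ≤ 1 :=
    (intervalIntegral.integral_mono_on zero_le_one ((hls _).intervalIntegrable _ _)
      intervalIntegrable_const fun s _ => (hw.mem _).2).trans_eq (by simp)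
  have hpt : ∀ t, h + (1 - h) * A.indicator (fun _ => (1 : ℝ)) t ≤
      ∫ s in (0 : ℝ)..1, w ![s, t] := by
    intro t
    by_cases ht : t ∈ A
    · rw [indicator_of_mem ht]
      refine le_trans (le_of_eq (by simp : h + (1 - h) * 1 = ∫ _ in (0 : ℝ)..1, (1 : ℝ))) ?_
      refine intervalIntegral.integral_mono_on zero_le_one intervalIntegrable_const
        ((hls t).intervalIntegrable _ _) fun s _ => ?_
      rw [← ht.2]
      exact ((line_left hw hs t).bounds s).1
    · rw [indicator_of_notMem ht, mul_zero, add_zero]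
      exact intervalIntegral.integral_mono_on zero_le_one ((hls _).intervalIntegrable _ _)
        ((hls t).intervalIntegrable _ _) fun s _ => ((line_right hw hs s).bounds t).1
  have hi : IntervalIntegrable (fun t => (1 - h) * A.indicator (fun _ => (1 : ℝ)) t) volume 0 1 :=
    IntervalIntegrable.const_mul
      ⟨(integrableOn_const (by simp)).indicator hAm, (integrableOn_const (by simp)).indicator hAm⟩ _
  have hint : h + (1 - h) * volume.real A ≤ mean w := by
    rw [mean, integral_square_swap hc]
    refine le_trans (le_of_eq ?_) (intervalIntegral.integral_mono_on zero_le_one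
      (intervalIntegrable_const.add hi) ((continuous_line_int_swap hc).intervalIntegrable _ _)
      fun t _ => hpt t)
    rw [intervalIntegral.integral_add intervalIntegrable_const hi,
      intervalIntegral.integral_const_mul, intervalIntegral.integral_of_le zero_le_one,
      intervalIntegral.integral_of_le zero_le_one, ← integral_Ico_eq_integral_Ioc,
      ← integral_Ico_eq_integral_Ioc, setIntegral_indicator hAm,
      inter_eq_right.2 (show A ⊆ Ico 0 1 from fun t ht => ht.1)]
    simp
  nlinarith [mul_le_mul_of_nonneg_left hθ (sub_nonneg.2 hh1)]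

end Vale.Agent.P232.Win
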