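import Vale.Agent.P232.Win.Calib

/-!
# P232: broken lines and the cheapest switching between three of them
-/

noncomputable section

open MeasureTheory Set

namespace Vale.Agent.P232.Win

/-- The broken line through the nodes, constant beyond them. -/
def poly : List (ℝ × ℝ) → ℝ → ℝ
  | [] => fun _ => 0
  | [(_, W)] => fun _ => W
  | (X, W) :: (Y, V) :: r => fun a =>
      if a ≤ Y then (if a ≤ X then W else W + (V - W) * ((a - X) / (Y - X)))
      else poly ((Y, V) :: r) a

/-- The nodes increase. -/
def Incr : List (ℝ × ℝ) → Prop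
  | [] => True
  | [_] => True
  | (X, _) :: (Y, V) :: r => X < Y ∧ Incr ((Y, V) :: r)

theorem poly_head : ∀ {r : List (ℝ × ℝ)} {Y V : ℝ}, Incr ((Y, V) :: r) → poly ((Y, V) :: r) Y = V
  | [], _, _, _ => rfl
  | (Z, U) :: r, Y, V, h => by simp [poly, h.1.le]

theorem poly_cell {r : List (ℝ × ℝ)} {X W Y V a : ℝ} (hX : X ≤ a) (hY : a ≤ Y) :
    poly ((X, W) :: (Y, V) :: r) a = W + (V - W) * ((a - X) / (Y - X)) := by
  simp only [poly, if_pos hY]
  split_ifs with h
  · obtain rfl : a = X := le_antisymm h hX
    simp
  · rfl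

theorem poly_tail {r : List (ℝ × ℝ)} {X W Y V a : ℝ} (hi : Incr ((X, W) :: (Y, V) :: r))
    (hY : Y ≤ a) : poly ((X, W) :: (Y, V) :: r) a = poly ((Y, V) :: r) a := by
  rcases hY.eq_or_lt with rfl | h
  · rw [poly_cell hi.1.le le_rfl, poly_head hi.2, div_self (by linarith [hi.1])]
    ring
  · simp [poly, not_le.2 h]

theorem continuous_poly : ∀ {l : List (ℝ × ℝ)}, Incr l → Continuous (poly l)
  | [], _ => continuous_const
  | [(_, _)], _ => continuous_const
  | (X, W) :: (Y, V) :: r, h => by
    have h1 : Continuous fun a => if a ≤ X then W else W + (V - W) * ((a - X) / (Y - X)) := by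
      refine Continuous.if_le continuous_const (by fun_prop) continuous_id continuous_const ?_
      rintro x rfl
      simp
    refine Continuous.if_le h1 (continuous_poly h.2) continuous_id continuous_const ?_
    rintro x rfl
    rw [poly_head h.2, if_neg (not_le.2 h.1), div_self (by linarith [h.1])]
    ring

theorem poly_mem : ∀ {l : List (ℝ × ℝ)}, Incr l → (∀ p ∈ l, p.2 ∈ Icc (0 : ℝ) 1) →
    ∀ a, poly l a ∈ Icc (0 : ℝ) 1
  | [], _, _, _ => ⟨le_rfl, zero_le_one⟩
  | [(_, _)], _, hw, _ => hw _ (List.mem_singleton.2 rfl)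
  | (X, W) :: (Y, V) :: r, h, hw, a => by
    have hW := hw (X, W) List.mem_cons_self
    have hV := hw (Y, V) (List.mem_cons_of_mem _ List.mem_cons_self)
    simp only [poly]
    split_ifs with h1 h2
    · exact hW
    · set t := (a - X) / (Y - X)
      have ht : 0 ≤ t := div_nonneg (by linarith) (by linarith [h.1])
      have ht1 : t ≤ 1 := (div_le_one (by linarith [h.1])).2 (by linarith)
      constructor
      · nlinarith [hW.1, hV.1]
      · nlinarith [hW.2, hV.2]
    · exact poly_mem h.2 (fun p hp => hw p (List.mem_cons_of_mem _ hp)) a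

/-- Trapezoid of the least values. -/
def trap (h u v : ℝ) : ℝ := h * ((u + v) / 2)

/-- A function above the least of some affine functions has at least the trapezoid of their least
values. -/
theorem trap_le {X Y u v : ℝ} {g : ℝ → ℝ} (hXY : X ≤ Y) (hg : IntervalIntegrable g volume X Y)
    (h : ∀ a ∈ Icc X Y, u + (v - u) * ((a - X) / (Y - X)) ≤ g a) :
    trap (Y - X) u v ≤ ∫ a in X..Y, g a := by
  rcases hXY.eq_or_lt with rfl | hlt
  · simp [trap]
  have e : (fun a => u + (v - u) * ((a - X) / (Y - X))) =
      fun a => (v - u) / (Y - X) * a + (u - (v - u) / (Y - X) * X) := by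
    funext a; ring
  have hc : Continuous fun a => (v - u) / (Y - X) * a + (u - (v - u) / (Y - X) * X) := by fun_prop
  rw [e] at *
  have key := intervalIntegral.integral_mono_on (μ := volume) hXY (hc.intervalIntegrable _ _) hg
    fun a ha => by
      have := h a ha
      convert this using 1
      ring
  refine le_trans (le_of_eq ?_) key
  rw [intervalIntegral.integral_add (f := fun a => (v - u) / (Y - X) * a)
      (g := fun _ => u - (v - u) / (Y - X) * X)
      (Continuous.intervalIntegrable (by fun_prop) _ _) intervalIntegrable_const,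
    intervalIntegral.integral_const_mul, integral_id, intervalIntegral.integral_const, smul_eq_mul,
    trap]
  have : Y - X ≠ 0 := by linarith
  field_simp
  ring

/-- The switched weight. -/
def switched (w : Fin 3 → ℝ → ℝ) (s₁ s₂ a : ℝ) : ℝ :=
  if a ≤ s₁ then w 0 a else if a ≤ s₂ then w 1 a else w 2 a

theorem intervalIntegrable_switched {w : Fin 3 → ℝ → ℝ} (hw : ∀ k, Continuous (w k))
    (s₁ s₂ x y : ℝ) : IntervalIntegrable (switched w s₁ s₂) volume x y := by
  rw [intervalIntegrable_iff]
  have h : switched w s₁ s₂ = (Iic s₁).piecewise (w 0) ((Iic s₂).piecewise (w 1) (w 2)) := by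
    funext a; simp [switched, Set.piecewise]
  rw [h]
  have hi : ∀ k, IntegrableOn (w k) (uIoc x y) volume := fun k =>
    ((hw k).intervalIntegrable x y).def'
  exact Integrable.piecewise measurableSet_Iic (hi 0).integrableOn
    (Integrable.piecewise measurableSet_Iic (hi 1).integrableOn (hi 2).integrableOn).integrableOn

theorem integral_switched {w : Fin 3 → ℝ → ℝ} (hw : ∀ k, Continuous (w k)) {c m s₁ s₂ : ℝ}
    (h1 : c ≤ s₁) (h2 : s₁ ≤ s₂) (h3 : s₂ ≤ m) :
    ∫ a in c..m, switched w s₁ s₂ a =
      (∫ a in c..s₁, w 0 a) + (∫ a in s₁..s₂, w 1 a) + ∫ a in s₂..m, w 2 a := by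
  have hi := intervalIntegrable_switched hw s₁ s₂
  rw [← intervalIntegral.integral_add_adjacent_intervals (hi c s₂) (hi s₂ m),
    ← intervalIntegral.integral_add_adjacent_intervals (hi c s₁) (hi s₁ s₂)]
  congr 1
  · congr 1
    · refine intervalIntegral.integral_congr_ae (Filter.Eventually.of_forall fun a ha => ?_)
      rw [uIoc_of_le h1] at ha
      simp [switched, ha.2]
    · refine intervalIntegral.integral_congr_ae (Filter.Eventually.of_forall fun a ha => ?_)
      rw [uIoc_of_le h2] at ha
      simp [switched, not_le.2 ha.1, ha.2]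
  · refine intervalIntegral.integral_congr_ae (Filter.Eventually.of_forall fun a ha => ?_)
    rw [uIoc_of_le h3] at ha
    simp [switched, not_le.2 ha.1, not_le.2 (h2.trans_lt ha.1)]

end Vale.Agent.P232.Win
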