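import Vale.Agent.P232.Win.Pins
import Vale.Agent.P232.Boxes

/-!
# P232: symmetrical functions on the square, lines and weighted variations
-/

noncomputable section

open MeasureTheory Filter Topology Set Function

namespace Vale.Agent.P232.Win.Planar

variable {w : (Fin 2 → ℝ) → ℝ}

theorem insert_zero (a b : ℝ) :
    (0 : Fin 2).insertNth (α := fun _ => ℝ) a (fun _ => b) = ![a, b] := by
  funext j; fin_cases j <;> rfl

theorem insert_one (a b : ℝ) :
    (1 : Fin 2).insertNth (α := fun _ => ℝ) b (fun _ => a) = ![a, b] := by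
  funext j; fin_cases j <;> rfl

theorem integral_square {f : (Fin 2 → ℝ) → ℝ} (hf : Continuous f) :
    ∫ x in box 2, f x = ∫ a in (0 : ℝ)..1, ∫ b in (0 : ℝ)..1, f ![a, b] := by
  rw [integral_box_succ hf 0]
  simp only [integral_box_one, insert_zero]

theorem integral_square_swap {f : (Fin 2 → ℝ) → ℝ} (hf : Continuous f) :
    ∫ x in box 2, f x = ∫ b in (0 : ℝ)..1, ∫ a in (0 : ℝ)..1, f ![a, b] := by
  rw [integral_box_succ hf 1]
  simp only [integral_box_one, insert_one]

theorem continuous_line_int {f : (Fin 2 → ℝ) → ℝ} (hf : Continuous f) :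
    Continuous fun a => ∫ b in (0 : ℝ)..1, f ![a, b] :=
  intervalIntegral.continuous_parametric_intervalIntegral_of_continuous' (by fun_prop) 0 1

theorem continuous_line_int_swap {f : (Fin 2 → ℝ) → ℝ} (hf : Continuous f) :
    Continuous fun b => ∫ a in (0 : ℝ)..1, f ![a, b] :=
  intervalIntegral.continuous_parametric_intervalIntegral_of_continuous' (by fun_prop) 0 1

theorem hasDerivAt_left (hw : Adm w) (a b : ℝ) :
    HasDerivAt (fun t => w ![t, b]) (pd w 0 ![a, b]) a := by
  have h := hasDerivAt_insertNth hw.smooth 0 a fun _ => b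
  simpa only [insert_zero] using h

theorem hasDerivAt_right (hw : Adm w) (a b : ℝ) :
    HasDerivAt (fun t => w ![a, t]) (pd w 1 ![a, b]) b := by
  have h := hasDerivAt_insertNth hw.smooth 1 b fun _ => a
  simpa only [insert_one] using h

/-- Periodic, even and decreasing on the half period: the properties of a line. -/
structure Line (g : ℝ → ℝ) : Prop where
  periodic : ∀ t, g (t + 1) = g t
  even : ∀ t, g (-t) = g t
  antitone : AntitoneOn g (Icc 0 (1 / 2))

theorem Line.symm {g : ℝ → ℝ} (hg : Line g) (t : ℝ) : g (1 - t) = g t := by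
  rw [show (1 - t : ℝ) = -t + 1 by ring, hg.periodic, hg.even]

theorem Line.bounds {g : ℝ → ℝ} (hg : Line g) (t : ℝ) : g (1 / 2) ≤ g t ∧ g t ≤ g 0 := by
  have key : ∀ s ∈ Icc (0 : ℝ) (1 / 2), g (1 / 2) ≤ g s ∧ g s ≤ g 0 := fun s hs =>
    ⟨hg.antitone hs ⟨by norm_num, le_rfl⟩ hs.2, hg.antitone ⟨le_rfl, by norm_num⟩ hs hs.1⟩
  obtain ⟨s, hs, hst⟩ := (show Periodic g 1 from hg.periodic).exists_mem_Ico₀ one_pos t
  rw [hst]
  rcases le_or_gt s (1 / 2) with h | h
  · exact key s ⟨hs.1, h⟩
  · rw [← hg.symm s]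
    exact key _ ⟨by linarith [hs.2], by linarith⟩

theorem update_left (t a b : ℝ) : update (![a, b] : Fin 2 → ℝ) 0 t = ![t, b] := by
  funext j; fin_cases j <;> simp

theorem update_right (t a b : ℝ) : update (![a, b] : Fin 2 → ℝ) 1 t = ![a, t] := by
  funext j; fin_cases j <;> simp

theorem line_left (hw : Adm w) (hs : Sym w) (b : ℝ) : Line fun t => w ![t, b] := by
  refine ⟨fun t => ?_, fun t => ?_, ?_⟩
  · rw [← hw.periodic ![t, b] 0]
    congr 1
    funext j; fin_cases j <;> simp
  · have h := hs.even 0 ![t, b]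
    rwa [update_left] at h
  · have h := hs.antitone 0 ![0, b]
    simpa only [update_left] using h

theorem line_right (hw : Adm w) (hs : Sym w) (a : ℝ) : Line fun t => w ![a, t] := by
  refine ⟨fun t => ?_, fun t => ?_, ?_⟩
  · rw [← hw.periodic ![a, t] 1]
    congr 1
    funext j; fin_cases j <;> simp
  · have h := hs.even 1 ![a, t]
    rwa [update_right] at h
  · have h := hs.antitone 1 ![a, 0]
    simpa only [update_right] using h

theorem eq_pair (x : Fin 2 → ℝ) : x = ![x 0, x 1] := by
  funext j; fin_cases j <;> rfl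

/-- A weighted inequality of Cauchy and Schwarz under the gradient. -/
theorem weighted_le_grad (w : (Fin 2 → ℝ) → ℝ) (x : Fin 2 → ℝ) {a b : ℝ}
    (hab : a ^ 2 + b ^ 2 ≤ 1) : a * |pd w 0 x| + b * |pd w 1 x| ≤ grad w x := by
  rw [grad, Fin.sum_univ_two]
  refine Real.le_sqrt_of_sq_le ?_
  nlinarith [sq_nonneg (a * |pd w 1 x| - b * |pd w 0 x|), sq_abs (pd w 0 x), sq_abs (pd w 1 x),
    mul_le_mul_of_nonneg_right hab (add_nonneg (sq_nonneg (pd w 0 x)) (sq_nonneg (pd w 1 x)))]

/-- The energy dominates two weighted families of line variations. -/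
theorem split_energy (hw : Adm w) {a b : (Fin 2 → ℝ) → ℝ} (ha : Continuous a) (hb : Continuous b)
    (hab : ∀ x ∈ box 2, a x ^ 2 + b x ^ 2 ≤ 1) :
    (∫ t in (0 : ℝ)..1, ∫ s in (0 : ℝ)..1, a ![s, t] * |pd w 0 ![s, t]|) +
      (∫ s in (0 : ℝ)..1, ∫ t in (0 : ℝ)..1, b ![s, t] * |pd w 1 ![s, t]|) ≤ energy w := by
  have h0 : Continuous fun x => a x * |pd w 0 x| := ha.mul (continuous_pd hw.smooth 0).abs
  have h1 : Continuous fun x => b x * |pd w 1 x| := hb.mul (continuous_pd hw.smooth 1).abs
  rw [← integral_square_swap h0, ← integral_square h1,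
    ← integral_add (integrableOn_box h0) (integrableOn_box h1)]
  exact setIntegral_box_mono (h0.add h1) (continuous_grad hw.smooth) fun x hx =>
    weighted_le_grad w x (hab x hx)

/-- The unweighted variation of a line. -/
theorem line_variation {g g' : ℝ → ℝ} (hg : Line g) (hd : ∀ z, HasDerivAt g (g' z) z)
    (hc : Continuous g') : 2 * (g 0 - g (1 / 2)) ≤ ∫ z in (0 : ℝ)..1, |g' z| :=
  (mul_le_mul_of_nonneg_left (le_abs_self _) zero_le_two).trans
    (periodic_variation hd hc hg.periodic _ _)

/-- A weighted variation is twice the one on the half period. -/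
theorem line_weighted {g g' A : ℝ → ℝ} (hg : Line g) (hd : ∀ z, HasDerivAt g (g' z) z)
    (hc : Continuous g') (hA : Continuous A) (hA0 : ∀ z ∈ Icc (0 : ℝ) 1, 0 ≤ A z)
    (hAs : ∀ z, A (1 - z) = A z) :
    2 * -(∫ z in (0 : ℝ)..1 / 2, A z * g' z) ≤ ∫ z in (0 : ℝ)..1, A z * |g' z| := by
  have hg' : ∀ z, g' (1 - z) = -g' z := by
    intro z
    have h := (hd (1 - z)).scomp z ((hasDerivAt_id z).const_sub 1)
    replace h : HasDerivAt g ((-1 : ℝ) • g' (1 - z)) z :=
      h.congr_of_eventuallyEq (Eventually.of_forall fun t => (hg.symm t).symm)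
    have := h.unique (hd z)
    simp only [smul_eq_mul, neg_one_mul] at this
    linarith
  have hi : ∀ a b : ℝ, IntervalIntegrable (fun z => A z * |g' z|) volume a b :=
    fun a b => (hA.mul hc.abs).intervalIntegrable a b
  have hsecond : ∫ z in (1 / 2 : ℝ)..1, A z * |g' z| =
      ∫ z in (0 : ℝ)..1 / 2, A z * |g' z| := by
    have h := intervalIntegral.integral_comp_sub_left (a := (0 : ℝ)) (b := 1 / 2)
      (fun z => A z * |g' z|) 1
    norm_num at h
    simp only [hAs, hg', abs_neg] at h
    norm_num at h ⊢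
    linarith
  rw [← intervalIntegral.integral_add_adjacent_intervals (hi 0 (1 / 2)) (hi (1 / 2) 1), hsecond]
  have hle : -(∫ z in (0 : ℝ)..1 / 2, A z * g' z) ≤ ∫ z in (0 : ℝ)..1 / 2, A z * |g' z| := by
    rw [← intervalIntegral.integral_neg]
    refine intervalIntegral.integral_mono_on (by norm_num)
      ((hA.mul hc).neg.intervalIntegrable _ _) (hi _ _) fun z hz => ?_
    rw [← mul_neg]
    exact mul_le_mul_of_nonneg_left (neg_le_abs _) (hA0 z ⟨hz.1, hz.2.trans (by norm_num)⟩)
  linarith

/-- Integration by parts against an affine weight. -/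
theorem affine_parts {g g' : ℝ → ℝ} (hd : ∀ z, HasDerivAt g (g' z) z) (hc : Continuous g')
    (p q a b : ℝ) :
    ∫ z in a..b, (p + q * z) * g' z =
      (p + q * b) * g b - (p + q * a) * g a - q * ∫ z in a..b, g z := by
  have hgc : Continuous g := continuous_iff_continuousAt.2 fun z => (hd z).continuousAt
  have hF : ∀ z, HasDerivAt (fun z => (p + q * z) * g z) (q * g z + (p + q * z) * g' z) z := by
    intro z
    exact ((((hasDerivAt_id z).const_mul q).const_add p).mul (hd z)).congr_deriv (by simp)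
  have h := intervalIntegral.integral_eq_sub_of_hasDerivAt (fun z _ => hF z)
    ((by fun_prop : Continuous fun z => q * g z + (p + q * z) * g' z).intervalIntegrable a b)
  rw [intervalIntegral.integral_add ((hgc.const_mul q).intervalIntegrable _ _)
    ((by fun_prop : Continuous fun z => (p + q * z) * g' z).intervalIntegrable _ _),
    intervalIntegral.integral_const_mul] at h
  linarith

theorem half_integral {g : ℝ → ℝ} (hs : ∀ t, g (1 - t) = g t) (hg : Continuous g) :
    ∫ z in (0 : ℝ)..1, g z = 2 * ∫ z in (0 : ℝ)..1 / 2, g z := by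
  rw [← intervalIntegral.integral_add_adjacent_intervals (b := (1 / 2 : ℝ))
    (hg.intervalIntegrable _ _) (hg.intervalIntegrable _ _)]
  have h := intervalIntegral.integral_comp_sub_left (a := (0 : ℝ)) (b := 1 / 2) g 1
  simp only [hs] at h
  norm_num at h ⊢
  linarith

theorem arc_integral {H : ℝ} (hH : 0 < H) (hH1 : H ≤ 1) :
    ∫ t in (0 : ℝ)..1, Real.sqrt (1 - (t / H) ^ 2) = Real.pi * H / 4 := by
  set f := fun u : ℝ => Real.sqrt (1 - u ^ 2) with hf
  have hc : Continuous f := by rw [hf]; fun_prop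
  have hq : ∫ u in (0 : ℝ)..1, f u = Real.pi / 4 := by
    have h : ∫ u in (-1 : ℝ)..1, f u = Real.pi / 2 := integral_sqrt_one_sub_sq
    rw [← intervalIntegral.integral_add_adjacent_intervals (b := (0 : ℝ))
      (hc.intervalIntegrable _ _) (hc.intervalIntegrable _ _)] at h
    have h2 := intervalIntegral.integral_comp_neg (a := (0 : ℝ)) (b := 1) f
    simp only [hf, neg_sq, neg_zero] at h h2 ⊢
    linarith
  have hz : ∫ u in (1 : ℝ)..1 / H, f u = 0 := by
    refine (intervalIntegral.integral_congr (g := fun _ => (0 : ℝ)) fun u hu => ?_).trans (by simp)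
    rw [uIcc_of_le ((one_le_div hH).2 hH1)] at hu
    exact Real.sqrt_eq_zero_of_nonpos (by nlinarith [hu.1])
  have h := intervalIntegral.integral_comp_div (a := (0 : ℝ)) (b := 1) f hH.ne'
  rw [zero_div, ← intervalIntegral.integral_add_adjacent_intervals (b := (1 : ℝ))
    (hc.intervalIntegrable _ _) (hc.intervalIntegrable _ _), hz, hq, smul_eq_mul] at h
  simp only [hf] at h ⊢
  linarith

theorem contact_eq (w : (Fin 2 → ℝ) → ℝ) :
    contact w = ∫ t in (0 : ℝ)..1, w ![1 / 2, t] := rfl

end Vale.Agent.P232.Win.Planar
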