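import Vale.Agent.P232.Win.SliceBase
import Vale.Agent.P232.ProfileSquare
import Vale.Agent.P232.Sobolev

/-!
# P232: the four inequalities for symmetrical slices
-/

noncomputable section

open MeasureTheory Filter Topology Set Function

namespace Vale.Agent.P232.Win

open Planar

theorem sobolev_lines {v : (Fin 2 → ℝ) → ℝ} (hv : Adm v) (hS : SobolevPlane)
    (hlines : ∀ k, ∃ c, ∀ x : Fin 2 → ℝ, x k = c → v x = 0) :
    2 * Real.sqrt (Real.pi * mean v) - 2 * err (dfct v) ≤ energy v := by
  have hD := dfct_nonneg hv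
  have hm := mean_mem hv
  have hE := energy_nonneg v
  have hπ : Real.sqrt Real.pi ≤ 9 / 5 := by
    rw [Real.sqrt_le_left (by norm_num)]; linarith [Real.pi_lt_d2]
  have hπ0 := Real.sqrt_nonneg Real.pi
  rw [Real.sqrt_mul Real.pi_pos.le]
  have hsA : Real.sqrt (mean v) ≤ 1 := Real.sqrt_le_one.2 hm.2
  have key : ∀ θ, 0 < θ → dfct v ≤ θ ^ 3 →
      2 * (Real.sqrt Real.pi * Real.sqrt (mean v)) - 20 * θ ≤ energy v := by
    intro θ hθ hDθ
    rcases le_or_gt (1 / 5) θ with hbig | hsmall
    · nlinarith [Real.sqrt_nonneg (mean v)]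
    set e := Square.bandErr θ * dfct v with he
    have he2 : e ≤ (13 / 10 * θ) ^ 2 := by
      rw [he, Square.bandErr, div_mul_eq_mul_div, div_le_iff₀ (by nlinarith)]
      nlinarith [mul_le_mul_of_nonneg_left hDθ (by linarith : (0 : ℝ) ≤ 1 + θ), pow_pos hθ 3]
    have he0 : 0 ≤ e := mul_nonneg (div_nonneg (by linarith) (by nlinarith)) hD
    have hse : Real.sqrt e ≤ 13 / 10 * θ := by
      rw [Real.sqrt_le_left (by positivity)]; exact he2
    set K := Real.sqrt (max 0 (mean v - e)) with hK
    have hK0 : 0 ≤ K := Real.sqrt_nonneg _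
    have hKA : Real.sqrt (mean v) ≤ K + Real.sqrt e := by
      refine (Real.sqrt_le_left (by positivity)).2 ?_
      nlinarith [Real.sq_sqrt (le_max_left 0 (mean v - e)), Real.sq_sqrt he0,
        le_max_right 0 (mean v - e), Real.sqrt_nonneg e]
    have hK1 : K ≤ 1 := Real.sqrt_le_one.2 (max_le zero_le_one (by linarith [hm.2]))
    have hlim : (1 - θ) * (2 * Real.sqrt Real.pi * K) ≤ energy v := by
      refine le_of_forall_pos_le_add fun η hη => ?_
      set ε := η / 100 with hε
      have hε0 : 0 < ε := by positivity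
      have h := Square.planar_band (l := ε) (g := 1 - θ) hS hv hε0 hθ (by linarith) le_rfl
        fun k => by
          obtain ⟨c, hc⟩ := hlines k
          exact ⟨c, fun x hx => by rw [hc x hx]; exact hε0⟩
      have h2 : ∫ x in box 2, Square.bump ε (1 - θ) ε (v x) * grad v x ≤ energy v :=
        setIntegral_box_mono ((Square.continuous_bump.comp hv.smooth.continuous).mul
          (continuous_grad hv.smooth)) (continuous_grad hv.smooth)
          fun x _ => mul_le_of_le_one_left (grad_nonneg v x) Square.bump_le_one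
      have h3 : (1 - θ - 3 * ε) * (2 * Real.sqrt Real.pi * K) ≤
          max 0 (1 - θ - ε - 2 * ε) * (2 * Real.sqrt Real.pi * K) :=
        mul_le_mul_of_nonneg_right (le_trans (by linarith) (le_max_right _ _)) (by positivity)
      have h4 : ε * (Real.sqrt Real.pi * K) ≤ ε * (9 / 5) :=
        mul_le_mul_of_nonneg_left ((mul_le_of_le_one_right hπ0 hK1).trans hπ) hε0.le
      linarith
    have h5 : θ * (Real.sqrt Real.pi * K) ≤ θ * (9 / 5) :=
      mul_le_mul_of_nonneg_left ((mul_le_of_le_one_right hπ0 hK1).trans hπ) hθ.le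
    have h6 := mul_le_mul_of_nonneg_left hKA hπ0
    have h7 : Real.sqrt Real.pi * Real.sqrt e ≤ 9 / 5 * (13 / 10 * θ) :=
      mul_le_mul hπ hse (Real.sqrt_nonneg _) (by norm_num)
    linarith
  refine le_of_forall_pos_le_add fun η hη => ?_
  have h0 : 0 ≤ dfct v ^ (1 / 3 : ℝ) := Real.rpow_nonneg hD _
  have := key (dfct v ^ (1 / 3 : ℝ) + η / 20) (by positivity) (by
    refine le_trans (le_of_eq ?_) (pow_le_pow_left₀ h0 (le_add_of_nonneg_right (by positivity)) 3)
    rw [← Real.rpow_natCast, ← Real.rpow_mul hD]; norm_num)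
  unfold err
  linarith

theorem sliceNone : SliceNone := by
  intro w hw hs h1 h2
  refine sobolev_lines hw sobolevPlane fun k => ⟨1 / 2, fun x hx => ?_⟩
  have hnn := (hw.mem x).1
  rw [eq_pair x] at hnn ⊢
  fin_cases k <;> simp only [Fin.zero_eta, Fin.mk_one] at hx <;> rw [hx] at hnn ⊢
  · exact le_antisymm (((line_right hw hs (1 / 2)).bounds (x 1)).2.trans_eq h1) hnn
  · exact le_antisymm (((line_left hw hs (1 / 2)).bounds (x 0)).2.trans_eq h2) hnn

theorem sliceBoth : SliceBoth := by
  intro w hw hs h1 h2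
  have h := sobolev_lines hw.one_sub sobolevPlane fun k => ⟨0, fun x hx => ?_⟩
  · rwa [mean_one_sub hw, dfct_one_sub, energy_one_sub hw] at h
  have hle := (hw.mem x).2
  rw [eq_pair x] at hle ⊢
  fin_cases k <;> simp only [Fin.zero_eta, Fin.mk_one] at hx <;> rw [hx] at hle ⊢ <;>
    rw [sub_eq_zero] <;> refine le_antisymm ?_ hle
  · exact h2.symm.le.trans ((line_right hw hs 0).bounds (x 1)).1
  · exact h1.symm.le.trans ((line_left hw hs 0).bounds (x 0)).1

theorem mean_le_axis {w : (Fin 2 → ℝ) → ℝ} (hw : Adm w) (hs : Sym w) :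
    mean w ≤ ∫ t in (0 : ℝ)..1, w ![0, t] := by
  have hc := hw.smooth.continuous
  rw [mean, integral_square_swap hc]
  refine intervalIntegral.integral_mono_on zero_le_one
    ((continuous_line_int_swap hc).intervalIntegrable _ _)
    ((hc.comp (by fun_prop)).intervalIntegrable _ _) fun t _ => ?_
  refine (intervalIntegral.integral_mono_on zero_le_one
    ((hc.comp (by fun_prop : Continuous fun s : ℝ => ![s, t])).intervalIntegrable _ _)
    intervalIntegrable_const fun s _ => ((line_left hw hs t).bounds s).2).trans_eq ?_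
  simp

/-- Straight arcs. -/
theorem one_straight {w : (Fin 2 → ℝ) → ℝ} (hw : Adm w) (hs : Sym w) (h1 : w ![1 / 2, 0] = 1)
    (h2 : w ![0, 1 / 2] = 0) {c s : ℝ} (hc : 0 ≤ c) (hs0 : 0 ≤ s) (hcs : c ^ 2 + s ^ 2 ≤ 1) :
    2 * (c + s * (mean w - contact w)) ≤ energy w := by
  have hwc := hw.smooth.continuous
  have hsplit := split_energy hw (a := fun _ => s) (b := fun _ => c) continuous_const
    continuous_const fun _ _ => by linarith
  have hy : ∀ a, 2 ≤ ∫ t in (0 : ℝ)..1, |pd w 1 ![a, t]| := by
    intro a
    have h := line_variation (line_right hw hs a) (hasDerivAt_right hw a)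
      ((continuous_pd hw.smooth 1).comp (by fun_prop))
    have e1 : w ![a, 0] = 1 :=
      le_antisymm (hw.mem _).2 (h1.symm.le.trans ((line_left hw hs 0).bounds a).1)
    have e2 : w ![a, 1 / 2] = 0 :=
      le_antisymm (((line_left hw hs (1 / 2)).bounds a).2.trans_eq h2) (hw.mem _).1
    rw [e1, e2] at h
    linarith
  have hcy : 2 * c ≤ ∫ a in (0 : ℝ)..1, ∫ t in (0 : ℝ)..1, c * |pd w 1 ![a, t]| := by
    refine le_trans (le_of_eq ?_) (intervalIntegral.integral_mono_on zero_le_one
      (intervalIntegrable_const (c := c * 2))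
      ((continuous_line_int (continuous_const.mul (continuous_pd hw.smooth 1).abs)
        ).intervalIntegrable _ _) fun a _ => ?_)
    · rw [intervalIntegral.integral_const]; simp; ring
    · simp only [intervalIntegral.integral_const_mul]
      exact mul_le_mul_of_nonneg_left (hy a) hc
  have hsx : 2 * s * ((∫ t in (0 : ℝ)..1, w ![0, t]) - contact w) ≤
      ∫ t in (0 : ℝ)..1, ∫ a in (0 : ℝ)..1, s * |pd w 0 ![a, t]| := by
    have ca : Continuous fun t => w ![0, t] := hwc.comp (by fun_prop)
    have cb : Continuous fun t => w ![1 / 2, t] := hwc.comp (by fun_prop)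
    refine le_trans (le_of_eq ?_) (intervalIntegral.integral_mono_on zero_le_one
      (f := fun t => 2 * s * (w ![0, t] - w ![1 / 2, t]))
      ((continuous_const.mul (ca.sub cb)).intervalIntegrable _ _)
      ((continuous_line_int_swap (continuous_const.mul (continuous_pd hw.smooth 0).abs)
        ).intervalIntegrable _ _) fun t _ => ?_)
    · rw [contact, intervalIntegral.integral_const_mul,
        intervalIntegral.integral_sub (ca.intervalIntegrable _ _) (cb.intervalIntegrable _ _)]
    · simp only [intervalIntegral.integral_const_mul]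
      have h := line_variation (line_left hw hs t) (fun a => hasDerivAt_left hw a t)
        ((continuous_pd hw.smooth 0).comp (by fun_prop))
      calc 2 * s * (w ![0, t] - w ![1 / 2, t]) = s * (2 * (w ![0, t] - w ![1 / 2, t])) := by ring
        _ ≤ _ := mul_le_mul_of_nonneg_left h hs0
  have := mul_le_mul_of_nonneg_left (mean_le_axis hw hs) hs0
  linarith

/-- Circular arcs. -/
theorem one_arc {w : (Fin 2 → ℝ) → ℝ} (hw : Adm w) (hs : Sym w) (h1 : w ![1 / 2, 0] = 1)
    (h2 : w ![0, 1 / 2] = 0) {R : ℝ} (hR : 1 ≤ R) :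
    2 * ((mean w - contact w) / R + ∫ t in (0 : ℝ)..1, Real.sqrt (1 - (t / R) ^ 2)) ≤
      energy w := by
  have hwc := hw.smooth.continuous
  have hR0 : 0 < R := one_pos.trans_le hR
  set A : ℝ → ℝ := fun z => (1 - |2 * z - 1|) / R with hA
  set B : ℝ → ℝ := fun z => Real.sqrt (1 - A z ^ 2) with hB
  have hAc : Continuous A := by rw [hA]; fun_prop
  have hBc : Continuous B := by rw [hB]; fun_prop
  have hAmem : ∀ z ∈ Icc (0 : ℝ) 1, A z ∈ Icc (0 : ℝ) 1 := fun z hz => by
    have h : |2 * z - 1| ≤ 1 := abs_le.2 ⟨by linarith [hz.1], by linarith [hz.2]⟩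
    exact ⟨div_nonneg (by linarith) hR0.le,
      (div_le_one hR0).2 (by linarith [abs_nonneg (2 * z - 1)])⟩
  have hAs : ∀ z, A (1 - z) = A z := fun z => by
    simp only [hA]
    rw [show 2 * (1 - z) - 1 = -(2 * z - 1) by ring, abs_neg]
  have hAhalf : ∀ z ∈ Icc (0 : ℝ) (1 / 2), A z = 0 + 2 / R * z := fun z hz => by
    simp only [hA]
    rw [abs_of_nonpos (by linarith [hz.2])]
    ring
  have hsplit := split_energy hw (a := fun x => A (x 0)) (b := fun x => B (x 0))
    (hAc.comp (continuous_apply 0)) (hBc.comp (continuous_apply 0)) fun x hx => by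
      have := hAmem (x 0) (Ico_subset_Icc_self (hx 0))
      simp only [hB]
      rw [Real.sq_sqrt (by nlinarith [this.1, this.2])]
      linarith
  simp only [Matrix.cons_val_zero] at hsplit
  have hy : 2 * ∫ t in (0 : ℝ)..1, Real.sqrt (1 - (t / R) ^ 2) ≤
      ∫ a in (0 : ℝ)..1, ∫ t in (0 : ℝ)..1, B a * |pd w 1 ![a, t]| := by
    have hB2 : ∫ z in (0 : ℝ)..1, B z = ∫ t in (0 : ℝ)..1, Real.sqrt (1 - (t / R) ^ 2) := by
      rw [half_integral (fun t => by simp only [hB, hAs]) hBc,
        intervalIntegral.integral_congr (g := fun z => Real.sqrt (1 - (2 * z / R) ^ 2))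
          fun z hz => by
            rw [uIcc_of_le (by norm_num)] at hz
            simp only [hB, hAhalf z hz]
            ring_nf]
      have h := intervalIntegral.integral_comp_mul_left (a := (0 : ℝ)) (b := 1 / 2)
        (fun t => Real.sqrt (1 - (t / R) ^ 2)) (two_ne_zero (α := ℝ))
      rw [h]
      norm_num
      ring
    rw [← hB2, ← intervalIntegral.integral_const_mul]
    have hline : Continuous fun a => ∫ t in (0 : ℝ)..1, B a * |pd w 1 ![a, t]| := by
      have := continuous_line_int
        ((hBc.comp (continuous_apply 0)).mul (continuous_pd hw.smooth 1).abs)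
      simpa using this
    refine intervalIntegral.integral_mono_on zero_le_one
      ((hBc.const_mul 2).intervalIntegrable _ _) (hline.intervalIntegrable _ _) fun a _ => ?_
    rw [intervalIntegral.integral_const_mul, mul_comm]
    refine mul_le_mul_of_nonneg_left ?_ (Real.sqrt_nonneg _)
    have h := line_variation (line_right hw hs a) (hasDerivAt_right hw a)
      ((continuous_pd hw.smooth 1).comp (by fun_prop))
    have e1 : w ![a, 0] = 1 :=
      le_antisymm (hw.mem _).2 (h1.symm.le.trans ((line_left hw hs 0).bounds a).1)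
    have e2 : w ![a, 1 / 2] = 0 :=
      le_antisymm (((line_left hw hs (1 / 2)).bounds a).2.trans_eq h2) (hw.mem _).1
    rw [e1, e2] at h
    linarith
  have hx : 2 * ((mean w - contact w) / R) ≤
      ∫ t in (0 : ℝ)..1, ∫ a in (0 : ℝ)..1, A a * |pd w 0 ![a, t]| := by
    have cm := continuous_line_int_swap hwc
    have cb : Continuous fun t => w ![1 / 2, t] := hwc.comp (by fun_prop)
    have hline : Continuous fun t => ∫ a in (0 : ℝ)..1, A a * |pd w 0 ![a, t]| := by
      have := continuous_line_int_swap
        ((hAc.comp (continuous_apply 0)).mul (continuous_pd hw.smooth 0).abs)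
      simpa using this
    refine le_trans (le_of_eq ?_) (intervalIntegral.integral_mono_on zero_le_one
      (f := fun t => 2 / R * ((∫ a in (0 : ℝ)..1, w ![a, t]) - w ![1 / 2, t]))
      ((continuous_const.mul (cm.sub cb)).intervalIntegrable _ _) (hline.intervalIntegrable _ _)
      fun t _ => ?_)
    · rw [intervalIntegral.integral_const_mul,
        intervalIntegral.integral_sub (cm.intervalIntegrable _ _) (cb.intervalIntegrable _ _),
        ← integral_square_swap hwc, mean, contact]
      ring
    · have hd : ∀ a, HasDerivAt (fun a => w ![a, t]) (pd w 0 ![a, t]) a :=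
        fun a => hasDerivAt_left hw a t
      have hc : Continuous fun a => pd w 0 ![a, t] :=
        (continuous_pd hw.smooth 0).comp (by fun_prop)
      have hL := line_left hw hs t
      refine le_trans (le_of_eq ?_)
        (line_weighted hL hd hc hAc (fun z hz => (hAmem z hz).1) hAs)
      have hcl : Continuous fun a => w ![a, t] := hwc.comp (by fun_prop)
      rw [intervalIntegral.integral_congr (a := (0 : ℝ)) (b := (1 / 2 : ℝ))
        (g := fun z => (0 + 2 / R * z) * pd w 0 ![z, t])
          fun z hz => by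
            rw [uIcc_of_le (by norm_num)] at hz
            simp only [hAhalf z hz],
        affine_parts hd hc, half_integral hL.symm hcl]
      field_simp
      ring
  linarith

theorem sliceOne : SliceOne := fun _ hw hs h1 h2 =>
  ⟨fun _ _ hc hs0 hcs => one_straight hw hs h1 h2 hc hs0 hcs,
    fun _ hR => one_arc hw hs h1 h2 hR⟩

theorem integral_frac {g : ℝ → ℝ} (hg : Continuous g) :
    IntervalIntegrable ({t | g t ∈ Ioo (0 : ℝ) 1}.indicator fun _ => (1 : ℝ)) volume 0 1 ∧
      ∫ t in (0 : ℝ)..1, {t | g t ∈ Ioo (0 : ℝ) 1}.indicator (fun _ => (1 : ℝ)) t =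
        volume.real {t ∈ Ico (0 : ℝ) 1 | g t ∈ Ioo (0 : ℝ) 1} := by
  have hm : MeasurableSet {t | g t ∈ Ioo (0 : ℝ) 1} := hg.measurable measurableSet_Ioo
  refine ⟨(intervalIntegrable_const (c := (1 : ℝ))).mono_fun'
    (measurable_const.indicator hm).aestronglyMeasurable (ae_of_all _ fun t => ?_), ?_⟩
  · simp only [indicator, Real.norm_eq_abs]
    split_ifs <;> norm_num
  · rw [intervalIntegral.integral_of_le zero_le_one, ← setIntegral_congr_set Ico_ae_eq_Ioc,
      setIntegral_indicator hm, setIntegral_const, smul_eq_mul, mul_one]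
    rfl

/-- Where the middle line is full, for a strip of the exact width. -/
theorem strip_region {g : ℝ → ℝ} (hg : Line g) (hg1 : ∀ t, g t ≤ 1)
    {y : ℝ} (hy : y ∈ Icc (0 : ℝ) 1) :
    (g y = 1 → 1 - |2 * y - 1| ≤ volume.real {t ∈ Ico (0 : ℝ) 1 | g t = 1}) ∧
      (g y ≠ 1 → volume.real {t ∈ Ico (0 : ℝ) 1 | g t = 1} ≤ 1 - |2 * y - 1|) := by
  set S := {t ∈ Ico (0 : ℝ) 1 | g t = 1} with hS
  suffices key : ∀ z ∈ Icc (0 : ℝ) (1 / 2),
      (g z = 1 → 2 * z ≤ volume.real S) ∧ (g z ≠ 1 → volume.real S ≤ 2 * z) by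
    rcases le_or_gt y (1 / 2) with h | h
    · have := key y ⟨hy.1, h⟩
      rw [abs_of_nonpos (by linarith)]
      exact ⟨fun e => by linarith [this.1 e], fun e => by linarith [this.2 e]⟩
    · have := key (1 - y) ⟨by linarith [hy.2], by linarith⟩
      rw [hg.symm y] at this
      rw [abs_of_nonneg (by linarith)]
      exact ⟨fun e => by linarith [this.1 e], fun e => by linarith [this.2 e]⟩
  intro z hz
  have hfin : volume S ≠ ⊤ :=
    ((measure_mono fun t ht => ht.1).trans_lt (measure_Ico_lt_top (a := (0 : ℝ)) (b := 1))).ne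
  have hU : ∀ a b : ℝ, volume (Ico 0 a ∪ Ioo b 1 : Set ℝ) ≠ ⊤ := fun a b =>
    ((measure_union_le _ _).trans_lt (ENNReal.add_lt_top.2 ⟨measure_Ico_lt_top, measure_Ioo_lt_top⟩)).ne
  have hval : volume.real (Ico (0 : ℝ) z ∪ Ioo (1 - z) 1) = 2 * z := by
    rw [measureReal_union (Set.disjoint_left.2 fun t h1 h2 => by linarith [h1.2, h2.1, hz.2])
      measurableSet_Ioo measure_Ico_lt_top.ne measure_Ioo_lt_top.ne, Real.volume_real_Ico_of_le hz.1,
      Real.volume_real_Ioo_of_le (by linarith [hz.1])]
    ring
  constructor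
  · intro e
    rw [← hval]
    refine measureReal_mono ?_ hfin
    rintro t (ht | ht)
    · exact ⟨⟨ht.1, by linarith [ht.2, hz.2]⟩, le_antisymm (hg1 t)
        (e.symm.le.trans (hg.antitone ⟨ht.1, by linarith [ht.2, hz.2]⟩ hz ht.2.le))⟩
    · refine ⟨⟨by linarith [ht.1, hz.2], ht.2⟩, le_antisymm (hg1 t) ?_⟩
      rw [← hg.symm t]
      exact e.symm.le.trans
        (hg.antitone ⟨by linarith [ht.2], by linarith [ht.1, hz.2]⟩ hz (by linarith [ht.1]))
  · intro e
    rw [← hval]
    refine measureReal_mono ?_ (hU _ _)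
    rintro t ⟨ht, ht1⟩
    by_contra hout
    simp only [mem_union, mem_Ico, mem_Ioo, not_or, not_and, not_lt] at hout
    have hz1 : z ≤ t := hout.1 ht.1
    have ht2 : t ≤ 1 - z := by
      by_contra h
      exact absurd ht.2 (not_lt.2 (hout.2 (not_le.1 h)))
    refine e (le_antisymm (hg1 z) ?_)
    rcases le_or_gt t (1 / 2) with h | h
    · exact ht1.symm.le.trans (hg.antitone hz ⟨ht.1, h⟩ hz1)
    · rw [← hg.symm t] at ht1
      exact ht1.symm.le.trans
        (hg.antitone hz ⟨by linarith [ht.2], by linarith⟩ (by linarith))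

theorem sliceStrip : SliceStrip := by
  intro w hw hs h1 h2 H hH hvol hπH
  have hwc := hw.smooth.continuous
  set g := fun t => w ![1 / 2, t] with hg
  have hgc : Continuous g := hwc.comp (by fun_prop)
  have hgL : Line g := line_right hw hs (1 / 2)
  set S := {t ∈ Ico (0 : ℝ) 1 | g t = 1} with hS
  set H₀ := 1 - volume.real S with hH₀
  have hle : H₀ ≤ H := by rw [hH₀]; linarith
  have hreg : ∀ y ∈ Icc (0 : ℝ) 1,
      (g y = 1 → |2 * y - 1| ≥ H₀) ∧ (g y ≠ 1 → |2 * y - 1| ≤ H₀) := fun y hy => by
    obtain ⟨r1, r2⟩ := strip_region hgL (fun t => (hw.mem _).2) hy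
    exact ⟨fun e => by linarith [r1 e], fun e => by linarith [r2 e]⟩
  have hfull : ∀ a, ∀ y ∈ Icc (0 : ℝ) 1, H₀ < |2 * y - 1| → w ![a, y] = 1 := by
    intro a y hy hσ
    have hg1 : g y = 1 := by
      by_contra e
      linarith [(hreg y hy).2 e]
    exact le_antisymm (hw.mem _).2 (hg1.symm.le.trans ((line_left hw hs y).bounds a).1)
  have hH1 : H₀ ≤ 1 := by rw [hH₀]; linarith [measureReal_nonneg (μ := volume) (s := S)]
  have hpos : 0 < H₀ := by
    by_contra hn
    have hall : mean w = 1 := by
      rw [mean, integral_square hwc]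
      refine (intervalIntegral.integral_congr (g := fun _ => (1 : ℝ)) fun a _ => ?_).trans (by simp)
      refine (intervalIntegral.integral_congr_ae (g := fun _ => (1 : ℝ)) ?_).trans (by simp)
      have hae : ∀ᵐ t : ℝ, t ≠ 1 / 2 := by simp [ae_iff, measure_singleton]
      filter_upwards [hae] with t ht htI
      rw [uIoc_of_le zero_le_one] at htI
      refine hfull a t (Ioc_subset_Icc_self htI) (lt_of_le_of_lt (not_lt.1 hn) ?_)
      exact abs_pos.2 fun h => ht (by linarith)
    rw [hall] at hπH
    nlinarith [mul_pos Real.pi_pos (mul_pos hH hH)]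
  set P : ℝ → ℝ := fun y => Real.sqrt (1 - (|2 * y - 1| / H₀) ^ 2) with hP
  set Q : ℝ → ℝ := fun y => min (|2 * y - 1| / H₀) 1 with hQ
  have hPc : Continuous P := by rw [hP]; fun_prop
  have hQc : Continuous Q := by rw [hQ]; fun_prop
  have hQ0 : ∀ y, 0 ≤ Q y := fun y => le_min (by positivity) zero_le_one
  have hQs : ∀ y, Q (1 - y) = Q y := fun y => by
    simp only [hQ]
    rw [show 2 * (1 - y) - 1 = -(2 * y - 1) by ring, abs_neg]
  have hsplit := split_energy hw (a := fun x => P (x 1)) (b := fun x => Q (x 1))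
    (hPc.comp (continuous_apply 1)) (hQc.comp (continuous_apply 1)) fun x _ => by
      simp only [hP, hQ]
      rcases le_total (|2 * x 1 - 1| / H₀) 1 with h | h
      · have h0 : 0 ≤ |2 * x 1 - 1| / H₀ := by positivity
        rw [min_eq_left h, Real.sq_sqrt (by nlinarith)]
        linarith
      · rw [min_eq_right h, Real.sqrt_eq_zero_of_nonpos (by nlinarith)]
        norm_num
  simp only [Matrix.cons_val_one, Matrix.cons_val_fin_one] at hsplit
  set F := volume.real {t ∈ Ico (0 : ℝ) 1 | g t ∈ Ioo (0 : ℝ) 1} with hF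
  have hx : Real.pi * H₀ / 2 - 2 * F ≤
      ∫ t in (0 : ℝ)..1, ∫ a in (0 : ℝ)..1, P t * |pd w 0 ![a, t]| := by
    have hPint : ∫ y in (0 : ℝ)..1, P y = Real.pi * H₀ / 4 := by
      rw [half_integral (fun t => by
          simp only [hP]
          rw [show 2 * (1 - t) - 1 = -(2 * t - 1) by ring, abs_neg]) hPc,
        intervalIntegral.integral_congr (g := fun z => Real.sqrt (1 - ((1 - 2 * z) / H₀) ^ 2))
          fun z hz => by
            rw [uIcc_of_le (by norm_num)] at hz
            simp only [hP]
            rw [abs_of_nonpos (by linarith [hz.2]), neg_sub],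
        intervalIntegral.integral_comp_sub_mul
          (fun u => Real.sqrt (1 - (u / H₀) ^ 2)) (two_ne_zero (α := ℝ))]
      norm_num
      rw [arc_integral hpos hH1]
      ring
    obtain ⟨hiF, hFint⟩ := integral_frac hgc
    have hline : Continuous fun t => ∫ a in (0 : ℝ)..1, P t * |pd w 0 ![a, t]| := by
      have := continuous_line_int_swap
        ((hPc.comp (continuous_apply 1)).mul (continuous_pd hw.smooth 0).abs)
      simpa using this
    refine le_trans (le_of_eq ?_) (intervalIntegral.integral_mono_on zero_le_one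
      (f := fun t => 2 * P t - 2 * {t | g t ∈ Ioo (0 : ℝ) 1}.indicator (fun _ => (1 : ℝ)) t)
      (((hPc.const_mul 2).intervalIntegrable _ _).sub (hiF.const_mul 2))
      (hline.intervalIntegrable _ _) fun t ht => ?_)
    · rw [intervalIntegral.integral_sub ((hPc.const_mul 2).intervalIntegrable _ _)
          (hiF.const_mul 2), intervalIntegral.integral_const_mul,
        intervalIntegral.integral_const_mul, hPint, hFint, hF]
      ring
    rw [intervalIntegral.integral_const_mul]
    have hvar := line_variation (line_left hw hs t) (fun a => hasDerivAt_left hw a t)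
      ((continuous_pd hw.smooth 0).comp (by fun_prop))
    have e0 : w ![0, t] = 1 :=
      le_antisymm (hw.mem _).2 (h2.symm.le.trans ((line_right hw hs 0).bounds t).1)
    rw [e0] at hvar
    have hP0 : 0 ≤ P t := Real.sqrt_nonneg _
    have hP1 : P t ≤ 1 := Real.sqrt_le_one.2 (sub_le_self _ (sq_nonneg _))
    refine le_trans ?_ (mul_le_mul_of_nonneg_left hvar hP0)
    by_cases hfr : g t ∈ Ioo (0 : ℝ) 1
    · rw [indicator_of_mem (show t ∈ {t | g t ∈ Ioo (0 : ℝ) 1} from hfr)]
      have := mul_nonneg hP0 (by linarith [(hw.mem ![1 / 2, t]).2] :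
        0 ≤ 2 * (1 - w ![1 / 2, t]))
      linarith
    · rw [indicator_of_notMem (show t ∉ {t | g t ∈ Ioo (0 : ℝ) 1} from hfr), mul_zero, sub_zero]
      by_cases hone : g t = 1
      · have : P t = 0 := Real.sqrt_eq_zero_of_nonpos (by
          have := (hreg t ht).1 hone
          nlinarith [(one_le_div hpos).2 this])
        rw [this]; norm_num
      · have : g t = 0 := by
          by_contra e
          exact hfr ⟨lt_of_le_of_ne (hw.mem _).1 (Ne.symm e), lt_of_le_of_ne (hw.mem _).2 hone⟩
        simp only [hg] at this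
        rw [this]
        linarith
  have hy : 2 * ((1 - mean w) / H₀) ≤
      ∫ a in (0 : ℝ)..1, ∫ t in (0 : ℝ)..1, Q t * |pd w 1 ![a, t]| := by
    have cm := continuous_line_int hwc
    have hline : Continuous fun a => ∫ t in (0 : ℝ)..1, Q t * |pd w 1 ![a, t]| := by
      have := continuous_line_int
        ((hQc.comp (continuous_apply 1)).mul (continuous_pd hw.smooth 1).abs)
      simpa using this
    refine le_trans (le_of_eq ?_) (intervalIntegral.integral_mono_on zero_le_one
      (f := fun a => 2 / H₀ * (1 - ∫ t in (0 : ℝ)..1, w ![a, t]))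
      ((continuous_const.mul (continuous_const.sub cm)).intervalIntegrable _ _)
      (hline.intervalIntegrable _ _) fun a _ => ?_)
    · rw [intervalIntegral.integral_const_mul,
        intervalIntegral.integral_sub intervalIntegrable_const (cm.intervalIntegrable _ _),
        ← integral_square hwc, mean]
      simp
      ring
    have hd : ∀ t, HasDerivAt (fun t => w ![a, t]) (pd w 1 ![a, t]) t := hasDerivAt_right hw a
    have hc : Continuous fun t => pd w 1 ![a, t] := (continuous_pd hw.smooth 1).comp (by fun_prop)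
    have hL := line_right hw hs a
    have hcl : Continuous fun t => w ![a, t] := hwc.comp (by fun_prop)
    refine le_trans (le_of_eq ?_) (line_weighted hL hd hc hQc (fun z _ => hQ0 z) hQs)
    set b := (1 - H₀) / 2 with hb
    have hb0 : 0 ≤ b := by rw [hb]; linarith
    have hbh : b ≤ 1 / 2 := by rw [hb]; linarith
    have hQd : Continuous fun z => Q z * pd w 1 ![a, z] := hQc.mul hc
    rw [← intervalIntegral.integral_add_adjacent_intervals (b := b)
      (hQd.intervalIntegrable 0 b) (hQd.intervalIntegrable b (1 / 2)),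
      intervalIntegral.integral_congr (a := (0 : ℝ)) (b := b)
        (g := fun z => (1 + 0 * z) * pd w 1 ![a, z]) fun z hz => by
          rw [uIcc_of_le hb0] at hz
          simp only [hQ]
          rw [abs_of_nonpos (by linarith [hz.2]),
            min_eq_right ((one_le_div hpos).2 (by linarith [hz.2, hb]))]
          ring,
      intervalIntegral.integral_congr (a := b) (b := (1 / 2 : ℝ))
        (g := fun z => (1 / H₀ + -2 / H₀ * z) * pd w 1 ![a, z]) fun z hz => by
          rw [uIcc_of_le hbh] at hz
          simp only [hQ]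
          rw [abs_of_nonpos (by linarith [hz.2]),
            min_eq_left ((div_le_one hpos).2 (by linarith [hz.1, hb]))]
          ring,
      affine_parts hd hc, affine_parts hd hc, half_integral hL.symm hcl,
      ← intervalIntegral.integral_add_adjacent_intervals (b := b)
        (hcl.intervalIntegrable 0 b) (hcl.intervalIntegrable b (1 / 2)),
      intervalIntegral.integral_congr_ae (a := (0 : ℝ)) (b := b) (g := fun _ => (1 : ℝ))
        (f := fun t => w ![a, t]) (by
          have hae : ∀ᵐ t : ℝ, t ≠ b := by simp [ae_iff, measure_singleton]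
          filter_upwards [hae] with t ht htI
          rw [uIoc_of_le hb0] at htI
          have hlt : t < b := lt_of_le_of_ne htI.2 ht
          refine hfull a t ⟨htI.1.le, by linarith⟩ ?_
          rw [abs_of_nonpos (by linarith)]
          linarith [hb])]
    have e0 : w ![a, 0] = 1 :=
      le_antisymm (hw.mem _).2 (h1.symm.le.trans ((line_left hw hs 0).bounds a).1)
    have eb : 1 / H₀ + -2 / H₀ * b = 1 := by rw [hb]; field_simp; ring
    rw [e0, eb, intervalIntegral.integral_const, smul_eq_mul, hb]
    field_simp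
    ring
  have hA0 : 0 ≤ 1 - mean w := by linarith [(mean_mem hw).2]
  have hmono : (1 - mean w) / H + Real.pi * H / 4 ≤ (1 - mean w) / H₀ + Real.pi * H₀ / 4 := by
    have key : 0 ≤ (H - H₀) * ((1 - mean w) - Real.pi * H * H₀ / 4) := by
      refine mul_nonneg (by linarith) ?_
      nlinarith [mul_le_mul_of_nonneg_left hle (mul_nonneg Real.pi_pos.le hH.le)]
    have e : (1 - mean w) / H₀ + Real.pi * H₀ / 4 - ((1 - mean w) / H + Real.pi * H / 4) =
        (H - H₀) * ((1 - mean w) - Real.pi * H * H₀ / 4) / (H * H₀) := by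
      field_simp; ring
    linarith [div_nonneg key (mul_nonneg hH.le hpos.le)]
  linarith

end Vale.Agent.P232.Win
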