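import Vale.Agent.P232.Win.Poly
import Vale.Agent.P232.Win.Cert
import Vale.Agent.P232.Scalar.Base

/-!
# P232: soundness of the integer certificates of the middle range
-/

noncomputable section

open MeasureTheory Set

namespace Vale.Agent.P232.Win

open Vale.Agent.P232.Scalar (cauchy_two)

/-- A numerator over `10⁶`. -/
def rv (n : ℕ) : ℝ := (n : ℝ) / 1000000

/-- The weight of a kind at a node. -/
def Node.w (p : Node) : Fin 3 → ℕ := ![p.w0, p.w1, p.w2]

/-- The nodes of the broken line of a kind. -/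
def pts (k : Fin 3) (l : List Node) : List (ℝ × ℝ) := l.map fun p => (rv p.X, rv (p.w k))

/-- The bound in use: with or without the contact. -/
def okBox : Bool → ℝ → Fin 3 → ℝ → ℝ → Prop
  | false, _ => okPlain
  | true, θ => okTheta θ

theorem okPlain_okBox {th : Bool} {θ : ℝ} {k : Fin 3} {a L : ℝ} (h : L ≤ plainF k a) :
    okBox th θ k a L := by cases th <;> simp [okBox, okPlain, okTheta, h]

/-- The point lies in the box. -/
structure Inside (b : WBox) (c m θ : ℝ) : Prop where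
  c0 : rv b.C0 ≤ c
  c1 : c ≤ rv b.C1
  m0 : rv b.M0 ≤ m
  m1 : m ≤ rv b.M1
  t0 : b.theta = true → rv b.T0 ≤ θ
  t1 : b.theta = true → θ ≤ rv b.T1

theorem rv_le {x y : ℕ} (h : x ≤ y) : rv x ≤ rv y := by
  unfold rv; gcongr

theorem rv_mem {x : ℕ} (h : (x : ℤ) ≤ den) : rv x ∈ Icc (0 : ℝ) 1 := by
  have h1 : (x : ℤ) ≤ 1000000 := h
  have h' : (x : ℝ) ≤ 1000000 := by exact_mod_cast h1
  unfold rv
  exact ⟨by positivity, by linarith⟩

/-- The affine minorant read from its numerator and denominator. -/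
def gval (g : ℤ × ℤ) : ℝ := (g.1 : ℝ) / ((g.2 : ℝ) * 1000000000000)

theorem fits_sound {B A : ℤ} {X W : ℕ} {g : ℤ × ℤ} (h : fits (lineX B A X) W g = true)
    (hg : 0 < g.2) :
    0 ≤ gval g ∧ rv W ∈ Icc (0 : ℝ) 1 ∧
      max ((A : ℝ) / 1000000 + (B : ℝ) / 1000000 * rv X) 0 ^ 2 ≤ (1 - rv W ^ 2) * gval g := by
  simp only [fits, decide_eq_true_eq] at h
  obtain ⟨h1, h2, h3⟩ := h
  have h1' : (0 : ℝ) ≤ g.1 := by exact_mod_cast h1
  have hg' : (0 : ℝ) < g.2 := by exact_mod_cast hg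
  have h3' := (Int.cast_le (R := ℝ)).2 h3
  simp only [lineX] at h3'
  push_cast at h3'
  refine ⟨div_nonneg h1' (by positivity), rv_mem h2, ?_⟩
  have e : max ((A : ℝ) / 1000000 + (B : ℝ) / 1000000 * rv X) 0 =
      max ((A : ℝ) * 1000000 + B * X) 0 / 1000000000000 := by
    rw [← max_div_div_right (by norm_num : (0 : ℝ) ≤ 1000000000000), zero_div]
    congr 1
    unfold rv
    ring
  rw [e, gval, rv, div_pow, mul_div_assoc', le_div_iff₀ (by positivity), div_mul_eq_mul_div,
    div_le_iff₀ (by norm_num)]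
  nlinarith

/-- An affine function between two places. -/
theorem affine_mix {x y a : ℝ} (h : x < y) :
    a = (1 - (a - x) / (y - x)) * x + (a - x) / (y - x) * y := by
  have : y - x ≠ 0 := by linarith
  field_simp
  ring

/-- Node inequalities at both ends give the inequality on the cell. -/
theorem cell_valid {α β u e x y a W V L : ℝ} (hxy : x < y) (ha : a ∈ Icc x y)
    (hW : W ∈ Icc (0 : ℝ) 1) (hV : V ∈ Icc (0 : ℝ) 1) (gx : 0 ≤ u + e * x) (gy : 0 ≤ u + e * y)
    (hx : max (α + β * x) 0 ^ 2 ≤ (1 - W ^ 2) * (u + e * x))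
    (hy : max (α + β * y) 0 ^ 2 ≤ (1 - V ^ 2) * (u + e * y))
    (hL : 0 ≤ u + e * a → 0 ≤ L ∧ u + e * a ≤ L ^ 2) :
    max (α + β * a) 0 ≤ Real.sqrt (1 - (W + (V - W) * ((a - x) / (y - x))) ^ 2) * L := by
  have hmix := affine_mix (a := a) hxy
  set t := (a - x) / (y - x) with ht
  have t0 : 0 ≤ t := div_nonneg (by linarith [ha.1]) (by linarith)
  have t1 : 0 ≤ 1 - t := sub_nonneg.2 ((div_le_one (by linarith)).2 (by linarith [ha.2]))
  have qW : 0 ≤ 1 - W ^ 2 := by nlinarith [hW.1, hW.2]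
  have qV : 0 ≤ 1 - V ^ 2 := by nlinarith [hV.1, hV.2]
  have eg : u + e * a = (1 - t) * (u + e * x) + t * (u + e * y) := by rw [hmix]; ring
  have el : α + β * a = (1 - t) * (α + β * x) + t * (α + β * y) := by rw [hmix]; ring
  have g0 : 0 ≤ u + e * a := by rw [eg]; positivity
  obtain ⟨hL0, hL2⟩ := hL g0
  have hl : max (α + β * a) 0 ≤ (1 - t) * max (α + β * x) 0 + t * max (α + β * y) 0 := by
    refine max_le ?_ (by positivity)
    rw [el]
    gcongr <;> exact le_max_left _ _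
  have key := cauchy_two t1 t0 qW qV gx gy hx hy
  have conc : (1 - t) * (1 - W ^ 2) + t * (1 - V ^ 2) ≤ 1 - (W + (V - W) * t) ^ 2 := by
    nlinarith [mul_nonneg (mul_nonneg t1 t0) (sq_nonneg (W - V))]
  have hq : 0 ≤ 1 - (W + (V - W) * t) ^ 2 := le_trans (by positivity) conc
  refine (pow_le_pow_iff_left₀ (le_max_right _ _) (by positivity) two_ne_zero).1 ?_
  rw [mul_pow, Real.sq_sqrt hq]
  calc max (α + β * a) 0 ^ 2
      ≤ ((1 - t) * max (α + β * x) 0 + t * max (α + β * y) 0) ^ 2 :=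
        pow_le_pow_left₀ (le_max_right _ _) hl 2
    _ ≤ _ := key
    _ ≤ (1 - (W + (V - W) * t) ^ 2) * L ^ 2 := by
        rw [← eg]
        exact mul_le_mul conc hL2 g0 hq

theorem arcs_mem {P Q : ℕ} (h : (P, Q) ∈ arcsN) : (rv P, rv Q) ∈ arcs := by
  simp only [arcsN, List.mem_cons, Prod.mk.injEq, List.not_mem_nil, or_false] at h
  rcases h with ⟨rfl, rfl⟩ | ⟨rfl, rfl⟩ | ⟨rfl, rfl⟩ | ⟨rfl, rfl⟩ <;> norm_num [rv, arcs]

theorem pi_lo : (3141592 / 1000000 : ℝ) ≤ Real.pi := by linarith [Real.pi_gt_d6]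

theorem pi_hi : Real.pi ≤ (3141593 / 1000000 : ℝ) := by linarith [Real.pi_lt_d6]

/-- The conditions on a cell give the validity on it. -/
theorem cell_sound {b : WBox} {B A0 A1 A2 : ℤ} {p q : Node} {c m θ : ℝ} (hin : Inside b c m θ)
    (h : cellOK b B A0 A1 A2 p q = true) {a : ℝ} (ha : a ∈ Icc (rv p.X) (rv q.X)) (hm1 : a ≤ 1)
    (k : Fin 3) :
    ∃ L, okBox b.theta θ k a L ∧
      max ((![A0, A1, A2] k : ℝ) / 1000000 + (B : ℝ) / 1000000 * a) 0 ≤
        Real.sqrt (1 - (rv (p.w k) +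
          (rv (q.w k) - rv (p.w k)) * ((a - rv p.X) / (rv q.X - rv p.X))) ^ 2) * L := by
  simp only [cellOK, Bool.and_eq_true, decide_eq_true_eq] at h
  obtain ⟨⟨⟨⟨⟨⟨⟨⟨hX, ho⟩, hk⟩, p0⟩, q0⟩, p1⟩, q1⟩, p2⟩, q2⟩ := h
  have hxy : rv p.X < rv q.X := by unfold rv; gcongr
  have ha0 : 0 ≤ a := le_trans (by unfold rv; positivity) ha.1
  fin_cases k
  · refine ⟨Real.sqrt (Real.pi * a), okPlain_okBox le_rfl, ?_⟩
    obtain ⟨g1, w1, i1⟩ := fits_sound p0 one_pos
    obtain ⟨g2, w2, i2⟩ := fits_sound q0 one_pos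
    have e : ∀ X : ℕ, gval (3141592 * (X : ℤ), 1) = 0 + 3141592 / 1000000 * rv X := by
      intro X; simp only [gval, rv]; push_cast; ring
    rw [e] at g1 g2 i1 i2
    refine cell_valid hxy ha w1 w2 g1 g2 i1 i2 fun _ => ⟨Real.sqrt_nonneg _, ?_⟩
    rw [Real.sq_sqrt (by positivity), zero_add]
    exact mul_le_mul_of_nonneg_right pi_lo ha0
  · rcases hpo : p.o with _ | ⟨L0, P, Q⟩
    · rw [hpo] at p1 q1
      refine ⟨1, okPlain_okBox le_rfl, ?_⟩
      obtain ⟨g1, w1, i1⟩ := fits_sound p1 one_pos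
      obtain ⟨g2, w2, i2⟩ := fits_sound q1 one_pos
      have e : ∀ X : ℕ, gval (gOne b.T1 none X) = 1 + 0 * rv X := by
        intro X; simp [gval, gOne]; norm_num
      rw [e] at g1 g2 i1 i2
      exact cell_valid hxy ha w1 w2 g1 g2 i1 i2 fun _ => ⟨zero_le_one, by simp⟩
    · rw [hpo] at p1 q1 ho
      simp only [oneOK, Bool.and_eq_true, Bool.or_eq_true, decide_eq_true_eq,
        List.contains_iff_mem] at ho
      obtain ⟨⟨hth, hL0⟩, hpq⟩ := ho
      obtain ⟨g1, w1, i1⟩ := fits_sound p1 (by norm_num [gOne])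
      obtain ⟨g2, w2, i2⟩ := fits_sound q1 (by norm_num [gOne])
      have e : ∀ X : ℕ, gval (gOne b.T1 (some (L0, P, Q)) X) =
          (2 * rv L0 * (rv P - rv Q * rv b.T1) - rv L0 ^ 2) + 2 * rv L0 * rv Q * rv X := by
        intro X; simp only [gval, gOne, rv]; push_cast; ring
      rw [e] at g1 g2 i1 i2
      refine ⟨rv P + rv Q * (a - θ), ?_, cell_valid hxy ha w1 w2 g1 g2 i1 i2 fun hg => ?_⟩
      · rw [hth]
        refine Or.inr (Or.inl ⟨rfl, rv P, rv Q, by unfold rv; positivity, ?_, le_rfl⟩)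
        rcases hpq with hpq | hpq
        · have : ((P : ℝ) ^ 2 + (Q : ℝ) ^ 2) ≤ 1000000 ^ 2 := by
            have := (Int.cast_le (R := ℝ)).2 hpq
            push_cast at this
            exact this
          refine Or.inl ⟨by unfold rv; positivity, ?_⟩
          unfold rv
          rw [div_pow, div_pow, ← add_div]
          exact div_le_one_of_le₀ this (by norm_num)
        · exact Or.inr (arcs_mem hpq)
      · have hl : 0 < rv L0 := by
          have : (0 : ℝ) < L0 := by exact_mod_cast hL0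
          unfold rv; positivity
        set E := rv P + rv Q * (a - rv b.T1) with hE
        have hg' : 0 ≤ 2 * rv L0 * E - rv L0 ^ 2 := by rw [hE]; linarith
        have hE0 : 0 ≤ E := by nlinarith
        have hLE : E ≤ rv P + rv Q * (a - θ) := by
          have hQ : 0 ≤ rv Q := by unfold rv; positivity
          have := hin.t1 hth
          rw [hE]; gcongr
        refine ⟨hE0.trans hLE, le_trans ?_ (pow_le_pow_left₀ hE0 hLE 2)⟩
        rw [hE]
        nlinarith [sq_nonneg (E - rv L0)]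
  · rcases hpk : p.k with _ | L0
    · rw [hpk] at p2 q2
      refine ⟨Real.sqrt (Real.pi * (1 - a)), okPlain_okBox le_rfl, ?_⟩
      obtain ⟨g1, w1, i1⟩ := fits_sound p2 one_pos
      obtain ⟨g2, w2, i2⟩ := fits_sound q2 one_pos
      have e : ∀ X : ℕ, gval (gBoth b.T0 none X) =
          3141592 / 1000000 + -(3141592 / 1000000) * rv X := by
        intro X; simp only [gval, gBoth, rv]; push_cast; ring
      rw [e] at g1 g2 i1 i2
      refine cell_valid hxy ha w1 w2 g1 g2 i1 i2 fun _ => ⟨Real.sqrt_nonneg _, ?_⟩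
      rw [Real.sq_sqrt (mul_nonneg Real.pi_pos.le (by linarith))]
      linarith [mul_le_mul_of_nonneg_right pi_lo (by linarith : (0 : ℝ) ≤ 1 - a)]
    · rw [hpk] at p2 q2 hk
      simp only [bothOK, Bool.and_eq_true, decide_eq_true_eq] at hk
      obtain ⟨hth, hL0, hT0, hflat⟩ := hk
      set H : ℝ := 1 - rv b.T0 with hH
      have hH0 : 0 < H := by
        have : (b.T0 : ℝ) < 1000000 := by exact_mod_cast hT0
        rw [hH, rv]; linarith
      have hd : (0 : ℤ) < 4 * den * (den - b.T0) := by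
        have : (b.T0 : ℤ) < den := show (b.T0 : ℤ) < 1000000 by exact_mod_cast hT0
        exact mul_pos (by norm_num) (by linarith)
      obtain ⟨g1, w1, i1⟩ := fits_sound p2 hd
      obtain ⟨g2, w2, i2⟩ := fits_sound q2 hd
      have e : ∀ X : ℕ, gval (gBoth b.T0 (some L0) X) =
          (2 * rv L0 * (1 / H + 3141592 / 1000000 * H / 4) - rv L0 ^ 2) +
            -(2 * rv L0 / H) * rv X := by
        intro X
        have : (1000000 : ℝ) - b.T0 ≠ 0 := by
          have : (b.T0 : ℝ) < 1000000 := by exact_mod_cast hT0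
          linarith
        rw [hH]
        simp only [gval, gBoth, rv]
        push_cast
        field_simp
        ring
      rw [e] at g1 g2 i1 i2
      refine ⟨(1 - a) / H + Real.pi * H / 4, ?_, cell_valid hxy ha w1 w2 g1 g2 i1 i2 fun hg => ?_⟩
      · rw [hth]
        refine Or.inr (Or.inr ⟨rfl, H, hH0, by linarith [hin.t0 hth], ?_, le_rfl⟩)
        have hf := (Int.cast_le (R := ℝ)).2 hflat
        push_cast at hf
        have h1 : 3141593 / 1000000 * H ^ 2 ≤ 4 * (1 - rv q.X) := by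
          rw [hH, rv, rv]
          field_simp
          linarith
        nlinarith [mul_le_mul_of_nonneg_right pi_hi (sq_nonneg H), ha.2]
      · have hl : 0 < rv L0 := by
          have : (0 : ℝ) < L0 := by exact_mod_cast hL0
          unfold rv; positivity
        set E := (1 - a) / H + 3141592 / 1000000 * H / 4 with hE
        have eE : (2 * rv L0 * (1 / H + 3141592 / 1000000 * H / 4) - rv L0 ^ 2) +
            -(2 * rv L0 / H) * a = 2 * rv L0 * E - rv L0 ^ 2 := by rw [hE]; ring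
        rw [eE] at hg ⊢
        have hE0 : 0 ≤ E := by nlinarith
        have hLE : E ≤ (1 - a) / H + Real.pi * H / 4 := by
          rw [hE]
          linarith [mul_le_mul_of_nonneg_right pi_lo hH0.le]
        refine ⟨hE0.trans hLE, le_trans ?_ (pow_le_pow_left₀ hE0 hLE 2)⟩
        nlinarith [sq_nonneg (E - rv L0)]

end Vale.Agent.P232.Win
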