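import Vale.Agent.P232.Win.Sound

/-!
# P232: broken lines of a certificate and the least switching
-/

noncomputable section

open MeasureTheory Set

namespace Vale.Agent.P232.Win

variable {b : WBox} {B A0 A1 A2 : ℤ}

/-- The weights of a certificate. -/
def wOf (l : List Node) (k : Fin 3) : ℝ → ℝ := poly (pts k l)

theorem cellOK_X {p q : Node} (h : cellOK b B A0 A1 A2 p q = true) : rv p.X < rv q.X := by
  simp only [cellOK, Bool.and_eq_true, decide_eq_true_eq] at h
  obtain ⟨⟨⟨⟨⟨⟨⟨⟨hX, -⟩, -⟩, -⟩, -⟩, -⟩, -⟩, -⟩, -⟩ := h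
  unfold rv; gcongr

theorem cellOK_mem {p q : Node} (h : cellOK b B A0 A1 A2 p q = true) (k : Fin 3) :
    rv (p.w k) ∈ Icc (0 : ℝ) 1 ∧ rv (q.w k) ∈ Icc (0 : ℝ) 1 := by
  simp only [cellOK, fits, Bool.and_eq_true, decide_eq_true_eq] at h
  obtain ⟨⟨⟨⟨⟨⟨-, p0⟩, q0⟩, p1⟩, q1⟩, p2⟩, q2⟩ := h
  fin_cases k <;> refine ⟨rv_mem ?_, rv_mem ?_⟩
  exacts [p0.2.1, q0.2.1, p1.2.1, q1.2.1, p2.2.1, q2.2.1]

theorem pts_incr : ∀ {l : List Node}, nodesFit b B A0 A1 A2 l = true → ∀ k, Incr (pts k l)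
  | [], _, _ => trivial
  | [_], _, _ => trivial
  | p :: q :: r, h, k => by
    simp only [nodesFit, Bool.and_eq_true] at h
    exact ⟨cellOK_X h.1, pts_incr h.2 k⟩

theorem pts_mem : ∀ {r : List Node} {p q : Node}, nodesFit b B A0 A1 A2 (p :: q :: r) = true →
    ∀ k, ∀ x ∈ pts k (p :: q :: r), x.2 ∈ Icc (0 : ℝ) 1
  | [], p, q, h, k, x, hx => by
    simp only [nodesFit, Bool.and_eq_true] at h
    simp only [pts, List.map_cons, List.map_nil, List.mem_cons, List.not_mem_nil, or_false] at hx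
    rcases hx with rfl | rfl
    exacts [(cellOK_mem h.1 k).1, (cellOK_mem h.1 k).2]
  | s :: r, p, q, h, k, x, hx => by
    simp only [nodesFit, Bool.and_eq_true] at h
    have hx' : x = (rv p.X, rv (p.w k)) ∨ x ∈ pts k (q :: s :: r) := List.mem_cons.1 hx
    rcases hx' with rfl | hx'
    · exact (cellOK_mem h.1 k).1
    · exact pts_mem (by simpa only [nodesFit, Bool.and_eq_true] using h.2) k x hx'

theorem last_le : ∀ {r : List Node} {p : Node}, nodesFit b B A0 A1 A2 (p :: r) = true →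
    rv p.X ≤ rv b.M1
  | [], p, h => by
    simp only [nodesFit, decide_eq_true_eq] at h
    rw [h]
  | q :: r, p, h => by
    simp only [nodesFit, Bool.and_eq_true] at h
    exact (cellOK_X h.1).le.trans (last_le h.2)

/-- Every place lies in a cell. -/
theorem exists_cell : ∀ {r : List Node} {p q : Node},
    nodesFit b B A0 A1 A2 (p :: q :: r) = true → ∀ {a : ℝ}, a ∈ Icc (rv p.X) (rv b.M1) →
    ∃ x y : Node, cellOK b B A0 A1 A2 x y = true ∧ a ∈ Icc (rv x.X) (rv y.X) ∧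
      ∀ k, wOf (p :: q :: r) k a = rv (x.w k) +
        (rv (y.w k) - rv (x.w k)) * ((a - rv x.X) / (rv y.X - rv x.X))
  | [], p, q, h, a, ha => by
    simp only [nodesFit, Bool.and_eq_true, decide_eq_true_eq] at h
    exact ⟨p, q, h.1, ⟨ha.1, h.2 ▸ ha.2⟩, fun k => poly_cell ha.1 (h.2 ▸ ha.2)⟩
  | s :: r, p, q, h, a, ha => by
    have h' := h
    rw [nodesFit, Bool.and_eq_true] at h'
    rcases le_total a (rv q.X) with hq | hq
    · exact ⟨p, q, h'.1, ⟨ha.1, hq⟩, fun k => poly_cell ha.1 hq⟩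
    · obtain ⟨x, y, h1, h2, h3⟩ := exists_cell h'.2 (a := a) ⟨hq, ha.2⟩
      exact ⟨x, y, h1, h2, fun k => (poly_tail (pts_incr h k) hq).trans (h3 k)⟩

theorem wOf_cell {r : List Node} {p q : Node} {a : ℝ} (ha : a ∈ Icc (rv p.X) (rv q.X)) (k : Fin 3) :
    wOf (p :: q :: r) k a =
      rv (p.w k) + (rv (q.w k) - rv (p.w k)) * ((a - rv p.X) / (rv q.X - rv p.X)) :=
  poly_cell ha.1 ha.2

theorem mix_min {u v U V t : ℝ} (hu : u ≤ U) (hv : v ≤ V) (t0 : 0 ≤ t) (t1 : t ≤ 1) :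
    u + (v - u) * t ≤ U + (V - U) * t := by nlinarith

theorem trapZ_cast (p q : Node) (u v : ℕ) :
    ((trapZ ((q.X : ℤ) - p.X) u v : ℤ) : ℝ) / 2000000000000 =
      trap (rv q.X - rv p.X) (rv u) (rv v) := by
  simp only [trapZ, trap, rv]; push_cast; ring

/-- What the three numbers of the switching mean at the place `x`. -/
def DPInv (s₁ s₂ : ℝ) (S : ℤ × ℤ × ℤ) (x K : ℝ) : Prop :=
  (x ≤ s₁ → (S.1 : ℝ) / 2000000000000 ≤ K) ∧ (x ≤ s₂ → (S.2.1 : ℝ) / 2000000000000 ≤ K) ∧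
    (S.2.2 : ℝ) / 2000000000000 ≤ K

theorem DPInv.step {s₁ s₂ : ℝ} (h12 : s₁ ≤ s₂) {w : Fin 3 → ℝ → ℝ} (hw : ∀ k, Continuous (w k))
    {p q : Node} (hX : rv p.X < rv q.X)
    (hp : ∀ a ∈ Icc (rv p.X) (rv q.X), ∀ k, w k a =
      rv (p.w k) + (rv (q.w k) - rv (p.w k)) * ((a - rv p.X) / (rv q.X - rv p.X)))
    {S : ℤ × ℤ × ℤ} {K : ℝ} (hS : DPInv s₁ s₂ S (rv p.X) K) :
    let h : ℤ := (q.X : ℤ) - p.X
    DPInv s₁ s₂
      (S.1 + trapZ h p.w0 q.w0,
        min (S.2.1 + trapZ h p.w1 q.w1) (S.1 + trapZ h (min p.w0 p.w1 : ℕ) (min q.w0 q.w1 : ℕ)),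
        min (min (S.2.2 + trapZ h p.w2 q.w2)
          (S.2.1 + trapZ h (min p.w1 p.w2 : ℕ) (min q.w1 q.w2 : ℕ)))
          (S.1 + trapZ h (min p.w0 (min p.w1 p.w2) : ℕ) (min q.w0 (min q.w1 q.w2) : ℕ)))
      (rv q.X) (K + ∫ a in rv p.X..rv q.X, switched w s₁ s₂ a) := by
  intro h
  obtain ⟨i0, i1, i2⟩ := hS
  have ht : ∀ a ∈ Icc (rv p.X) (rv q.X),
      (a - rv p.X) / (rv q.X - rv p.X) ∈ Icc (0 : ℝ) 1 := fun a ha =>
    ⟨div_nonneg (by linarith [ha.1]) (by linarith),
      (div_le_one (by linarith)).2 (by linarith [ha.2])⟩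
  have key : ∀ u v : ℕ, (∀ a ∈ Icc (rv p.X) (rv q.X), ∃ k : Fin 3,
      switched w s₁ s₂ a = w k a ∧ u ≤ p.w k ∧ v ≤ q.w k) →
      ((trapZ h u v : ℤ) : ℝ) / 2000000000000 ≤ ∫ a in rv p.X..rv q.X, switched w s₁ s₂ a := by
    intro u v hk
    rw [trapZ_cast]
    refine trap_le hX.le (intervalIntegrable_switched hw _ _ _ _) fun a ha => ?_
    obtain ⟨k, e, hu, hv⟩ := hk a ha
    rw [e, hp a ha k]
    exact mix_min (rv_le hu) (rv_le hv) (ht a ha).1 (ht a ha).2
  refine ⟨fun hq => ?_, fun hq => ?_, ?_⟩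
  · push_cast
    rw [add_div]
    refine add_le_add (i0 (hX.le.trans hq)) (key _ _ fun a ha => ⟨0, ?_, le_rfl, le_rfl⟩)
    simp [switched, ha.2.trans hq]
  · rcases lt_or_ge s₁ (rv p.X) with hs | hs
    · refine le_trans ?_ (add_le_add (i1 (hX.le.trans hq))
        (key p.w1 q.w1 fun a ha => ⟨1, ?_, le_rfl, le_rfl⟩))
      · rw [← add_div]
        gcongr
        exact_mod_cast min_le_left _ _
      · simp [switched, not_le.2 (hs.trans_le ha.1), ha.2.trans hq]
    · refine le_trans ?_ (add_le_add (i0 hs)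
        (key (min p.w0 p.w1) (min q.w0 q.w1) fun a ha => ?_))
      · rw [← add_div]
        gcongr
        exact_mod_cast min_le_right _ _
      · by_cases h0 : a ≤ s₁
        · exact ⟨0, by simp [switched, h0], min_le_left _ _, min_le_left _ _⟩
        · exact ⟨1, by simp [switched, h0, ha.2.trans hq], min_le_right _ _, min_le_right _ _⟩
  · rcases lt_or_ge s₂ (rv p.X) with hs | hs
    · refine le_trans ?_ (add_le_add i2 (key p.w2 q.w2 fun a ha => ⟨2, ?_, le_rfl, le_rfl⟩))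
      · rw [← add_div]
        gcongr
        exact_mod_cast (min_le_left _ _).trans (min_le_left _ _)
      · simp [switched, not_le.2 (hs.trans_le ha.1), not_le.2 (h12.trans_lt (hs.trans_le ha.1))]
    · rcases lt_or_ge s₁ (rv p.X) with hs' | hs'
      · refine le_trans ?_ (add_le_add (i1 hs)
          (key (min p.w1 p.w2) (min q.w1 q.w2) fun a ha => ?_))
        · rw [← add_div]
          gcongr
          exact_mod_cast (min_le_left _ _).trans (min_le_right _ _)
        · have h0 : ¬ a ≤ s₁ := not_le.2 (hs'.trans_le ha.1)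
          by_cases h1 : a ≤ s₂
          · exact ⟨1, by simp [switched, h0, h1], min_le_left _ _, min_le_left _ _⟩
          · exact ⟨2, by simp [switched, h0, h1], min_le_right _ _, min_le_right _ _⟩
      · refine le_trans ?_ (add_le_add (i0 hs')
          (key (min p.w0 (min p.w1 p.w2)) (min q.w0 (min q.w1 q.w2)) fun a ha => ?_))
        · rw [← add_div]
          gcongr
          exact_mod_cast min_le_right _ _
        · by_cases h0 : a ≤ s₁
          · exact ⟨0, by simp [switched, h0], min_le_left _ _, min_le_left _ _⟩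
          · by_cases h1 : a ≤ s₂
            · exact ⟨1, by simp [switched, h0, h1], (min_le_right _ _).trans (min_le_left _ _),
                (min_le_right _ _).trans (min_le_left _ _)⟩
            · exact ⟨2, by simp [switched, h0, h1], (min_le_right _ _).trans (min_le_right _ _),
                (min_le_right _ _).trans (min_le_right _ _)⟩

theorem DPInv.mono {s₁ s₂ x y K K' : ℝ} {S : ℤ × ℤ × ℤ} (h : DPInv s₁ s₂ S x K) (hx : x ≤ y)
    (hK : K ≤ K') : DPInv s₁ s₂ S y K' :=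
  ⟨fun hy => (h.1 (hx.trans hy)).trans hK, fun hy => (h.2.1 (hx.trans hy)).trans hK, h.2.2.trans hK⟩

theorem min_max_self {c m x : ℝ} (h : x ∈ Icc c m) : max c (min m x) = x := by
  rw [min_eq_right h.2, max_eq_right h.1]

/-- The result of the recursion is below the switched integral. -/
theorem runDP_le {c m s₁ s₂ : ℝ} (hcm : c ≤ m) (h12 : s₁ ≤ s₂) (hc1 : c ≤ rv b.C1)
    (hm0 : rv b.M0 ≤ m) (hm1 : m ≤ rv b.M1) {w : Fin 3 → ℝ → ℝ} (hw : ∀ k, Continuous (w k))
    (hwn : ∀ k a, 0 ≤ w k a) : ∀ {r : List Node} {p : Node} {S : ℤ × ℤ × ℤ},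
    nodesFit b B A0 A1 A2 (p :: r) = true →
    (∀ a, rv p.X ≤ a → ∀ k, w k a = wOf (p :: r) k a) →
    DPInv s₁ s₂ S (rv p.X) (∫ a in c..max c (min m (rv p.X)), switched w s₁ s₂ a) →
    ((runDP b.C1 b.M0 (p :: r) S).2.2 : ℝ) / 2000000000000 ≤ ∫ a in c..m, switched w s₁ s₂ a
  | [], p, S, h, _, hS => by
    simp only [nodesFit, decide_eq_true_eq] at h
    have e : max c (min m (rv p.X)) = m := by
      rw [h, min_eq_left hm1, max_eq_right hcm]
    rw [e] at hS
    exact hS.2.2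
  | q :: r, p, S, h, hwp, hS => by
    have h' := h
    rw [nodesFit, Bool.and_eq_true] at h'
    have hX := cellOK_X h'.1
    have hwp' : ∀ a, rv q.X ≤ a → ∀ k, w k a = wOf (q :: r) k a := fun a ha k =>
      (hwp a (hX.le.trans ha) k).trans (poly_tail (pts_incr h k) ha)
    simp only [runDP]
    refine runDP_le hcm h12 hc1 hm0 hm1 hw hwn h'.2 hwp' ?_
    have hsn : ∀ a, 0 ≤ switched w s₁ s₂ a := fun a => by
      unfold switched; split_ifs <;> exact hwn _ _
    have hii := intervalIntegrable_switched hw s₁ s₂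
    simp only [stepDP]
    split_ifs with hu
    · have hp : rv p.X ∈ Icc c m :=
        ⟨hc1.trans (rv_le hu.1), hX.le.trans ((rv_le hu.2).trans hm0)⟩
      have hq : rv q.X ∈ Icc c m := ⟨hp.1.trans hX.le, (rv_le hu.2).trans hm0⟩
      rw [min_max_self hp] at hS
      rw [min_max_self hq, ← intervalIntegral.integral_add_adjacent_intervals (hii c (rv p.X))
        (hii (rv p.X) (rv q.X))]
      exact DPInv.step h12 hw hX
        (fun a ha k => (hwp a ha.1 k).trans (wOf_cell ha k)) hS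
    · refine hS.mono hX.le (intervalIntegral.integral_mono_interval le_rfl (le_max_left _ _)
        (max_le_max le_rfl (min_le_min le_rfl hX.le)) (Filter.Eventually.of_forall hsn) (hii _ _))

end Vale.Agent.P232.Win
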