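import Vale.Agent.P232.Win.Switch
import Vale.Agent.P232.Pins

/-!
# P232: from a certificate tree to the scalar facts
-/

noncomputable section

open MeasureTheory Set

namespace Vale.Agent.P232.Win

/-- The line of a bin lies above the target, with a margin. -/
theorem binDom_sound {q : TBin} (h : binDom q = true) {v : ℝ} (hv : 259 / 1000 ≤ v) :
    canonical v / 2 + 1 / 10 ^ 9 ≤ (q.A : ℝ) / 1000000 + (q.S : ℝ) / 1000000 * v := by
  have hv0 : 0 ≤ v := by linarith
  simp only [binDom, decide_eq_true_eq] at h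
  rcases h with ⟨hR, hR1, hA, hS⟩ | hA
  · have hR' : (0 : ℝ) < q.R := by exact_mod_cast hR
    have hA' := (Int.cast_le (R := ℝ)).2 hA
    have hS' := (Int.cast_le (R := ℝ)).2 hS
    have hR1' := (Int.cast_le (R := ℝ)).2 hR1
    push_cast at hA' hS' hR1'
    set r : ℝ := (q.R : ℝ) / 1000000 with hr
    have hr0 : 0 < r := by positivity
    have hr1 : r ≤ 1 := by rw [hr]; linarith
    have h1 : canonical v ≤ r + Real.pi * v / r := by
      refine ((min_le_left _ _).trans (min_le_right _ _)).trans ?_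
      have hs := Real.sq_sqrt (by positivity : (0 : ℝ) ≤ Real.pi * v)
      rw [tubePer, add_div' _ _ _ hr0.ne', le_div_iff₀ hr0]
      linarith [sq_nonneg (√(Real.pi * v) - r)]
    have h2 : Real.pi * v / r ≤ 2 * ((q.S : ℝ) / 1000000 * v) - 2 / 10 ^ 9 := by
      have hpi : Real.pi ≤ 31415927 / 10 ^ 7 := by linarith [Real.pi_lt_d20]
      rw [div_le_iff₀ hr0]
      have hRS : 3141593 / 1000000 * v ≤ 2 * ((q.S : ℝ) / 1000000 * v) * r := by
        rw [hr]; linarith [mul_le_mul_of_nonneg_right hS' hv0]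
      linarith [mul_le_mul_of_nonneg_right hpi hv0]
    have h3 : r ≤ 2 * ((q.A : ℝ) / 1000000) := by rw [hr]; linarith
    linarith
  · have h1 : canonical v ≤ 2 := min_le_right _ _
    have hA1 : (1000000 : ℤ) + 1 ≤ q.A := Int.add_one_le_iff.2 hA
    have hA' : (1000001 : ℝ) ≤ q.A := by exact_mod_cast hA1
    have : 0 ≤ (q.S : ℝ) / 1000000 * v := by positivity
    linarith

/-- An affine function is above a bound between two places where it is. -/
theorem affine_between {e0 e1 lo hi v : ℝ} (h : v ∈ Icc lo hi) (hl : 0 ≤ e0 + e1 * lo)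
    (hh : 0 ≤ e0 + e1 * hi) : 0 ≤ e0 + e1 * v := by
  rcases le_total 0 e1 with he | he
  · linarith [mul_le_mul_of_nonneg_left h.1 he]
  · linarith [mul_le_mul_of_nonpos_left h.2 he]

/-- A calibration which reaches a target reaches a smaller one. -/
theorem Reaches.mono {ok : Fin 3 → ℝ → ℝ → Prop} {D : ℝ → ℝ → Prop} {c m v tg tg' : ℝ}
    (h : Reaches ok D c m v tg) (hle : tg' ≤ tg) : Reaches ok D c m v tg' :=
  let ⟨K, hK⟩ := h
  ⟨K, fun T₁ T₂ s₁ s₂ a b c' d e f g => hle.trans (hK T₁ T₂ s₁ s₂ a b c' d e f g)⟩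

/-- The zero calibration, used where no durations occur. -/
theorem reaches_of_vacuous {th : Bool} {θ c m v tg : ℝ} {D : ℝ → ℝ → Prop}
    (h : ∀ T₁ T₂, 0 ≤ T₂ → T₂ ≤ T₁ → T₁ ≤ 1 → ¬ D T₁ T₂) : Reaches (okBox th θ) D c m v tg := by
  refine ⟨⟨fun _ => 0, 0, fun _ _ => 0, fun _ => continuous_const, fun _ _ => ⟨le_rfl, zero_le_one⟩,
    by norm_num, by norm_num, fun k a _ => ⟨0, okPlain_okBox ?_, by simp⟩⟩,
    fun T₁ T₂ s₁ s₂ a b c' d => absurd d (h T₁ T₂ a b c')⟩
  fin_cases k <;> simp [plainF, sliceF0, sliceF2, Real.sqrt_nonneg]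

theorem cast_min3 (x y z : ℤ) : ((min x (min y z) : ℤ) : ℝ) = min (x : ℝ) (min (y : ℝ) z) := by
  push_cast; rfl

/-- The constants over the durations. -/
theorem durMin_le {Tn Td : ℕ} (hn : Tn ≤ Td) (hd : 0 < Td) (A0 A1 A2 : ℤ) {T₁ T₂ : ℝ}
    (h2 : T₂ ≤ T₁) (h1 : T₁ ≤ 1) (ht : (Tn : ℝ) / Td ≤ T₂) :
    (durMin Tn Td A0 A1 A2 : ℝ) / (Td * 1000000) ≤
      (A0 : ℝ) / 1000000 * (1 - T₁) + (A1 : ℝ) / 1000000 * (T₁ - T₂) +
        (A2 : ℝ) / 1000000 * T₂ := by
  have hn' : (Tn : ℝ) ≤ Td := by exact_mod_cast hn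
  have hd' : (0 : ℝ) < Td := by exact_mod_cast hd
  rw [div_le_iff₀ hd'] at ht
  rw [div_le_iff₀ (by positivity)]
  have k0 : (durMin Tn Td A0 A1 A2 : ℝ) ≤ (A2 : ℝ) * Td := by
    rw [durMin, cast_min3]; push_cast; exact min_le_left _ _
  have k1 : (durMin Tn Td A0 A1 A2 : ℝ) ≤ (A2 : ℝ) * Tn + A0 * ((Td : ℝ) - Tn) := by
    rw [durMin, cast_min3]; push_cast; exact (min_le_right _ _).trans (min_le_left _ _)
  have k2 : (durMin Tn Td A0 A1 A2 : ℝ) ≤ (A2 : ℝ) * Tn + A1 * ((Td : ℝ) - Tn) := by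
    rw [durMin, cast_min3]; push_cast; exact (min_le_right _ _).trans (min_le_right _ _)
  generalize (durMin Tn Td A0 A1 A2 : ℝ) = D at *
  rcases hn'.eq_or_lt with e | hlt
  · have h2' : T₂ = 1 := le_antisymm (h2.trans h1) (by nlinarith)
    have h1' : T₁ = 1 := le_antisymm h1 (h2' ▸ h2)
    subst h2' h1'
    linarith
  · -- a convex combination of the three extreme durations
    have key : D * ((Td : ℝ) - Tn) ≤
        (A0 * (1 - T₁) + A1 * (T₁ - T₂) + A2 * T₂) * Td * ((Td : ℝ) - Tn) := by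
      linarith [mul_le_mul_of_nonneg_left k1 (mul_nonneg hd'.le (by linarith : (0 : ℝ) ≤ 1 - T₁)),
        mul_le_mul_of_nonneg_left k2 (mul_nonneg hd'.le (by linarith : (0 : ℝ) ≤ T₁ - T₂)),
        mul_le_mul_of_nonneg_left k0 (by linarith : (0 : ℝ) ≤ T₂ * Td - Tn)]
    have := le_of_mul_le_mul_right key (by linarith)
    linarith

/-- The hypotheses which a tree takes from its root. -/
structure RootHyp (q : TBin) (dur : WBox → ℕ × ℕ) (corner : WBox → Bool) (th : Bool)
    (D : ℝ → ℝ → Prop) (c m v θ : ℝ) : Prop where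
  dom : binDom q = true
  bin : v ∈ Icc (rv q.V0) (rv q.V1)
  hv : 259 / 1000 ≤ v
  hcv : c ≤ v
  hvm : v ≤ m
  hcm : c ≤ m
  hm1 : m ≤ 1
  hθm : th = true → θ ≤ m
  dur_le : ∀ b, b.theta = th → Inside b c m θ → ∀ T₁ T₂, 0 ≤ T₂ → T₂ ≤ T₁ → T₁ ≤ 1 → D T₁ T₂ →
    ((dur b).1 : ℝ) / (dur b).2 ≤ T₂
  no_corner : ∀ b, b.theta = th → Inside b c m θ → corner b ≠ true
  vac : th = true → θ = m → m < 1 → ∀ T₁ T₂, 0 ≤ T₂ → T₂ ≤ T₁ → T₁ ≤ 1 → ¬ D T₁ T₂

variable {q : TBin} {dur : WBox → ℕ × ℕ} {corner : WBox → Bool} {th : Bool} {D : ℝ → ℝ → Prop}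
  {c m v θ : ℝ}

theorem leaf_sound (H : RootHyp q dur corner th D c m v θ) {b : WBox} (hth : b.theta = th)
    (hin : Inside b c m θ) {B A0 A1 A2 : ℤ} {l : List Node}
    (h : leafFit q dur b B A0 A1 A2 l = true) :
    Reaches (okBox th θ) D c m v (canonical v / 2 + 1 / 10 ^ 9) := by
  rcases l with _ | ⟨p, _ | ⟨q', r⟩⟩
  · simp [leafFit] at h
  · simp [leafFit] at h
  simp only [leafFit, Bool.and_eq_true, Bool.or_eq_true, decide_eq_true_eq] at h
  obtain ⟨⟨⟨hX, hB, hA0, hA1, hA2, hdn, hdd⟩, hfit⟩, hval⟩ := h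
  have c0 : 0 ≤ c := le_trans (by unfold rv; positivity) hin.c0
  have hw : ∀ k, Continuous (wOf (p :: q' :: r) k) := fun k => continuous_poly (pts_incr hfit k)
  have hmem : ∀ k a, wOf (p :: q' :: r) k a ∈ Icc (0 : ℝ) 1 := fun k a =>
    poly_mem (pts_incr hfit k) (pts_mem hfit k) a
  have abs20 : ∀ A : ℤ, |A| ≤ 20 * den → |(A : ℝ) / 1000000| ≤ 20 := by
    intro A hA
    have hA' : |A| ≤ 20000000 := hA
    have : |(A : ℝ)| ≤ 20000000 := by exact_mod_cast hA'
    rw [abs_div, abs_of_pos (by norm_num : (0 : ℝ) < 1000000)]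
    linarith
  let K : Calib (okBox th θ) c m :=
    { α := fun k => ((![A0, A1, A2] k : ℤ) : ℝ) / 1000000
      β := (B : ℝ) / 1000000
      w := wOf (p :: q' :: r)
      cont := hw
      mem := hmem
      alpha_le := fun k => by fin_cases k; exacts [abs20 _ hA0, abs20 _ hA1, abs20 _ hA2]
      beta_le := abs20 _ hB
      valid := fun k a ha => by
        obtain ⟨x, y, h1, h2, h3⟩ := exists_cell hfit (a := a)
          ⟨by rw [hX]; exact hin.c0.trans ha.1, ha.2.trans hin.m1⟩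
        obtain ⟨L, hL1, hL2⟩ := cell_sound hin h1 h2 (ha.2.trans H.hm1) k
        exact ⟨L, hth ▸ hL1, (h3 k).symm ▸ hL2⟩ }
  refine ⟨K, fun T₁ T₂ s₁ s₂ t0 t21 t1 hD hs1 h12 hs2 => ?_⟩
  have hdur := durMin_le hdn hdd A0 A1 A2 t21 t1 (H.dur_le b hth hin T₁ T₂ t0 t21 t1 hD)
  have hrun := runDP_le (b := b) (B := B) (A0 := A0) (A1 := A1) (A2 := A2) (s₁ := s₁) (s₂ := s₂)
    H.hcm h12 hin.c1 hin.m0 hin.m1 hw (fun k a => (hmem k a).1) (S := (0, 0, 0)) hfit
    (fun _ _ _ => rfl) (by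
      have e : max c (min m (rv p.X)) = c := by
        rw [hX, max_eq_left]; exact (min_le_right _ _).trans hin.c0
      rw [e, intervalIntegral.integral_same]
      exact ⟨fun _ => by simp, fun _ => by simp, by simp⟩)
  rw [integral_switched hw hs1 h12 hs2] at hrun
  have hdom := binDom_sound H.dom H.hv
  simp only [Calib.value, K, Matrix.cons_val_zero, Matrix.cons_val_one, Matrix.cons_val]
  set G : ℤ := (runDP b.C1 b.M0 (p :: q' :: r) (0, 0, 0)).2.2
  set Dm : ℤ := durMin (dur b).1 (dur b).2 A0 A1 A2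
  suffices hlin : (q.A : ℝ) / 1000000 + (q.S : ℝ) / 1000000 * v ≤
      (B : ℝ) / 1000000 * v + (Dm : ℝ) / ((dur b).2 * 1000000) + (G : ℝ) / 2000000000000 by linarith
  have hlo : rv (max q.V0 b.C0) ≤ v := by
    rcases max_choice q.V0 b.C0 with e | e <;> rw [e]
    exacts [H.bin.1, hin.c0.trans H.hcv]
  have hhi : v ≤ rv (min q.V1 b.M1) := by
    rcases min_choice q.V1 b.M1 with e | e <;> rw [e]
    exacts [H.bin.2, H.hvm.trans hin.m1]
  rcases hval with hval | ⟨vl, vr⟩
  · exfalso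
    have : rv (min q.V1 b.M1) < rv (max q.V0 b.C0) := by unfold rv; gcongr
    linarith
  have hd' : (0 : ℝ) < (dur b).2 := by exact_mod_cast hdd
  have key : ∀ V : ℕ, valueOKW q B G Dm (dur b).2 V = true →
      0 ≤ ((Dm : ℝ) / ((dur b).2 * 1000000) + (G : ℝ) / 2000000000000 - (q.A : ℝ) / 1000000) +
        ((B : ℝ) / 1000000 - (q.S : ℝ) / 1000000) * rv V := by
    intro V hV
    simp only [valueOKW, decide_eq_true_eq] at hV
    have hV' := (Int.cast_le (R := ℝ)).2 hV
    push_cast at hV'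
    have e : ((Dm : ℝ) / ((dur b).2 * 1000000) + (G : ℝ) / 2000000000000 - (q.A : ℝ) / 1000000) +
        ((B : ℝ) / 1000000 - (q.S : ℝ) / 1000000) * rv V =
        ((dur b).2 * (2 * B * V + G) + 2 * 1000000 * Dm -
          2 * (dur b).2 * ((q.A : ℝ) * 1000000 + q.S * V)) / ((dur b).2 * 2000000000000) := by
      unfold rv; field_simp; ring
    rw [e]
    exact div_nonneg (by linarith) (by positivity)
  linarith [affine_between ⟨hlo, hhi⟩ (key _ vl) (key _ vr)]

theorem skip_sound (H : RootHyp q dur corner th D c m v θ) {b : WBox} (hth : b.theta = th)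
    (hin : Inside b c m θ) (h : skipOK q b = true) :
    Reaches (okBox th θ) D c m v (canonical v / 2 + 1 / 10 ^ 9) := by
  refine reaches_of_vacuous fun T₁ T₂ t0 t21 t1 => ?_
  simp only [skipOK, Bool.or_eq_true, Bool.and_eq_true, decide_eq_true_eq] at h
  rcases h with (h | h) | ⟨hb, h1, h2⟩
  · have : rv q.V1 < rv b.C0 := by unfold rv; gcongr
    linarith [H.bin.2, H.hcv, hin.c0]
  · have : rv b.M1 < rv q.V0 := by unfold rv; gcongr
    linarith [H.bin.1, H.hvm, hin.m1]
  · have e1 : θ = m := le_antisymm (H.hθm (hth ▸ hb))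
      (hin.m1.trans ((rv_le h1).trans (hin.t0 hb)))
    have e2 : m < 1 := by
      have : (b.T0 : ℝ) < 1000000 := by exact_mod_cast h2
      refine hin.m1.trans_lt ((rv_le h1).trans_lt ?_)
      rw [rv, div_lt_one (by norm_num)]; exact this
    exact H.vac (hth ▸ hb) e1 e2 T₁ T₂ t0 t21 t1

theorem check_sound (H : RootHyp q dur corner th D c m v θ) : ∀ {t : WCert} {b : WBox},
    b.theta = th → Inside b c m θ → checkW q dur corner t b = true →
    Reaches (okBox th θ) D c m v (canonical v / 2 + 1 / 10 ^ 9)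
  | .leaf B A0 A1 A2 xs, b, hth, hin, h => leaf_sound H hth hin h
  | .skip, b, hth, hin, h => skip_sound H hth hin h
  | .corner, b, hth, hin, h => absurd h (H.no_corner b hth hin)
  | .splitC s l r, b, hth, hin, h => by
    simp only [checkW, Bool.and_eq_true] at h
    rcases le_total c (rv s) with hs | hs
    · exact check_sound H (b := { b with C1 := s }) hth { hin with c1 := hs } h.1
    · exact check_sound H (b := { b with C0 := s }) hth { hin with c0 := hs } h.2
  | .splitM s l r, b, hth, hin, h => by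
    simp only [checkW, Bool.and_eq_true] at h
    rcases le_total m (rv s) with hs | hs
    · exact check_sound H (b := { b with M1 := s }) hth { hin with m1 := hs } h.1
    · exact check_sound H (b := { b with M0 := s }) hth { hin with m0 := hs } h.2
  | .splitT s l r, b, hth, hin, h => by
    simp only [checkW, Bool.and_eq_true] at h
    rcases le_total θ (rv s) with hs | hs
    · exact check_sound H (b := { b with T1 := s }) hth { hin with t1 := fun _ => hs } h.1
    · exact check_sound H (b := { b with T0 := s }) hth { hin with t0 := fun _ => hs } h.2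

end Vale.Agent.P232.Win
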